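import Vale.Agent.P181.H162.Fill

/-!
# P181 (T6), leaf [LD]: dealing the letters of a class evenly
-/

set_option autoImplicit false

namespace Vale.Agent.P181.T6

open Finset

/-- the `n` letters of smallest load. -/
theorem exists_smallest {α : Type} [DecidableEq α] (A : Finset α) (L : α → ℕ) :
    ∀ n ≤ A.card, ∃ B ⊆ A, B.card = n ∧ ∀ x ∈ B, ∀ y ∈ A \ B, L x ≤ L y := by
  intro n
  induction n with
  | zero =>
    intro _
    exact ⟨∅, empty_subset _, rfl, fun x hx => absurd hx (notMem_empty x)⟩
  | succ n ih =>
    intro hn
    obtain ⟨B, hBA, hBn, hB⟩ := ih (by omega)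
    have hne : (A \ B).Nonempty := by
      rw [← card_pos, card_sdiff_of_subset hBA]
      omega
    obtain ⟨y, hy, hmin⟩ := exists_min_image (A \ B) L hne
    rw [mem_sdiff] at hy
    refine ⟨insert y B, ?_, ?_, ?_⟩
    · intro z hz
      rw [mem_insert] at hz
      rcases hz with rfl | hz
      · exact hy.1
      · exact hBA hz
    · rw [card_insert_of_notMem hy.2, hBn]
    · intro x hx z hz
      rw [mem_sdiff, mem_insert, not_or] at hz
      have hz' : z ∈ A \ B := mem_sdiff.2 ⟨hz.1, hz.2.2⟩
      rw [mem_insert] at hx
      rcases hx with rfl | hx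
      · exact hmin z hz'
      · exact hB x hx z hz'

/-- [LD] Dealing the letters of a class evenly. -/
theorem exists_deal {ι : Type} [Fintype ι] [DecidableEq ι] {α : Type} [Fintype α] [DecidableEq α]
    (A : Finset α) (n : ι → ℕ) (hn : ∀ c, n c ≤ A.card) :
    ∃ β : ι → Finset α, (∀ c, β c ⊆ A) ∧ (∀ c, (β c).card = n c) ∧
      ∀ q, Vale.Agent.P181.H162.dg β q ≤ (∑ c, n c) / A.card + 1 := by
  have key : ∀ s : Finset ι, ∃ β : ι → Finset α, (∀ c, β c ⊆ A) ∧
      (∀ c ∈ s, (β c).card = n c) ∧
      ∀ q ∈ A, ∀ q' ∈ A, (s.filter (fun c => q ∈ β c)).card ≤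
        (s.filter (fun c => q' ∈ β c)).card + 1 := by
    intro s
    induction s using Finset.induction_on with
    | empty =>
      exact ⟨fun _ => ∅, fun _ => empty_subset _, fun c hc => absurd hc (notMem_empty c), by simp⟩
    | insert c s hc ih =>
      obtain ⟨β, h1, h2, h3⟩ := ih
      obtain ⟨B, hBA, hBn, hB⟩ := exists_smallest A
        (fun q => (s.filter (fun c => q ∈ β c)).card) (n c) (hn c)
      refine ⟨Function.update β c B, ?_, ?_, ?_⟩
      · intro c'
        by_cases h : c' = c
        · subst h
          rw [Function.update_self]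
          exact hBA
        · rw [Function.update_of_ne h]
          exact h1 c'
      · intro c' hc'
        by_cases h : c' = c
        · subst h
          rw [Function.update_self]
          exact hBn
        · rw [Function.update_of_ne h]
          exact h2 c' (mem_of_mem_insert_of_ne hc' h)
      · have hload : ∀ q, ((insert c s).filter (fun c' => q ∈ Function.update β c B c')).card =
            (s.filter (fun c' => q ∈ β c')).card + if q ∈ B then 1 else 0 := by
          intro q
          have h4 : s.filter (fun c' => q ∈ Function.update β c B c') =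
              s.filter (fun c' => q ∈ β c') := by
            apply filter_congr
            intro c' hc'
            have hne : c' ≠ c := by
              rintro rfl
              exact hc hc'
            rw [Function.update_of_ne hne]
          rw [filter_insert, Function.update_self, h4]
          split_ifs with hq
          · rw [card_insert_of_notMem (fun h => hc (mem_filter.1 h).1)]
          · rfl
        intro q hq q' hq'
        rw [hload, hload]
        have h5 := h3 q hq q' hq'
        by_cases hqB : q ∈ B
        · by_cases hqB' : q' ∈ B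
          · rw [if_pos hqB, if_pos hqB']
            omega
          · rw [if_pos hqB, if_neg hqB']
            have h6 := hB q hqB q' (mem_sdiff.2 ⟨hq', hqB'⟩)
            omega
        · rw [if_neg hqB]
          omega
  obtain ⟨β, h1, h2, h3⟩ := key univ
  refine ⟨β, h1, fun c => h2 c (mem_univ c), fun q => ?_⟩
  by_cases hq : q ∈ A
  · have hpos : 0 < A.card := card_pos.2 ⟨q, hq⟩
    have h4 : A.card * (H162.dg β q - 1) ≤ ∑ c, n c := by
      have h5 : ∑ q' ∈ A, H162.dg β q' = ∑ c, n c := by
        have h6 := H162.sum_dg β
        rw [← sum_congr rfl (fun c _ => h2 c (mem_univ c)), ← h6]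
        apply sum_subset (subset_univ A)
        intro x _ hx
        unfold H162.dg
        rw [card_eq_zero, filter_eq_empty_iff]
        intro c _ hc
        exact hx (h1 c hc)
      rw [← h5, ← smul_eq_mul, ← sum_const]
      apply sum_le_sum
      intro q' hq'
      have h7 := h3 q hq q' hq'
      unfold H162.dg
      omega
    have h8 : H162.dg β q - 1 ≤ (∑ c, n c) / A.card := by
      rw [Nat.le_div_iff_mul_le hpos, mul_comm]
      exact h4
    exact Nat.sub_le_iff_le_add.1 h8
  · have h4 : H162.dg β q = 0 := by
      unfold H162.dg
      rw [card_eq_zero, filter_eq_empty_iff]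
      intro c _ hc
      exact hq (h1 c hc)
    rw [h4]
    exact Nat.zero_le _

end Vale.Agent.P181.T6
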