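import Vale.Agent.P181.H411.LE
import Vale.Agent.P181.H463.ChooseL

/-!
# P181 (T6/LB6), leaf [LE]: `Par6Stmt`
-/

set_option autoImplicit false

namespace Vale.Agent.P181.H411

open Vale.Agent.P181.T6 Vale.Agent.P181.T4 Vale.Agent.P181.H162 Filter

/-- logarithms against powers. -/
theorem ev_log5 (c th : ℝ) (hc : 0 < c) (hth : 0 < th) :
    ∀ᶠ a : ℕ in atTop, 3 ≤ a ∧ c * (1 + Real.log a) ^ 5 ≤ (a : ℝ) ^ th := by
  have h1 := (isLittleO_log_rpow_rpow_atTop 5 hth).bound (c := 1 / (c * 32)) (by positivity)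
  have h2 := tendsto_natCast_atTop_atTop.eventually h1
  filter_upwards [h2, eventually_ge_atTop 3] with a ha ha3
  refine ⟨ha3, ?_⟩
  have ha3' : (3 : ℝ) ≤ a := by exact_mod_cast ha3
  have hlog : 1 ≤ Real.log a := by
    rw [Real.le_log_iff_exp_le (by linarith)]
    have := Real.exp_one_lt_d9
    linarith
  rw [Real.norm_of_nonneg (by positivity), Real.norm_of_nonneg (by positivity)] at ha
  have e1 : Real.log a ^ (5 : ℝ) = Real.log a ^ 5 := by
    rw [← Real.rpow_natCast]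
    norm_num
  rw [e1] at ha
  have e2 : (1 + Real.log a) ^ 5 ≤ (2 * Real.log a) ^ 5 := by
    apply pow_le_pow_left₀ (by linarith)
    linarith
  have e3 : (2 * Real.log a) ^ 5 = 32 * Real.log a ^ 5 := by ring
  calc c * (1 + Real.log a) ^ 5 ≤ c * (32 * Real.log a ^ 5) := by
        rw [← e3]
        exact mul_le_mul_of_nonneg_left e2 hc.le
    _ ≤ c * (32 * (1 / (c * 32) * (a : ℝ) ^ th)) := by
        apply mul_le_mul_of_nonneg_left _ hc.le
        linarith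
    _ = (a : ℝ) ^ th := by field_simp

/-- **[LE]** the numbers exist. -/
theorem par6_stmt : Par6Stmt := by
  intro ε hε hε'
  have hth : 0 < ε / 20 := by positivity
  obtain ⟨m0, hm0⟩ : ∃ m0 : ℕ, m0 = ⌈4 / (ε / 20)⌉₊ := ⟨_, rfl⟩
  have hm01 : 4 / (ε / 20) ≤ m0 := by rw [hm0]; exact Nat.le_ceil _
  have hm0pos : 1 ≤ m0 := by
    have h1 : (0 : ℝ) < m0 := lt_of_lt_of_le (by positivity) hm01
    exact_mod_cast h1
  filter_upwards [ev_log5 (10 ^ 8 * ((2 * m0 : ℕ) : ℝ)) (ε / 20) (by positivity) hth,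
    H463.choose_l ε hε hε'] with a ha1 ha2
  obtain ⟨ha3, hlogT⟩ := ha1
  intro k b n lam hyp
  obtain ⟨l, hl1, hln, hn1, hla, hoff, htop⟩ := ha2 k b n lam hyp
  obtain ⟨hna, hk, hka, hb, hb2, -, -, -⟩ := hyp
  have ha3' : (3 : ℝ) ≤ a := by exact_mod_cast ha3
  have ha1' : (1 : ℝ) ≤ a := by linarith
  have ha0 : (0 : ℝ) < a := by linarith
  have hlog : 0 ≤ Real.log a := Real.log_nonneg ha1'
  obtain ⟨Lg, hLg⟩ : ∃ z : ℝ, z = 1 + Real.log a := ⟨_, rfl⟩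
  rw [← hLg] at hlogT hn1 hla
  have hLg1 : 1 ≤ Lg := by rw [hLg]; linarith
  obtain ⟨T, hT⟩ : ∃ T : ℝ, T = (a : ℝ) ^ (ε / 20) := ⟨_, rfl⟩
  rw [← hT] at hlogT
  have hTpow : ∀ j : ℕ, T ^ j = (a : ℝ) ^ (ε / 20 * j) := by
    intro j
    rw [hT, ← Real.rpow_natCast, ← Real.rpow_mul ha0.le]
  have hm2 : (2 : ℝ) ≤ ((2 * m0 : ℕ) : ℝ) := by
    exact_mod_cast (show 2 ≤ 2 * m0 by omega)
  have hT1 : 10 ^ 8 * (((2 * m0 : ℕ) : ℝ) * Lg ^ 5) ≤ T := by
    have : 10 ^ 8 * (((2 * m0 : ℕ) : ℝ) * Lg ^ 5) = 10 ^ 8 * ((2 * m0 : ℕ) : ℝ) * Lg ^ 5 := by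
      ring
    rw [this]
    exact hlogT
  have hLg5 : Lg ≤ Lg ^ 5 := by
    calc Lg = Lg ^ 1 := (pow_one _).symm
      _ ≤ Lg ^ 5 := pow_le_pow_right₀ hLg1 (by norm_num)
  have hTL : 2 * 10 ^ 8 * Lg ≤ T := by
    have h1 : 2 * Lg ≤ ((2 * m0 : ℕ) : ℝ) * Lg ^ 5 := by
      apply mul_le_mul hm2 hLg5 (by linarith) (by linarith)
    linarith
  have hT8 : 2 * 10 ^ 8 ≤ T := by linarith
  -- u
  obtain ⟨u, hu⟩ : ∃ u : ℕ, u = ⌈(a : ℝ) ^ (ε / 40)⌉₊ := ⟨_, rfl⟩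
  have hs : (a : ℝ) ^ (ε / 40) * (a : ℝ) ^ (ε / 40) = T := by
    rw [hT, ← Real.rpow_add ha0]
    congr 1
    ring
  have hs1 : 1 ≤ (a : ℝ) ^ (ε / 40) := Real.one_le_rpow ha1' (by positivity)
  have hs2 : 2 ≤ (a : ℝ) ^ (ε / 40) := by
    by_contra hcon
    push Not at hcon
    have h1 := mul_le_mul hcon.le hcon.le (by linarith) (by norm_num)
    rw [hs] at h1
    linarith
  have hu1 : (a : ℝ) ^ (ε / 40) ≤ u := by rw [hu]; exact Nat.le_ceil _
  have hu2 : (u : ℝ) ≤ T := by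
    have h1 := (Nat.ceil_lt_add_one (show 0 ≤ (a : ℝ) ^ (ε / 40) by linarith)).le
    rw [← hu] at h1
    rw [← hs]
    nlinarith
  have hupos : 1 ≤ u := by
    have : (0 : ℝ) < u := by linarith
    exact_mod_cast this
  have hub : b ≤ 4 * u ^ (2 * m0) := by
    have h1 : (b : ℝ) ≤ 4 * (u : ℝ) ^ (2 * m0) := by
      have h2 : ((a : ℝ) ^ (ε / 40)) ^ (2 * m0) ≤ (u : ℝ) ^ (2 * m0) :=
        pow_le_pow_left₀ (by linarith) hu1 _
      have h3 : (a : ℝ) ^ (2 : ℝ) ≤ ((a : ℝ) ^ (ε / 40)) ^ (2 * m0) := by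
        rw [← Real.rpow_natCast, ← Real.rpow_mul ha0.le]
        apply Real.rpow_le_rpow_of_exponent_le ha1'
        push_cast
        rw [div_le_iff₀ (by positivity)] at hm01
        linarith
      have h4 : (b : ℝ) ≤ (a : ℝ) ^ (2 : ℝ) := by
        rw [show (2 : ℝ) = ((2 : ℕ) : ℝ) by norm_num, Real.rpow_natCast]
        exact_mod_cast hb2
      have h5 : 0 ≤ (u : ℝ) ^ (2 * m0) := by positivity
      linarith
    exact_mod_cast h1
  -- the powers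
  have hk1 : T ^ 4 ≤ k := by
    refine le_trans ?_ hk
    rw [hTpow]
    apply Real.rpow_le_rpow_of_exponent_le ha1'
    push_cast
    linarith
  have hk2 : (a : ℝ) * T ^ 4 ≤ (k : ℝ) ^ 2 := by
    have h1 : ((a : ℝ) ^ (1 / 2 + ε)) ^ 2 ≤ (k : ℝ) ^ 2 :=
      pow_le_pow_left₀ (by positivity) hk 2
    refine le_trans ?_ h1
    rw [hTpow, ← Real.rpow_natCast ((a : ℝ) ^ (1 / 2 + ε)), ← Real.rpow_mul ha0.le]
    nth_rewrite 1 [← Real.rpow_one (a : ℝ)]
    rw [← Real.rpow_add ha0]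
    apply Real.rpow_le_rpow_of_exponent_le ha1'
    push_cast
    linarith
  have hbA : (a : ℝ) * T ^ 5 ≤ b := by
    refine le_trans ?_ hb
    rw [hTpow]
    nth_rewrite 1 [← Real.rpow_one (a : ℝ)]
    rw [← Real.rpow_add ha0]
    apply Real.rpow_le_rpow_of_exponent_le ha1'
    push_cast
    linarith
  have hT0 : 0 < T := by linarith
  have hlT : T ^ 4 ≤ l := by
    have h1 : T ^ 5 ≤ (a : ℝ) ^ ε := by
      rw [hTpow]
      apply Real.rpow_le_rpow_of_exponent_le ha1'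
      push_cast
      linarith
    have h2 : Lg * l ≤ T * l := by
      apply mul_le_mul_of_nonneg_right _ (Nat.cast_nonneg l)
      linarith
    have h3 : T * T ^ 4 ≤ T * l := by
      have : T * T ^ 4 = T ^ 5 := by ring
      rw [this]
      linarith
    exact le_of_mul_le_mul_left h3 hT0
  obtain ⟨Y, R, x, h, G, P, La, wm, Nl, hpar, hKR, hN1, hcells⟩ :=
    le_core a k b n (2 * m0) l u (ex lam) T Lg ⟨m0, by ring⟩ (by omega) hLg1 hT1 hk1 hk2 hka hbA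
      hlT hln hna hn1 hoff htop hupos hu2 hub
  refine ⟨2 * m0, u, Y, R, l, x, h, G, P, La, wm, Nl, hpar, ?_⟩
  intro N hNN hNb
  have hNr : (Nl : ℝ) ≤ N := by exact_mod_cast hNN
  refine ⟨hl1, hln, by rw [← hLg]; exact hn1, hpar.hRl, ?_, hNb, ?_, ?_⟩
  · refine le_trans hKR ?_
    apply mul_le_mul_of_nonneg_right _ (by positivity)
    rw [hTpow]
    apply Real.rpow_le_rpow_of_exponent_le ha1'
    push_cast
    linarith
  · rw [← hLg]
    refine le_trans hN1 ?_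
    apply mul_le_mul_of_nonneg_left hNr
    linarith
  · rw [Nat.cast_min]
    have h1 : Real.log a ^ 3 ≤ Lg ^ 3 := by
      apply pow_le_pow_left₀ hlog
      rw [hLg]
      linarith
    have h2 : 0 ≤ 100 * ((FC k b (2 * m0) u Y x G P * (4 * l) : ℕ) : ℝ) := by positivity
    have h3 := mul_le_mul_of_nonneg_left h1 h2
    have h4 : (Nl : ℝ) * min (k : ℝ) (l : ℝ) ≤ N * min (k : ℝ) (l : ℝ) :=
      mul_le_mul_of_nonneg_right hNr (le_min (Nat.cast_nonneg k) (Nat.cast_nonneg l))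
    linarith

end Vale.Agent.P181.H411
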