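import Vale.Agent.P181.T6.Spec
import Vale.Agent.P181.H502.Surplus

/-!
# P181 (T6), leaf [LA]: `Types` from frames, chains and guards
-/

set_option autoImplicit false

open scoped Classical

namespace Vale.Agent.P181.T6

open Finset

/-- [LA] Types from frames, chains, guards. -/
theorem types_of {m R N : ℕ} {T S C : Type} [Fintype T] [Fintype S] [Fintype C]
    (D : Design m R N T S C) (w : Fin R → ℕ) (pl : Fin R → ℕ → T)
    (hcls : ∀ r g, g < w r → D.cls (pl r g) = r)
    (hsurj : ∀ (t : T) (r : Fin R), D.cls t = r → ∃ g < w r, pl r g = t)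
    (hinj : ∀ r g g', g < w r → g' < w r → pl r g = pl r g' → g = g')
    (M : ℕ) (hM : 0 < M) (hMw : ∀ r, M ≤ w r)
    (hframe : ∀ r r' : Fin R, r ≠ r' → ∀ g, g < w r → g < w r' →
      ∃ c, D.known c (Sum.inl (pl r g)) ∧ D.known c (Sum.inl (pl r' g)))
    (hchain : ∀ r r' : Fin R, r ≠ r' → ∀ g, g < w r → g + 1 < w r' →
      ∃ c, D.known c (Sum.inl (pl r g)) ∧ D.known c (Sum.inl (pl r' (g + 1))))
    (sb : S ⊕ Fin N → ℕ) (hsb : ∀ q, sb q + 1 < M)
    (hguard : ∀ q r g, (g = sb q ∨ g = sb q + 1) →
      ∃ c, D.known c (Sum.inr q) ∧ D.known c (Sum.inl (pl r g)))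
    (hblock : ∀ q q', q ≠ q' → sb q = sb q' →
      ∃ c, D.known c (Sum.inr q) ∧ D.known c (Sum.inr q')) : D.Types := by
  intro X hdis hind hcard
  have hinj2 : ∀ r g r' g', g < w r → g' < w r' → pl r g = pl r' g' → r = r' ∧ g = g' := by
    intro r g r' g' hg hg' h
    have h1 := hcls r g hg
    have h2 := hcls r' g' hg'
    rw [h] at h1
    have h3 : r = r' := Fin.ext (h1.symm.trans h2)
    subst h3
    exact ⟨rfl, hinj r g g' hg hg' h⟩
  -- the pure letters
  have hpure : ∀ r : Fin R, ∀ p, p ∈ D.pure r ↔ ∃ g, g < w r ∧ p = Sum.inl (pl r g) := by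
    intro r p
    rw [Design.pure, mem_filter]
    constructor
    · rintro ⟨-, t, rfl, ht⟩
      obtain ⟨g, hg, hgt⟩ := hsurj t r ht
      exact ⟨g, hg, by rw [hgt]⟩
    · rintro ⟨g, hg, rfl⟩
      exact ⟨mem_univ _, pl r g, rfl, hcls r g hg⟩
  have hpcard : ∀ r : Fin R, (D.pure r).card = w r := by
    intro r
    have h1 : D.pure r = (range (w r)).image (fun g => Sum.inl (pl r g)) := by
      ext p
      rw [hpure r p, mem_image]
      constructor
      · rintro ⟨g, hg, rfl⟩
        exact ⟨g, mem_range.2 hg, rfl⟩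
      · rintro ⟨g, hg, rfl⟩
        exact ⟨g, mem_range.1 hg, rfl⟩
    rw [h1, card_image_of_injOn, card_range]
    intro g hg g' hg' h
    rw [mem_coe, mem_range] at hg hg'
    exact hinj r g g' hg hg' (Sum.inl_injective h)
  -- sorting
  set σ : Equiv.Perm (Fin R) := Tuple.sort (fun r => OrderDual.toDual (w r)) with hσ
  have hanti : Antitone (fun r => w (σ r)) := by
    intro i j hij
    have h1 := Tuple.monotone_sort (fun r => OrderDual.toDual (w r)) hij
    exact h1
  let conf : T ⊕ (S ⊕ Fin N) → T ⊕ (S ⊕ Fin N) → Prop :=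
    fun p q => ∃ c, D.known c p ∧ D.known c q
  let Nb : T ⊕ (S ⊕ Fin N) → Finset ℕ := fun o => match o with
    | Sum.inl _ => ∅
    | Sum.inr q => {sb q, sb q + 1}
  have hpts : ∀ o : T ⊕ (S ⊕ Fin N), (∀ r g, g < w (σ r) → o ≠ Sum.inl (pl (σ r) g)) →
      ∃ q, o = Sum.inr q := by
    intro o ho
    rcases o with t | q
    · exfalso
      obtain ⟨g, hg, hgt⟩ := hsurj t ⟨D.cls t, D.cls_lt t⟩ rfl
      refine ho (σ.symm ⟨D.cls t, D.cls_lt t⟩) g ?_ ?_
      · rw [Equiv.apply_symm_apply]
        exact hg
      · rw [Equiv.apply_symm_apply, hgt]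
    · exact ⟨q, rfl⟩
  obtain ⟨π, hπ⟩ := H502.surplus conf (fun r => w (σ r)) M hanti (fun r => hMw _) hM
    (fun r g => Sum.inl (pl (σ r) g))
    (by
      intro r g r' g' hg hg' h
      obtain ⟨h1, h2⟩ := hinj2 _ _ _ _ hg hg' (Sum.inl_injective h)
      exact ⟨σ.injective h1, h2⟩)
    (by
      intro r r' g hne hg hg'
      exact hframe _ _ (fun h => hne (σ.injective h)) g hg hg')
    (by
      intro r r' g hne hg hg'
      exact hchain _ _ (fun h => hne (σ.injective h)) g hg hg')
    Nb
    (by
      intro o g hg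
      rcases o with t | q
      · simp [Nb] at hg
      · simp only [Nb, mem_insert, mem_singleton] at hg
        have := hsb q
        omega)
    (by
      intro o ho g hg r
      obtain ⟨q, rfl⟩ := hpts o ho
      simp only [Nb, mem_insert, mem_singleton] at hg
      exact hguard q (σ r) g hg)
    (by
      intro Y hY hne hconf
      have hY' : ∀ o ∈ Y, ∃ q, o = Sum.inr q := fun o ho => hpts o (hY o ho)
      let s : T ⊕ (S ⊕ Fin N) → ℕ := fun o => match o with
        | Sum.inl _ => 0
        | Sum.inr q => sb q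
      have hsinj : Set.InjOn s (Y : Set (T ⊕ (S ⊕ Fin N))) := by
        intro o ho o' ho' hss
        by_contra hne'
        obtain ⟨q, rfl⟩ := hY' o ho
        obtain ⟨q', rfl⟩ := hY' o' ho'
        simp only [s] at hss
        apply hconf _ ho _ ho' hne'
        exact hblock q q' (fun h => hne' (by rw [h])) hss
      have himg : (Y.image s).card = Y.card := card_image_of_injOn hsinj
      have hne2 : (Y.image s).Nonempty := hne.image s
      set K := (Y.image s).max' hne2 with hK
      have hKmem : K ∈ Y.image s := max'_mem _ _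
      have hK1 : K + 1 ∉ Y.image s := by
        intro h
        have := le_max' _ _ h
        omega
      have hsub : insert (K + 1) (Y.image s) ⊆ Y.biUnion Nb := by
        intro g hg
        rw [mem_insert, mem_image] at hg
        rw [mem_biUnion]
        rcases hg with hg | ⟨o, ho, hog⟩
        · rw [mem_image] at hKmem
          obtain ⟨o, ho, hoM⟩ := hKmem
          refine ⟨o, ho, ?_⟩
          obtain ⟨q, rfl⟩ := hY' o ho
          simp only [s] at hoM
          simp only [Nb, mem_insert, mem_singleton]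
          right
          rw [hg, hoM]
        · refine ⟨o, ho, ?_⟩
          obtain ⟨q, rfl⟩ := hY' o ho
          simp only [s] at hog
          simp only [Nb, mem_insert, mem_singleton]
          left
          exact hog.symm
      have h3 := card_le_card hsub
      rw [card_insert_of_notMem hK1, himg] at h3
      exact h3)
    (fun r => X (σ r))
    (by
      intro r r' hne
      exact hdis _ _ (fun h => hne (σ.injective h)))
    (by
      intro r p hp q hq hpq hc
      obtain ⟨c, hc1, hc2⟩ := hc
      exact hind (σ r) p hp q hq hpq c ⟨hc1, hc2⟩)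
    (by
      intro r
      rw [hcard, hpcard])
  refine ⟨(σ.symm.trans π).trans σ, fun r => ?_⟩
  ext p
  have h1 := (hπ (σ.symm r)).2 p
  have h2 := (hπ (σ.symm r)).1
  simp only [Equiv.apply_symm_apply] at h1 h2
  rw [h1, hpure]
  simp only [Equiv.trans_apply]
  rw [h2]

end Vale.Agent.P181.T6
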