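import Vale.Agent.P181.R2.H923.FR2
import Vale.Agent.P181.R2.H959.WDefs
import Vale.Agent.P181.H280.Final

set_option autoImplicit false

open scoped TensorProduct

namespace Vale.Agent.P181.T4

open Vale.Agent.P181 Vale.Agent.P181.H280 Vale.Agent.P181.H54 Vale.Agent.P181.FR MvPolynomial

/-- Functions of `B` points of `ℂ^m`. -/
abbrev Fn (B m : ℕ) : Type := (Fin B → Fin m → ℂ) → ℂ

/-- The functions in `MP B m a` which are highest weight functions of weight `lam`. -/
noncomputable def HWS (B m a : ℕ) (lam : Fin m → ℕ) : Submodule ℂ (Fn B m) where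
  carrier := {G | G ∈ MP B m a ∧ HWF B m lam G}
  add_mem' := by
    rintro G H ⟨hG, hG'⟩ ⟨hH, hH'⟩
    refine ⟨Submodule.add_mem _ hG hH, fun g hg p => ?_⟩
    rw [Pi.add_apply, Pi.add_apply, hG' g hg p, hH' g hg p, mul_add]
  zero_mem' := ⟨Submodule.zero_mem _, fun g _ p => by rw [Pi.zero_apply, Pi.zero_apply, mul_zero]⟩
  smul_mem' := by
    rintro c G ⟨hG, hG'⟩
    refine ⟨Submodule.smul_mem _ c hG, fun g hg p => ?_⟩
    rw [Pi.smul_apply, Pi.smul_apply, hG' g hg p, smul_eq_mul, smul_eq_mul]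
    ring

lemma mem_HWS {B m a : ℕ} {lam : Fin m → ℕ} {G : Fn B m} :
    G ∈ HWS B m a lam ↔ G ∈ MP B m a ∧ HWF B m lam G := Iff.rfl

/-- `ptv` as a linear map. -/
noncomputable def ptvL (B a m : ℕ) : Pleth B a m →ₗ[ℂ] Fn B m where
  toFun x := ptv x
  map_add' x y := funext fun p => ptv_add x y p
  map_smul' c x := funext fun p => ptv_smul c x p

lemma ptvL_apply {B a m : ℕ} (x : Pleth B a m) (p : Fin B → Fin m → ℂ) :
    ptvL B a m x p = ptv x p := rfl

lemma ptvL_inj {B a m : ℕ} {x y : Pleth B a m} (h : ptvL B a m x = ptvL B a m y) : x = y :=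
  ptv_sep x y (fun p => congrFun h p)

/-- The linear form with coefficients `v`. -/
noncomputable def linP {m : ℕ} (v : Fin m → ℂ) : MvPolynomial (Fin m) ℂ := ∑ k, C (v k) * X k

lemma linP_hom {m : ℕ} (v : Fin m → ℂ) : (linP v).IsHomogeneous 1 := by
  refine IsHomogeneous.sum _ _ _ (fun k _ => ?_)
  exact (isHomogeneous_C_mul_X _ _)

lemma eval_linP {m : ℕ} (v p : Fin m → ℂ) : eval p (linP v) = dotF p v := by
  rw [linP, map_sum, dotF_apply, dotProduct]
  exact Finset.sum_congr rfl fun k _ => by rw [map_mul, eval_C, eval_X, mul_comm]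

lemma ptvL_pure {B a m : ℕ} (v : Fin B → Fin a → Fin m → ℂ) :
    ptvL B a m (SymmetricPower.tprod ℂ (fun i => SymmetricPower.tprod ℂ (v i)) :
      Sym[ℂ]^B (Sym[ℂ]^a (Fin m → ℂ))) =
    ∑ e : Equiv.Perm (Fin B), fun p => ∏ i, eval (p i) (∏ t, linP (v (e i) t)) := by
  classical
  funext p
  rw [Finset.sum_apply]
  refine (symEval_tprod (fun j => evalPow a (dotF (p j))) _).trans ?_
  refine Finset.sum_congr rfl fun e _ => Finset.prod_congr rfl fun i _ => ?_
  rw [evalPow_tprod, map_prod]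
  exact Finset.prod_congr rfl fun t _ => (eval_linP _ _).symm

lemma prod_linP_hom {a m : ℕ} (v : Fin a → Fin m → ℂ) : (∏ t, linP (v t)).IsHomogeneous a := by
  have h := IsHomogeneous.prod Finset.univ (fun t => linP (v t)) (fun _ => 1)
    (fun t _ => linP_hom (v t))
  simpa using h

/-- The function of a plethysm vector is a polynomial function. -/
lemma ptvL_mem {B a m : ℕ} (x : Pleth B a m) : ptvL B a m x ∈ MP B m a := by
  let f : Sym[ℂ]^B (Sym[ℂ]^a (Fin m → ℂ)) →ₗ[ℂ] Fn B m ⧸ MP B m a :=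
    (Submodule.mkQ (MP B m a)) ∘ₗ (ptvL B a m)
  have hf : f = 0 := by
    apply pure_hom_ext
    intro v
    change Submodule.mkQ (MP B m a) (ptvL B a m _) = 0
    rw [Submodule.mkQ_apply, Submodule.Quotient.mk_eq_zero, ptvL_pure]
    refine Submodule.sum_mem _ fun e _ => ?_
    exact Submodule.subset_span ⟨fun i => ∏ t, linP (v (e i) t), fun i => prod_linP_hom _, rfl⟩
  have h1 : f x = 0 := by rw [hf]; rfl
  change Submodule.mkQ (MP B m a) (ptvL B a m x) = 0 at h1
  rwa [Submodule.mkQ_apply, Submodule.Quotient.mk_eq_zero] at h1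

/-- Highest weight vectors are the vectors whose functions are highest weight functions. -/
lemma mem_hwSpace_iff {B a m : ℕ} {lam : Fin m → ℕ} (x : Pleth B a m) :
    x ∈ hwSpace lam (plethAct B a m) ↔ HWF B m lam (ptvL B a m x) := by
  constructor
  · intro hx g hg p
    rw [ptvL_apply, ptvL_apply, ← ptv_act, hx g hg, ptv_smul]
  · intro hx g hg
    apply ptv_sep
    intro p
    rw [ptv_act, ptv_smul]
    exact hx g hg p

/-- The function of a plethysm vector is symmetric. -/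
lemma ptvL_perm {B a m : ℕ} (x : Pleth B a m) (σ : Equiv.Perm (Fin B))
    (p : Fin B → Fin m → ℂ) : ptvL B a m x (fun j => p (σ j)) = ptvL B a m x p :=
  symEval_perm (fun j => evalPow a (dotF (p j))) σ
    (x : Sym[ℂ]^B (Sym[ℂ]^a (Fin m → ℂ)))

/-- A symmetric function in `MP` is the function of a vector. -/
lemma exists_ptvL {B a m : ℕ} (G : Fn B m) (hG : G ∈ MP B m a)
    (hs : ∀ (σ : Equiv.Perm (Fin B)) p, G (fun j => p (σ j)) = G p) :
    ∃ x : Pleth B a m, ptvL B a m x = G := by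
  obtain ⟨x, hx⟩ := exists_ptv G hG
  have hc : (Fintype.card (Equiv.Perm (Fin B)) : ℂ) ≠ 0 := by
    exact_mod_cast Fintype.card_ne_zero
  refine ⟨((Fintype.card (Equiv.Perm (Fin B)) : ℂ)⁻¹) • x, ?_⟩
  funext p
  rw [ptvL_apply, ptv_smul, hx p, Finset.sum_congr rfl (fun σ _ => hs σ p), Finset.sum_const,
    nsmul_eq_mul, Finset.card_univ, ← mul_assoc, inv_mul_cancel₀ hc, one_mul]

instance {B a m : ℕ} : Module.Finite ℂ (Pleth B a m) :=
  inferInstanceAs (Module.Finite ℂ (Sym[ℂ]^B (Sym[ℂ]^a (Fin m → ℂ))))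

end Vale.Agent.P181.T4
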