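import Vale.Agent.P181.H411.LE1

/-!
# P181 (T6/LB6), leaf [LE]: real inequalities, second part
-/

set_option autoImplicit false

namespace Vale.Agent.P181.H411

namespace Bd

variable {T Lg K L A B M n' μ : ℝ} (H : Bd T Lg K L A B M n' μ)
include H

theorem ML0 : 0 < M * Lg := mul_pos H.M0 H.Lg0

theorem ML2 : 2 ≤ M * Lg := by
  have h1 := mul_le_mul H.M2 H.Lg1 zero_le_one H.M0.le
  linarith only [h1]

theorem LT : L * T ^ 2 ≤ B := by
  have h1 : L * T ^ 2 ≤ A * T ^ 2 := mul_le_mul_of_nonneg_right H.LA (sq_nonneg T)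
  have h2 := H.AT2
  have h3 := H.AT3
  have h4 := H.AT4
  have h5 := H.ATp2
  linarith only [h1, h2, h3, h4, h5]

theorem L3 : 10 ^ 6 * (L * T ^ 3) ≤ B := by
  have h1 : L * T ^ 3 ≤ A * T ^ 3 := mul_le_mul_of_nonneg_right H.LA (pow_nonneg H.T0.le 3)
  have h3 := H.AT3
  have h4 := H.AT4
  have h5 := H.ATp3
  linarith only [h1, h3, h4, h5]

theorem L1T : 10 ^ 6 * (L * T) ≤ B := by
  have h1 : L * T ≤ A * T := mul_le_mul_of_nonneg_right H.LA H.T0.le
  have h2 := H.AT1
  have h3 := H.AT2
  have h4 := H.AT3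
  have h5 := H.AT4
  have h6 := H.ATp
  linarith only [h1, h2, h3, h4, h5, h6]

theorem oμ : 10 ^ 6 * B ≤ μ * B := by
  have h1 := H.T3B
  have h2 := H.T2B
  have h3 := H.TB
  have h4 := H.oB
  have h5 := H.B0
  linarith only [h1, h2, h3, h4, h5]

variable {R x W P La G h TDL C Nl : ℝ}

theorem pad (hR0 : 0 ≤ R) (hR : K * R ≤ T ^ 3 * (K + L)) (hx : x ≤ 2 * T) (hx0 : 0 ≤ x)
    (hLa : T * La ≤ 170 * (M * Lg) * μ + T)
    (hW : W = 2 * R * K + B * (La + 4 * x + 2) + 4 * L * (2 * K + 4 * x)) :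
    T * W ≤ 172 * (M * Lg) * (μ * B) := by
  have e0 : T * W = 2 * (K * R * T) + B * (T * La) + 4 * (T * B) * x + 2 * (T * B) +
      8 * (T * (K * L)) + 16 * (L * T) * x := by rw [hW]; ring
  have e1 := H.RKB hR
  have e2 : B * (T * La) ≤ 170 * (M * Lg) * (μ * B) + T * B := by
    have := mul_le_mul_of_nonneg_left hLa H.B0.le
    linarith only [this]
  have e3 : 4 * (T * B) * x ≤ 8 * (T ^ 2 * B) := by
    have h1 := mul_le_mul_of_nonneg_left hx (show 0 ≤ 4 * (T * B) by
      have := H.T0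
      have := H.B0
      positivity)
    linarith only [h1]
  have e4 : 8 * (T * (K * L)) ≤ μ * B := by
    have h1 := mul_le_mul_of_nonneg_left H.KL H.T0.le
    have h2 := H.Aμ
    have h3 : μ * (A * T) ≤ μ * (A * T ^ 3) := by
      apply mul_le_mul_of_nonneg_left _ H.μ0.le
      apply mul_le_mul_of_nonneg_left _ H.A0.le
      calc T = T ^ 1 := (pow_one _).symm
        _ ≤ T ^ 3 := pow_le_pow_right₀ H.T1 (by norm_num)
    have h4 : T * (μ * A) = μ * (A * T) := by ring
    have h5 : 0 ≤ μ * (A * T) := mul_nonneg H.μ0.le H.ATp.le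
    linarith only [h1, h2, h3, h4, h5]
  have e5 : 16 * (L * T) * x ≤ B := by
    have h1 := mul_le_mul_of_nonneg_left hx (show 0 ≤ 16 * (L * T) by
      have := H.T0
      have := H.L0
      positivity)
    have h2 := H.L3
    have h3 : L * T * T ≤ L * T ^ 3 := by
      have : L * T * T = L * T ^ 2 := by ring
      rw [this]
      apply mul_le_mul_of_nonneg_left _ H.L0.le
      exact pow_le_pow_right₀ H.T1 (by norm_num)
    have h4 : 0 ≤ L * T ^ 3 := mul_nonneg H.L0.le (pow_nonneg H.T0.le 3)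
    linarith only [h1, h2, h3, h4]
  have f1 := H.T3B
  have f2 := H.T2B
  have f3 := H.TB
  have f4 := H.oB
  have f5 := H.B0
  have f6 : 0 < T * B := mul_pos H.T0 H.B0
  have f7 : 2 * (μ * B) ≤ M * Lg * (μ * B) := mul_le_mul_of_nonneg_right H.ML2 H.μB.le
  have f8 := H.μB
  have f9 : 0 < T ^ 2 * B := mul_pos (pow_pos H.T0 2) H.B0
  linarith only [e0, e1, e2, e3, e4, e5, f1, f2, f3, f4, f5, f6, f7, f8, f9]

theorem padL (hR : 32 * R ≤ L) (hW : T * W ≤ 172 * (M * Lg) * (μ * B))
    (hP : (P - 1) * (L - R) ≤ W) (hP1 : 1 ≤ P) : T * (P * L) ≤ 345 * (M * Lg) * (μ * B) := by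
  have h1 : P * L ≤ 2 * W + L := by
    have h2 : (P - 1) * (31 / 32 * L) ≤ (P - 1) * (L - R) :=
      mul_le_mul_of_nonneg_left (by linarith only [hR]) (by linarith only [hP1])
    have h3 : 0 ≤ (P - 1) * L := mul_nonneg (by linarith only [hP1]) H.L0.le
    linarith only [h2, h3, hP]
  have h2 := mul_le_mul_of_nonneg_left h1 H.T0.le
  have h3 := H.L1T
  have h4 := H.oμ
  have h5 := H.B0
  have f7 : 2 * (μ * B) ≤ M * Lg * (μ * B) := mul_le_mul_of_nonneg_right H.ML2 H.μB.le
  have f8 := H.μB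
  have f9 : 0 < L * T := mul_pos H.L0 H.T0
  linarith only [h2, h3, h4, h5, hW, f7, f8, f9]

theorem guards (hR : K * R ≤ T ^ 3 * (K + L)) (hx : T ≤ x) (hh : L ≤ 5 * h)
    (hG : (G - 1) * (x * h) ≤ 2 * R + B) (hG1 : 1 ≤ G) : T * (G * L) ≤ 10 * B + T * L := by
  have h1 : (G - 1) * (T * L) ≤ (G - 1) * (x * (5 * h)) := by
    apply mul_le_mul_of_nonneg_left _ (by linarith only [hG1])
    exact mul_le_mul hx hh H.L0.le (le_trans H.T0.le hx)
  have h2 : 2 * R ≤ B := by
    have h3 := H.RK hR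
    have h4 := H.KA
    have h5 := H.A1
    have h6 := H.AT1
    have h7 := H.AT2
    have h8 := H.AT3
    have h9 := H.AT4
    have h10 := H.ATp
    have h11 := H.A0
    linarith only [h3, h4, h5, h6, h7, h8, h9, h10, h11]
  linarith only [h1, h2, hG]

theorem guardCells (hx : x ≤ 2 * T) (hx0 : 0 ≤ x) (hG : T * (G * L) ≤ 10 * B + T * L) :
    T * (8 * x ^ 2 * (G * L)) ≤ μ * B := by
  have h1 : x ^ 2 ≤ 4 * T ^ 2 := by
    have := mul_le_mul hx hx hx0 (by linarith only [H.T0])
    nlinarith only [this]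
  have h2 : T * (8 * x ^ 2 * (G * L)) = 8 * x ^ 2 * (T * (G * L)) := by ring
  have h3 : 8 * x ^ 2 * (T * (G * L)) ≤ 8 * x ^ 2 * (10 * B + T * L) :=
    mul_le_mul_of_nonneg_left hG (by positivity)
  have h4 : 8 * x ^ 2 * (10 * B + T * L) ≤ 8 * (4 * T ^ 2) * (10 * B + T * L) := by
    apply mul_le_mul_of_nonneg_right
    · linarith only [h1]
    · have := H.B0
      have := H.T0
      have := H.L0
      positivity
  have h5 : 8 * (4 * T ^ 2) * (10 * B + T * L) = 320 * (T ^ 2 * B) + 32 * (L * T ^ 3) := by ring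
  have f1 := H.T3B
  have f2 := H.T2B
  have f3 := H.L3
  have f4 := H.oμ
  have f5 := H.B0
  have f6 : 0 < T ^ 2 * B := mul_pos (pow_pos H.T0 2) H.B0
  have f7 : 0 < L * T ^ 3 := mul_pos H.L0 (pow_pos H.T0 3)
  linarith only [h2, h3, h4, h5, f1, f2, f3, f4, f5, f6, f7]

theorem cells (h1 : T * TDL ≤ 17 * M * (μ * B)) (h2 : T * (8 * x ^ 2 * (G * L)) ≤ μ * B)
    (h3 : T * (P * L) ≤ 345 * (M * Lg) * (μ * B))
    (hC : C = TDL + 8 * x ^ 2 * (G * L) + 4 * (P * L)) :
    T * C ≤ 1400 * (M * Lg) * (μ * B) := by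
  have e1 : M * (μ * B) ≤ M * Lg * (μ * B) := by
    apply mul_le_mul_of_nonneg_right _ H.μB.le
    exact le_mul_of_one_le_right H.M0.le H.Lg1
  have f7 : 2 * (μ * B) ≤ M * Lg * (μ * B) := mul_le_mul_of_nonneg_right H.ML2 H.μB.le
  have e2 : T * C = T * TDL + T * (8 * x ^ 2 * (G * L)) + 4 * (T * (P * L)) := by rw [hC]; ring
  have f8 := H.μB
  linarith only [h1, h2, h3, e1, e2, f7, f8]

/-- the last clause of `Nums`. -/
theorem nums (hC : T * C ≤ 1400 * (M * Lg) * (μ * B)) (hN : B ≤ 2 * Lg * Nl) :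
    100 * C * Lg ^ 3 ≤ Nl * μ := by
  have hLg := H.Lg0
  have e1 : 100 * Lg ^ 3 * (T * C) ≤ 100 * Lg ^ 3 * (1400 * (M * Lg) * (μ * B)) :=
    mul_le_mul_of_nonneg_left hC (by positivity)
  have e2 : 100 * Lg ^ 3 * (1400 * (M * Lg) * (μ * B)) = 140000 * (M * Lg ^ 4) * μ * B := by ring
  have e3 : 140000 * (M * Lg ^ 4) * μ * B ≤ 140000 * (M * Lg ^ 4) * μ * (2 * Lg * Nl) := by
    apply mul_le_mul_of_nonneg_left hN
    have := H.M0
    have := H.μ0
    positivity
  have e4 : 140000 * (M * Lg ^ 4) * μ * (2 * Lg * Nl) = 280000 * (M * Lg ^ 5) * (Nl * μ) := by ring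
  have hN0 : 0 ≤ Nl := by
    have h1 : 0 < 2 * Lg * Nl := lt_of_lt_of_le H.B0 hN
    have h2 : 0 < 2 * Lg := by positivity
    exact (pos_of_mul_pos_right h1 h2.le).le
  have e5 : 280000 * (M * Lg ^ 5) * (Nl * μ) ≤ T * (Nl * μ) := by
    apply mul_le_mul_of_nonneg_right
    · have h1 := H.c5
      have h2 : 0 < M * Lg ^ 5 := mul_pos H.M0 (pow_pos hLg 5)
      linarith only [h1, h2]
    · exact mul_nonneg hN0 H.μ0.le
  have e6 : T * (100 * C * Lg ^ 3) ≤ T * (Nl * μ) := by
    have : T * (100 * C * Lg ^ 3) = 100 * Lg ^ 3 * (T * C) := by ring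
    linarith only [this, e1, e2, e3, e4, e5]
  exact le_of_mul_le_mul_left e6 H.T0

theorem hcells (hC0 : 0 ≤ C) (h : 100 * C * Lg ^ 3 ≤ Nl * μ) (hN0 : 0 ≤ Nl) :
    C + M * Nl ≤ K * Nl := by
  have h1 : 100 * C ≤ 100 * C * Lg ^ 3 :=
    le_mul_of_one_le_right (by linarith only [hC0]) (one_le_pow₀ H.Lg1)
  have h2 : Nl * μ ≤ Nl * K := mul_le_mul_of_nonneg_left H.μK hN0
  have h3 : 2 * M ≤ K := by
    have h4 := H.cM
    have h5 := H.Ts
    have h6 := H.k1
    have h7 := H.M0
    linarith only [h4, h5, h6, h7]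
  have h4 := mul_le_mul_of_nonneg_right h3 hN0
  have h5 : 0 ≤ Nl * K := mul_nonneg hN0 H.K0.le
  linarith only [h1, h2, h, h4, h5]

/-- the window. `F` = number of fixed columns. -/
theorem window {F : ℝ} (hC : T * C ≤ 1400 * (M * Lg) * (μ * B)) (hF : C = F * (4 * L)) :
    8 * F + 8 ≤ n' := by
  have hLg := H.Lg0
  have h1 : Lg * (L * (8 * F + 8)) ≤ Lg * (L * n') := by
    refine le_trans ?_ H.n1
    have e1 : Lg * (L * (8 * F + 8)) = 2 * Lg * C + 8 * (Lg * L) := by rw [hF]; ring
    have e2 : T * (4 * Lg * C) ≤ T * (K * B) := by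
      have h2 : 4 * Lg * (T * C) ≤ 4 * Lg * (1400 * (M * Lg) * (μ * B)) :=
        mul_le_mul_of_nonneg_left hC (by positivity)
      have h3 : 4 * Lg * (1400 * (M * Lg) * (μ * B)) = 5600 * (M * Lg ^ 2) * (μ * B) := by ring
      have h4 : 5600 * (M * Lg ^ 2) ≤ T := by
        have h5 := H.cj (j := 2) (by norm_num)
        have h6 : 0 < M * Lg ^ 2 := mul_pos H.M0 (pow_pos hLg 2)
        linarith only [h5, h6]
      have h5 : 5600 * (M * Lg ^ 2) * (μ * B) ≤ T * (K * B) := by
        apply mul_le_mul h4 _ H.μB.le H.T0.le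
        exact mul_le_mul_of_nonneg_right H.μK H.B0.le
      linarith only [h2, h3, h5]
    have e3 := le_of_mul_le_mul_left e2 H.T0
    have e4 : 16 * (Lg * L) ≤ K * B := by
      have h2 : 16 * Lg ≤ K := by
        have h3 := H.cL
        have h4 := H.Ts
        have h5 := H.k1
        linarith only [h3, h4, h5, hLg]
      have h3 : L ≤ B := by
        have h4 := H.L1T
        have h5 := H.T1
        have h6 := H.L0
        have h7 : L ≤ L * T := le_mul_of_one_le_right h6.le h5
        linarith only [h4, h6, h7]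
      have h4 := mul_le_mul h2 h3 H.L0.le H.K0.le
      linarith only [h4]
    linarith only [e1, e3, e4]
  exact le_of_mul_le_mul_left (le_of_mul_le_mul_left h1 hLg) H.L0

/-- the rows. -/
theorem rows {q U Y : ℝ} (hU0 : 0 ≤ U) (hUT : U ≤ T) (hYK : T * (K + L) ≤ K * Y)
    (hq0 : 0 ≤ q) (hq : q * Y ≤ B) (hG : T * (G * L) ≤ 10 * B + T * L) :
    K * (G + 4) + q + U ≤ n' := by
  have hLg := H.Lg0
  have h1 : Lg * (L * (K * (G + 4) + q + U)) ≤ Lg * (L * n') := by
    refine le_trans ?_ H.n1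
    have hKB : 0 < K * B := mul_pos H.K0 H.B0
    have e1 : T * (Lg * K * (G * L)) ≤ T * (K * B) / 4 := by
      have h2 : Lg * K * (T * (G * L)) ≤ Lg * K * (10 * B + T * L) :=
        mul_le_mul_of_nonneg_left hG (by
          have := H.K0
          positivity)
      have h3 : 100 * Lg * (K * B) ≤ T * (K * B) := by
        apply mul_le_mul_of_nonneg_right _ hKB.le
        have := H.cL
        linarith only [this, hLg]
      have h4 : 100 * (Lg * (K * (T * L))) ≤ T * (K * B) := by
        have h5 : 100 * Lg * (T * L) ≤ T * B := by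
          have h6 := H.L1T
          have h7 : 100 * Lg ≤ T := by
            have := H.cL
            linarith only [this, hLg]
          have h8 := mul_le_mul h7 (show T * L ≤ B by
            have := mul_pos H.L0 H.T0
            linarith only [h6, this]) (mul_nonneg H.T0.le H.L0.le) H.T0.le
          exact h8
        have h6 := mul_le_mul_of_nonneg_left h5 H.K0.le
        linarith only [h6]
      have h5 : T * (Lg * K * (G * L)) = Lg * K * (T * (G * L)) := by ring
      have h6 : 0 < T * (K * B) := mul_pos H.T0 hKB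
      linarith only [h2, h3, h4, h5, h6]
    have e1' : Lg * K * (G * L) ≤ (K * B) / 4 := by
      have h2 : T * (Lg * K * (G * L)) ≤ T * ((K * B) / 4) := by linarith only [e1]
      exact le_of_mul_le_mul_left h2 H.T0
    have e2 : 16 * (Lg * (L * K)) ≤ (K * B) / 4 := by
      have h2 : 64 * (Lg * L) ≤ B := by
        have h3 : 64 * Lg ≤ T := by
          have := H.cL
          linarith only [this, hLg]
        have h4 := mul_le_mul_of_nonneg_right h3 H.L0.le
        have h5 := H.L1T
        have h6 := mul_pos H.L0 H.T0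
        linarith only [h4, h5, h6]
      have h3 := mul_le_mul_of_nonneg_left h2 H.K0.le
      linarith only [h3]
    have e3 : Lg * (L * q) ≤ (K * B) / 4 := by
      have h2 : T * (L * q) ≤ K * B := by
        have hTL : T * L ≤ K * Y := by
          have := mul_pos H.T0 H.K0
          linarith only [hYK, this]
        have e1 : T * (L * q) = T * L * q := by ring
        have e2 := mul_le_mul_of_nonneg_right hTL hq0
        have e3 := mul_le_mul_of_nonneg_left hq H.K0.le
        have e4 : K * Y * q = K * (q * Y) := by ring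
        linarith only [e1, e2, e3, e4]
      have h3 : 4 * Lg * (L * q) ≤ T * (L * q) := by
        apply mul_le_mul_of_nonneg_right
        · have := H.cL
          linarith only [this, hLg]
        · exact mul_nonneg H.L0.le hq0
      linarith only [h2, h3]
    have e4 : Lg * (L * U) ≤ (K * B) / 8 := by
      have h2 : L * U ≤ L * T := mul_le_mul_of_nonneg_left hUT H.L0.le
      have h3 := H.L1T
      have h4 : Lg ≤ K := by
        have h3 := H.cL
        have h4 := H.Ts
        have h5 := H.k1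
        linarith only [h3, h4, h5, hLg]
      have h5 := mul_le_mul h4 (show L * U ≤ B / 8 by
        have := mul_pos H.L0 H.T0
        linarith only [h2, h3, this]) (mul_nonneg H.L0.le hU0) H.K0.le
      linarith only [h5]
    have e5 : Lg * (L * (K * (G + 4) + q + U)) = Lg * K * (G * L) + 4 * (Lg * (L * K)) +
      Lg * (L * q) + Lg * (L * U) := by ring
    have e6 : 0 < Lg * (L * K) := mul_pos hLg (mul_pos H.L0 H.K0)
    linarith only [e1', e2, e3, e4, e5, e6, hKB]
  exact le_of_mul_le_mul_left (le_of_mul_le_mul_left h1 hLg) H.L0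

/-- the top rows. -/
theorem top (hR : K * R ≤ T ^ 3 * (K + L)) (hRL : 32 * R ≤ L) (hn0 : 0 ≤ n')
    (hN : 2 * Lg * Nl ≤ B + 2 * Lg) :
    2 * K * R + K * Nl ≤ (L - R) * n' := by
  have hLg := H.Lg0
  have h1 : Lg * (2 * K * R + K * Nl) ≤ Lg * ((L - R) * n') := by
    have e1 : 31 / 32 * (K * B) ≤ Lg * ((L - R) * n') := by
      have h2 : 31 / 32 * L * n' ≤ (L - R) * n' :=
        mul_le_mul_of_nonneg_right (by linarith only [hRL]) hn0
      have h3 := mul_le_mul_of_nonneg_left h2 hLg.le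
      have h4 := H.n1
      linarith only [h3, h4]
    have e2 : K * (2 * Lg * Nl) ≤ K * (B + 2 * Lg) := mul_le_mul_of_nonneg_left hN H.K0.le
    have e3 : Lg * (K * R) ≤ T * (K * R) → Lg * (K * R) ≤ (K * B) / 16 := by
      intro h
      have h2 := H.RKB hR
      have h3 : T * (K * R) = K * R * T := by ring
      have h4 : B ≤ K * B := by
        apply le_mul_of_one_le_left H.B0.le
        have := H.K8
        linarith only [this]
      have h5 := H.B0
      linarith only [h, h2, h3, h4, h5]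
    by_cases hR0 : 0 ≤ K * R
    · have e4 := e3 (mul_le_mul_of_nonneg_right (by
        have := H.cL
        linarith only [this, hLg]) hR0)
      have e5 : K * Lg ≤ K * B / 16 := by
        have h2 : 16 * Lg ≤ B := by
          have h3 := H.cL
          have h4 := H.oB
          have h5 := H.L1T
          have h6 := H.L8
          have h7 : 0 ≤ (L - 1) * T := mul_nonneg (by linarith only [h6]) H.T0.le
          have h8 := H.T0
          linarith only [h3, h5, h7, h8, hLg]
        have h3 := mul_le_mul_of_nonneg_left h2 H.K0.le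
        linarith only [h3]
      have e6 : 0 < K * B := mul_pos H.K0 H.B0
      linarith only [e1, e2, e4, e5, e6]
    · have e5 : K * Lg ≤ K * B / 16 := by
        have h2 : 16 * Lg ≤ B := by
          have h3 := H.cL
          have h5 := H.L1T
          have h6 := H.L8
          have h7 : 0 ≤ (L - 1) * T := mul_nonneg (by linarith only [h6]) H.T0.le
          have h8 := H.T0
          linarith only [h3, h5, h7, h8, hLg]
        have h3 := mul_le_mul_of_nonneg_left h2 H.K0.le
        linarith only [h3]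
      have e6 : 0 < K * B := mul_pos H.K0 H.B0
      have e7 : Lg * (K * R) ≤ 0 := mul_nonpos_of_nonneg_of_nonpos hLg.le (by
        push Not at hR0
        exact hR0.le)
      linarith only [e1, e2, e5, e6, e7]
  exact le_of_mul_le_mul_left h1 hLg

/-- `16 l + 3 ≤ Nl`. -/
theorem ncl (hN : B ≤ 2 * Lg * Nl) : 16 * L + 3 ≤ Nl := by
  have hLg := H.Lg0
  have h1 : 2 * Lg * (16 * L + 3) ≤ 2 * Lg * Nl := by
    refine le_trans ?_ hN
    have h2 : 38 * Lg ≤ T := by
      have := H.cL
      linarith only [this, hLg]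
    have h3 := mul_le_mul_of_nonneg_right h2 H.L0.le
    have h4 := H.L1T
    have h5 := mul_pos H.L0 H.T0
    have h6 : 0 ≤ (L - 1) * Lg := mul_nonneg (by linarith only [H.L8]) hLg.le
    linarith only [h3, h4, h5, h6]
  exact le_of_mul_le_mul_left h1 (by positivity)

end Bd

end Vale.Agent.P181.H411
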