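import Vale.Agent.P181.H162.Par6
import Vale.Agent.P181.H411.LE2

/-!
# P181 (T6/LB6), leaf [LE]: the numbers of the construction, deterministic core
-/

set_option autoImplicit false

namespace Vale.Agent.P181.H411

open Vale.Agent.P181.T6 Vale.Agent.P181.T4 Vale.Agent.P181.H162

theorem lt_div_add_one_mul (n c : ℕ) (hc : 0 < c) : n < (n / c + 1) * c := by
  have h1 := Nat.div_add_mod n c
  have h2 := Nat.mod_lt n hc
  nlinarith only [h1, h2]

/-- The deterministic core of [LE]. -/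
theorem le_core (a k b n m l u : ℕ) (f : ℕ → ℕ) (T Lg : ℝ) (hmE : Even m) (hm2 : 2 ≤ m)
    (hLg : 1 ≤ Lg) (hT : 10 ^ 8 * ((m : ℝ) * Lg ^ 5) ≤ T) (hk1 : T ^ 4 ≤ k)
    (hk2 : (a : ℝ) * T ^ 4 ≤ (k : ℝ) ^ 2) (hka : k ≤ a) (hbA : (a : ℝ) * T ^ 5 ≤ b)
    (hl1 : T ^ 4 ≤ l) (hln : l ≤ n) (hna : n ≤ a)
    (hn1 : (k : ℝ) * b ≤ Lg * (l * f (l - 1))) (hoff : 4 * f (4 * l - 1) ≤ f (l - 1))
    (htop : ∀ R ≤ l, ∑ r ∈ Finset.range R, f r + (l - R) * f (l - 1) ≤ k * b)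
    (hu : 1 ≤ u) (huT : (u : ℝ) ≤ T) (hub : b ≤ 4 * u ^ m) :
    ∃ Y R x h G P La wm Nl : ℕ, Par6 k b n f m u Y R l x h G P La wm Nl ∧
      (k : ℝ) * R ≤ T ^ 3 * (k + l) ∧ (b : ℝ) ≤ 2 * Lg * Nl ∧
      100 * ((FC k b m u Y x G P * (4 * l) : ℕ) : ℝ) * Lg ^ 3 ≤ (Nl : ℝ) * min (k : ℝ) (l : ℝ) := by
  have H : Bd T Lg k l a b m (f (l - 1)) (min (k : ℝ) (l : ℝ)) :=
    ⟨hLg, by exact_mod_cast hm2, hT, hk1, hk2, by exact_mod_cast hka,
      by exact_mod_cast hln.trans hna, hbA, hl1, hn1, rfl⟩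
  have hLg0 := H.Lg0
  have hT0 := H.T0
  have hT1 := H.T1
  have hK0 := H.K0
  have hL0 := H.L0
  have hB0 := H.B0
  have hA0 := H.A0
  -- Y
  obtain ⟨Y, hYdef⟩ : ∃ Y : ℕ, Y = ⌈T * (1 + (l : ℝ) / k)⌉₊ := ⟨_, rfl⟩
  have hLK : 0 ≤ (l : ℝ) / k := by positivity
  have hz : T ≤ T * (1 + (l : ℝ) / k) := le_mul_of_one_le_right hT0.le (by linarith only [hLK])
  have hY1 : T * (1 + (l : ℝ) / k) ≤ Y := by rw [hYdef]; exact Nat.le_ceil _
  have hY2 : (Y : ℝ) ≤ 2 * (T * (1 + (l : ℝ) / k)) := by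
    have h1 := (Nat.ceil_lt_add_one (show 0 ≤ T * (1 + (l : ℝ) / k) by
      linarith only [hz, hT0])).le
    rw [← hYdef] at h1
    linarith only [h1, hz, hT1]
  have hKY1 : T * ((k : ℝ) + l) ≤ k * Y := by
    have h1 : T * ((k : ℝ) + l) = k * (T * (1 + (l : ℝ) / k)) := by field_simp
    rw [h1]
    exact mul_le_mul_of_nonneg_left hY1 hK0.le
  have hKY2 : (k : ℝ) * Y ≤ 2 * (T * ((k : ℝ) + l)) := by
    have h1 : 2 * (T * ((k : ℝ) + l)) = k * (2 * (T * (1 + (l : ℝ) / k))) := by field_simp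
    rw [h1]
    exact mul_le_mul_of_nonneg_left hY2 hK0.le
  have hYT : T ≤ Y := hz.trans hY1
  have hYpos : 0 < Y := by
    have : (0 : ℝ) < Y := by linarith only [hYT, hT0]
    exact_mod_cast this
  -- R
  obtain ⟨R, hRdef⟩ : ∃ R : ℕ, R = 4 * m * u * Y := ⟨_, rfl⟩
  have hRr : (R : ℝ) = 4 * m * u * Y := by
    rw [hRdef]
    push_cast
    ring
  have hU0 : (0 : ℝ) ≤ u := Nat.cast_nonneg u
  have hKR : (k : ℝ) * R ≤ T ^ 3 * (k + l) := H.KR hU0 huT hKY2 (Nat.cast_nonneg Y) hRr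
  have hRL := H.RL hKR
  have hRK := H.RK hKR
  have hRn : 32 * R ≤ l := by exact_mod_cast hRL
  have hRKn : 256 * R ≤ k := by exact_mod_cast hRK
  have hl8 : (2 : ℝ) * 10 ^ 8 ≤ l := H.L8
  have hk8 : (2 : ℝ) * 10 ^ 8 ≤ k := H.K8
  have hl8n : 2 * 10 ^ 8 ≤ l := by exact_mod_cast hl8
  have hk8n : 2 * 10 ^ 8 ≤ k := by exact_mod_cast hk8
  -- x
  obtain ⟨x, hxdef⟩ : ∃ x : ℕ, x = ⌈T⌉₊ := ⟨_, rfl⟩
  have hx1 : T ≤ x := by rw [hxdef]; exact Nat.le_ceil _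
  have hx2 : (x : ℝ) ≤ 2 * T := by
    have h1 := (Nat.ceil_lt_add_one hT0.le).le
    rw [← hxdef] at h1
    linarith only [h1, hT1]
  have hxpos : 0 < x := by
    have : (0 : ℝ) < x := by linarith only [hx1, hT0]
    exact_mod_cast this
  have hx0 : (0 : ℝ) ≤ x := Nat.cast_nonneg x
  -- h
  obtain ⟨h, hhdef⟩ : ∃ h : ℕ, h = l / 4 := ⟨_, rfl⟩
  have hh5 : l ≤ 5 * h := by omega
  have hhR : (l : ℝ) ≤ 5 * h := by exact_mod_cast hh5
  have hhpos : 0 < h := by omega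
  -- G
  obtain ⟨G, hGdef⟩ : ∃ G : ℕ, G = (2 * R + b) / (x * h) + 1 := ⟨_, rfl⟩
  have hG1 : 2 * R + b < G * (x * h) := by
    rw [hGdef]
    exact lt_div_add_one_mul _ _ (Nat.mul_pos hxpos hhpos)
  have hG2 : ((G : ℝ) - 1) * (x * h) ≤ 2 * R + b := by
    have h1 := Nat.div_mul_le_self (2 * R + b) (x * h)
    have h2 : (((2 * R + b) / (x * h) : ℕ) : ℝ) = (G : ℝ) - 1 := by
      rw [hGdef]
      push_cast
      ring
    rw [← h2]
    exact_mod_cast h1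
  have hG3 : (1 : ℝ) ≤ G := by
    have : 1 ≤ G := by rw [hGdef]; exact Nat.le_add_left 1 _
    exact_mod_cast this
  have hGT := H.guards hKR hx1 hhR hG2 hG3
  -- q
  obtain ⟨q, hqdef⟩ : ∃ q : ℕ, q = (b / 4 + 1) / Y := ⟨_, rfl⟩
  have hb4 : 4 ≤ b := by
    have h1 : (4 : ℝ) ≤ b := by
      have h2 := H.L1T
      have h3 := H.L8
      have h4 : 0 ≤ ((l : ℝ) - 1) * T := mul_nonneg (by linarith only [h3]) hT0.le
      linarith only [h2, h4, hT1]
    exact_mod_cast h1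
  have hqY : (q : ℝ) * Y ≤ b := by
    have h1 : q * Y ≤ b / 4 + 1 := by
      rw [hqdef]
      exact Nat.div_mul_le_self _ _
    have h2 : q * Y ≤ b := by omega
    exact_mod_cast h2
  have hq0 : (0 : ℝ) ≤ q := Nat.cast_nonneg q
  -- TD
  obtain ⟨TDn, hTDn⟩ : ∃ t : ℕ, t = TD k b m u Y := ⟨_, rfl⟩
  have hTDr : ((TDn : ℕ) : ℝ) = 4 * m * (q + u) + 8 * m * k := by
    rw [hTDn, hqdef]
    unfold TD TT
    push_cast
    ring
  have hTDL : ((TDn * (4 * l) : ℕ) : ℝ) = 4 * l * (4 * m * (q + u) + 8 * m * k) := by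
    push_cast
    rw [hTDr]
    ring
  have hTests := H.tests (U := u) (Y := Y) (q := q) hU0 huT hKY1 hYT hq0 hqY hTDL
  -- Nl
  obtain ⟨Nl, hNdef⟩ : ∃ N : ℕ, N = ⌈(b : ℝ) / (2 * Lg)⌉₊ := ⟨_, rfl⟩
  have hN1 : (b : ℝ) ≤ 2 * Lg * Nl := by
    have h1 : (b : ℝ) / (2 * Lg) ≤ Nl := by rw [hNdef]; exact Nat.le_ceil _
    rw [div_le_iff₀ (by positivity)] at h1
    linarith only [h1]
  have hN2 : 2 * Lg * Nl ≤ b + 2 * Lg := by
    have h1 := (Nat.ceil_lt_add_one (show 0 ≤ (b : ℝ) / (2 * Lg) by positivity)).le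
    rw [← hNdef] at h1
    have h2 := mul_le_mul_of_nonneg_left h1 (show 0 ≤ 2 * Lg by positivity)
    have h3 : 2 * Lg * ((b : ℝ) / (2 * Lg) + 1) = b + 2 * Lg := by field_simp
    linarith only [h2, h3]
  have hNcl := H.ncl hN1
  have hNcln : 16 * l + 3 ≤ Nl := by exact_mod_cast hNcl
  have hN0 : (0 : ℝ) ≤ Nl := Nat.cast_nonneg Nl
  -- La
  obtain ⟨D4, hD4⟩ : ∃ d : ℕ, d = (Nl - 3) / 4 := ⟨_, rfl⟩
  have hD5 : Nl ≤ 5 * D4 := by omega
  have hD5r : (Nl : ℝ) ≤ 5 * D4 := by exact_mod_cast hD5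
  obtain ⟨La, hLadef⟩ : ∃ z : ℕ, z = TDn * (4 * l) / D4 + 1 := ⟨_, rfl⟩
  have hLa1 : (1 : ℝ) ≤ La := by
    have : 1 ≤ La := by rw [hLadef]; exact Nat.le_add_left 1 _
    exact_mod_cast this
  have hLa2 : ((La : ℝ) - 1) * D4 ≤ ((TDn * (4 * l) : ℕ) : ℝ) := by
    have h1 := Nat.div_mul_le_self (TDn * (4 * l)) D4
    have h2 : ((TDn * (4 * l) / D4 : ℕ) : ℝ) = (La : ℝ) - 1 := by
      rw [hLadef]
      push_cast
      ring
    rw [← h2]
    exact_mod_cast h1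
  have hLoad := H.load hTests hN1 hD5r hLa2 hLa1
  have hLaK := H.La_le hLoad
  -- W, P
  obtain ⟨W, hWdef⟩ : ∃ W : ℕ, W = 2 * R * k + b * (La + 4 * x + 2) + 4 * l * (2 * k + 4 * x) :=
    ⟨_, rfl⟩
  have hWr : (W : ℝ) = 2 * R * k + b * (La + 4 * x + 2) + 4 * l * (2 * k + 4 * x) := by
    rw [hWdef]
    push_cast
    ring
  have hPad := H.pad (Nat.cast_nonneg R) hKR hx2 hx0 hLoad hWr
  obtain ⟨P, hPdef⟩ : ∃ P : ℕ, P = W / (l - R) + 1 := ⟨_, rfl⟩
  have hlR : 0 < l - R := by omega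
  have hP1 : W < P * (l - R) := by
    rw [hPdef]
    exact lt_div_add_one_mul _ _ hlR
  have hP2 : ((P : ℝ) - 1) * (l - R) ≤ W := by
    have h1 := Nat.div_mul_le_self W (l - R)
    have h2 : ((W / (l - R) : ℕ) : ℝ) = (P : ℝ) - 1 := by
      rw [hPdef]
      push_cast
      ring
    have h3 : ((l - R : ℕ) : ℝ) = (l : ℝ) - R := by
      rw [Nat.cast_sub (by omega)]
    rw [← h2, ← h3]
    exact_mod_cast h1
  have hP3 : (1 : ℝ) ≤ P := by
    have : 1 ≤ P := by rw [hPdef]; exact Nat.le_add_left 1 _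
    exact_mod_cast this
  have hPadL := H.padL hRL hPad hP2 hP3
  have hGC := H.guardCells hx2 hx0 hGT
  -- cells
  have hCr : ((FC k b m u Y x G P * (4 * l) : ℕ) : ℝ) =
      ((TDn * (4 * l) : ℕ) : ℝ) + 8 * (x : ℝ) ^ 2 * (G * l) + 4 * (P * l) := by
    unfold FC
    rw [← hTDn]
    push_cast
    ring
  have hCells := H.cells hTests hGC hPadL hCr
  have hNums := H.nums hCells hN1
  have hC0 : (0 : ℝ) ≤ ((FC k b m u Y x G P * (4 * l) : ℕ) : ℝ) := Nat.cast_nonneg _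
  have hHC := H.hcells hC0 hNums hN0
  have hWin := H.window (F := (FC k b m u Y x G P : ℕ)) hCells (by push_cast; ring)
  have hRows := H.rows hU0 huT hKY1 hq0 hqY hGT
  have hTop := H.top hKR hRL (Nat.cast_nonneg _) hN2
  refine ⟨Y, R, x, h, G, P, La, G + 1, Nl, ?_, hKR, hN1, hNums⟩
  refine
    { hm := hmE
      hm2 := hm2
      hu := hu
      hY := hYpos
      hR := hRdef
      hb := hub
      hRl := by omega
      hl := by omega
      hln := hln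
      hx := hxpos
      hh := hhdef
      hoff := hoff
      hk := by omega
      hRk := by omega
      hK := ?_
      hxk := ?_
      hrow := ?_
      htop := ?_
      hcl := hNcln
      hLa := ?_
      hG := ?_
      hGw := le_refl _
      hpr := ?_
      hcells := ?_
      hP := ?_
      hroom := ?_
      hwin := ?_ }
  · have h1 : (16 : ℝ) * (La + m + 1) ≤ k := by
      have h2 := H.cM
      have h3 := H.Ts
      have h4 := H.k1
      have h5 := H.M0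
      linarith only [hLaK, h2, h3, h4, h5, hk8]
    exact_mod_cast h1
  · have h1 : (32 : ℝ) * x ≤ k := by
      have h2 := H.P2
      have h3 := H.P3
      have h4 := H.P4
      have h5 := H.k1
      linarith only [hx2, h2, h3, h4, h5, hT0]
    exact_mod_cast h1
  · have h1 : (k : ℝ) * (G + 1 + 3) + q + u ≤ f (l - 1) := by
      have : (k : ℝ) * (G + 1 + 3) = k * (G + 4) := by ring
      rw [this]
      exact hRows
    rw [← hqdef]
    exact_mod_cast h1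
  · have h1 : 2 * k * R + k * Nl ≤ (l - R) * f (l - 1) := by
      have h3 : ((l - R : ℕ) : ℝ) = (l : ℝ) - R := by
        rw [Nat.cast_sub (by omega)]
      rw [← h3] at hTop
      exact_mod_cast hTop
    have h2 := htop R (by omega)
    omega
  · rw [← hTDn, ← hD4, hLadef]
  · rw [mul_assoc]
    exact hG1.le
  · have h1 : 2 * (x : ℝ) ^ 2 + R + 1 ≤ k := by
      have h2 := H.P2
      have h3 := H.P3
      have h4 := H.P4
      have h5 := H.k1
      have h6 := mul_le_mul hx2 hx2 hx0 (by linarith only [hT0])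
      have h7 : (x : ℝ) ^ 2 = x * x := sq _
      have h8 : 2 * T * (2 * T) = 4 * T ^ 2 := by ring
      linarith only [h2, h3, h4, h5, h6, h7, h8, hT0, hRK, hk8]
    exact_mod_cast h1
  · exact_mod_cast hHC
  · rw [hWdef] at hP1
    omega
  · rw [hWdef] at hP1
    omega
  · exact_mod_cast hWin

end Vale.Agent.P181.H411
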