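import Mathlib

/-!
# P181 (T6/LB6), leaf [LE]: real inequalities
-/

set_option autoImplicit false

namespace Vale.Agent.P181.H411

/-- The basic inequalities (all quantities real). -/
structure Bd (T Lg K L A B M n' μ : ℝ) : Prop where
  Lg1 : 1 ≤ Lg
  M2 : 2 ≤ M
  c5 : 10 ^ 8 * (M * Lg ^ 5) ≤ T
  k1 : T ^ 4 ≤ K
  k2 : A * T ^ 4 ≤ K ^ 2
  KA : K ≤ A
  LA : L ≤ A
  BA : A * T ^ 5 ≤ B
  l1 : T ^ 4 ≤ L
  n1 : K * B ≤ Lg * (L * n')
  hμ : μ = min K L

namespace Bd

variable {T Lg K L A B M n' μ : ℝ} (H : Bd T Lg K L A B M n' μ)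
include H

theorem Lg0 : 0 < Lg := by linarith only [H.Lg1]

theorem M0 : 0 < M := by linarith only [H.M2]

theorem cj {j : ℕ} (hj : j ≤ 5) : 10 ^ 8 * (M * Lg ^ j) ≤ T := by
  have h1 : Lg ^ j ≤ Lg ^ 5 := pow_le_pow_right₀ H.Lg1 hj
  have h2 : M * Lg ^ j ≤ M * Lg ^ 5 := mul_le_mul_of_nonneg_left h1 H.M0.le
  linarith only [h2, H.c5]

theorem cM : 10 ^ 8 * M ≤ T := by
  have h := H.cj (j := 0) (by norm_num)
  rwa [pow_zero, mul_one] at h

theorem cML : 10 ^ 8 * (M * Lg) ≤ T := by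
  have h := H.cj (j := 1) (by norm_num)
  rwa [pow_one] at h

theorem cT : 2 * 10 ^ 8 ≤ T := by
  have := H.cM
  have := H.M2
  linarith only [this, H.cM]

theorem cL : 2 * 10 ^ 8 * Lg ≤ T := by
  have h1 : 2 * Lg ≤ M * Lg := mul_le_mul_of_nonneg_right H.M2 H.Lg0.le
  have h2 := H.cML
  linarith only [h1, h2]

theorem T0 : 0 < T := by
  have := H.cT
  linarith only [this]

theorem T1 : 1 ≤ T := by
  have := H.cT
  linarith only [this]

/-- `2 * 10 ^ 8 * z ≤ T * z`. -/
theorem up {z : ℝ} (hz : 0 ≤ z) : 2 * 10 ^ 8 * z ≤ T * z :=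
  mul_le_mul_of_nonneg_right H.cT hz

theorem P2 : 2 * 10 ^ 8 * T ≤ T ^ 2 := by
  have := H.up H.T0.le
  rwa [← sq] at this

theorem P3 : 2 * 10 ^ 8 * T ^ 2 ≤ T ^ 3 := by
  have := H.up (pow_nonneg H.T0.le 2)
  rwa [← pow_succ'] at this

theorem P4 : 2 * 10 ^ 8 * T ^ 3 ≤ T ^ 4 := by
  have := H.up (pow_nonneg H.T0.le 3)
  rwa [← pow_succ'] at this

theorem K0 : 0 < K := lt_of_lt_of_le (pow_pos H.T0 4) H.k1

theorem L0 : 0 < L := lt_of_lt_of_le (pow_pos H.T0 4) H.l1

theorem A0 : 0 < A := lt_of_lt_of_le H.K0 H.KA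

theorem Ts : T ≤ T ^ 4 := by
  calc T = T ^ 1 := (pow_one _).symm
    _ ≤ T ^ 4 := pow_le_pow_right₀ H.T1 (by norm_num)

theorem K8 : 2 * 10 ^ 8 ≤ K := by
  have h1 := H.cT
  have h2 := H.Ts
  linarith only [h1, h2, H.k1]

theorem L8 : 2 * 10 ^ 8 ≤ L := by
  have h1 := H.cT
  have h2 := H.Ts
  linarith only [h1, h2, H.l1]

theorem AT4 : 2 * 10 ^ 8 * (A * T ^ 4) ≤ B := by
  have h1 := H.up (mul_nonneg H.A0.le (pow_nonneg H.T0.le 4))
  have h2 : T * (A * T ^ 4) = A * T ^ 5 := by ring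
  rw [h2] at h1
  exact h1.trans H.BA

theorem AT3 : 2 * 10 ^ 8 * (A * T ^ 3) ≤ A * T ^ 4 := by
  have h1 := H.up (mul_nonneg H.A0.le (pow_nonneg H.T0.le 3))
  have h2 : T * (A * T ^ 3) = A * T ^ 4 := by ring
  rwa [h2] at h1

theorem AT2 : 2 * 10 ^ 8 * (A * T ^ 2) ≤ A * T ^ 3 := by
  have h1 := H.up (mul_nonneg H.A0.le (pow_nonneg H.T0.le 2))
  have h2 : T * (A * T ^ 2) = A * T ^ 3 := by ring
  rwa [h2] at h1

theorem AT1 : 2 * 10 ^ 8 * (A * T) ≤ A * T ^ 2 := by
  have h1 := H.up (mul_nonneg H.A0.le H.T0.le)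
  have h2 : T * (A * T) = A * T ^ 2 := by ring
  rwa [h2] at h1

theorem ATp : 0 < A * T := mul_pos H.A0 H.T0

theorem ATp2 : 0 < A * T ^ 2 := mul_pos H.A0 (pow_pos H.T0 2)

theorem ATp3 : 0 < A * T ^ 3 := mul_pos H.A0 (pow_pos H.T0 3)

theorem ATp4 : 0 < A * T ^ 4 := mul_pos H.A0 (pow_pos H.T0 4)

theorem A1 : 2 * 10 ^ 8 * A ≤ A * T := by
  have h1 := H.up H.A0.le
  rwa [mul_comm T A] at h1

theorem B0 : 0 < B := by
  have h1 := H.AT4
  have h2 := H.ATp4
  linarith only [h1, h2]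

theorem μK : μ ≤ K := by rw [H.hμ]; exact min_le_left _ _

theorem μL : μ ≤ L := by rw [H.hμ]; exact min_le_right _ _

theorem μT : T ^ 4 ≤ μ := by rw [H.hμ]; exact le_min H.k1 H.l1

theorem μ0 : 0 < μ := lt_of_lt_of_le (pow_pos H.T0 4) H.μT

theorem KL : K * L ≤ μ * A := by
  rcases le_total K L with h | h
  · have h1 : μ = K := by rw [H.hμ, min_eq_left h]
    rw [h1]
    exact mul_le_mul_of_nonneg_left H.LA H.K0.le
  · have h1 : μ = L := by rw [H.hμ, min_eq_right h]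
    rw [h1, mul_comm]
    exact mul_le_mul_of_nonneg_left H.KA H.L0.le

theorem μB : 0 < μ * B := mul_pos H.μ0 H.B0

theorem T3B : T ^ 3 * B ≤ μ * B := by
  apply mul_le_mul_of_nonneg_right _ H.B0.le
  have h1 := H.P4
  have h2 := H.μT
  have h3 := pow_pos H.T0 3
  linarith only [h1, h2, h3]

theorem T2B : 2 * 10 ^ 8 * (T ^ 2 * B) ≤ T ^ 3 * B := by
  rw [← mul_assoc]
  exact mul_le_mul_of_nonneg_right H.P3 H.B0.le

theorem TB : 2 * 10 ^ 8 * (T * B) ≤ T ^ 2 * B := by
  rw [← mul_assoc]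
  exact mul_le_mul_of_nonneg_right H.P2 H.B0.le

theorem oB : 2 * 10 ^ 8 * B ≤ T * B := H.up H.B0.le

/-- `A * μ * T ^ 3 ≤ μ * B`. -/
theorem Aμ : 2 * 10 ^ 8 * (μ * (A * T ^ 3)) ≤ μ * B := by
  have h1 := H.AT4
  have h2 := H.AT3
  have h3 := H.ATp4
  have h4 := mul_le_mul_of_nonneg_left (show 2 * 10 ^ 8 * (A * T ^ 3) ≤ B by
    linarith only [h1, h2, h3]) H.μ0.le
  linarith only [h4]

/-! ### `R` -/

variable {U Y R : ℝ}

theorem KR (hU : 0 ≤ U) (hUT : U ≤ T) (hY : K * Y ≤ 2 * (T * (K + L)))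
    (hY0 : 0 ≤ Y) (hR : R = 4 * M * U * Y) : K * R ≤ T ^ 3 * (K + L) := by
  have hKL : 0 < K + L := add_pos H.K0 H.L0
  have h1 : K * R = 4 * M * U * (K * Y) := by rw [hR]; ring
  have h2 : 4 * M * U * (K * Y) ≤ 4 * M * T * (2 * (T * (K + L))) := by
    apply mul_le_mul _ hY (mul_nonneg H.K0.le hY0) (by
      have := H.M0
      have := H.T0
      positivity)
    exact mul_le_mul_of_nonneg_left hUT (by
      have := H.M0
      positivity)
  have h3 : 4 * M * T * (2 * (T * (K + L))) = (8 * M) * (T ^ 2 * (K + L)) := by ring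
  have h4 : (8 * M) * (T ^ 2 * (K + L)) ≤ T * (T ^ 2 * (K + L)) := by
    apply mul_le_mul_of_nonneg_right
    · have h5 := H.cM
      have h6 := H.M0
      linarith only [h5, h6]
    · exact mul_nonneg (sq_nonneg T) hKL.le
  have h5 : T * (T ^ 2 * (K + L)) = T ^ 3 * (K + L) := by ring
  linarith only [h1, h2, h3, h4, h5]

/-- `T ^ 3 * (K + L)` against `K * L`. -/
theorem kl1 : 32 * (T ^ 3 * (K + L)) ≤ K * L := by
  have h1 : 100 * T ^ 3 ≤ L := by
    have h2 := H.P4
    have h3 := pow_pos H.T0 3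
    linarith only [h2, h3, H.l1]
  have h2 : 100 * T ^ 3 ≤ K := by
    have h2 := H.P4
    have h3 := pow_pos H.T0 3
    linarith only [h2, h3, H.k1]
  have h3 := mul_le_mul_of_nonneg_left h1 H.K0.le
  have h4 := mul_le_mul_of_nonneg_left h2 H.L0.le
  have h5 := mul_pos H.K0 H.L0
  linarith only [h3, h4, h5]

/-- `T ^ 3 * (K + L)` against `K * K`. -/
theorem kl2 : 256 * (T ^ 3 * (K + L)) ≤ K * K := by
  have h2 : 1000 * T ^ 3 ≤ K := by
    have h2 := H.P4
    have h3 := pow_pos H.T0 3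
    linarith only [h2, h3, H.k1]
  have h3 := mul_le_mul_of_nonneg_left h2 H.K0.le
  have h4 : T ^ 3 * L ≤ A * T ^ 3 := by
    rw [mul_comm]
    exact mul_le_mul_of_nonneg_right H.LA (pow_nonneg H.T0.le 3)
  have h5 := H.AT3
  have h6 := H.k2
  have h7 : K ^ 2 = K * K := sq K
  have h8 := H.ATp3
  linarith only [h3, h4, h5, h6, h7, h8]

theorem RL (hR : K * R ≤ T ^ 3 * (K + L)) : 32 * R ≤ L := by
  have h1 := H.kl1
  have h2 : K * (32 * R) ≤ K * L := by linarith only [h1, hR]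
  exact le_of_mul_le_mul_left h2 H.K0

theorem RK (hR : K * R ≤ T ^ 3 * (K + L)) : 256 * R ≤ K := by
  have h1 := H.kl2
  have h2 : K * (256 * R) ≤ K * K := by linarith only [h1, hR]
  exact le_of_mul_le_mul_left h2 H.K0

/-- `2 R K` is small. -/
theorem RKB (hR : K * R ≤ T ^ 3 * (K + L)) : 10 ^ 6 * (K * R * T) ≤ B := by
  have h1 : T ^ 3 * (K + L) * T ≤ 2 * (A * T ^ 4) := by
    have h2 : T ^ 3 * (K + L) * T = T ^ 4 * (K + L) := by ring
    have h3 : T ^ 4 * (K + L) ≤ T ^ 4 * (2 * A) := by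
      apply mul_le_mul_of_nonneg_left _ (pow_nonneg H.T0.le 4)
      linarith only [H.KA, H.LA]
    linarith only [h2, h3]
  have h2 := mul_le_mul_of_nonneg_right hR H.T0.le
  have h3 := H.AT4
  have h4 := H.ATp4
  linarith only [h1, h2, h3, h4]

/-! ### Tests and zones -/

variable {q TDL : ℝ}

/-- the cells of the tests and zones. -/
theorem tests (hU : 0 ≤ U) (hUT : U ≤ T) (hYK : T * (K + L) ≤ K * Y) (hTY : T ≤ Y)
    (hq0 : 0 ≤ q) (hq : q * Y ≤ B)
    (hTDL : TDL = 4 * L * (4 * M * (q + U) + 8 * M * K)) : T * TDL ≤ 17 * M * (μ * B) := by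
  have hY0 : 0 < Y := lt_of_lt_of_le H.T0 hTY
  -- T L q ≤ μ B
  have h1 : T * (L * q) ≤ μ * B := by
    have hTL : T * L ≤ K * Y := by
      have := mul_pos H.T0 H.K0
      linarith only [hYK, this]
    have h2 : T * (L * q) ≤ K * B := by
      have e1 : T * (L * q) = T * L * q := by ring
      have e2 := mul_le_mul_of_nonneg_right hTL hq0
      have e3 := mul_le_mul_of_nonneg_left hq H.K0.le
      have e4 : K * Y * q = K * (q * Y) := by ring
      linarith only [e1, e2, e3, e4]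
    have h3 : T * (L * q) ≤ L * B := by
      have e1 : T * (L * q) = T * q * L := by ring
      have e2 := mul_le_mul_of_nonneg_right hTY hq0
      have e3 := mul_le_mul_of_nonneg_left (e2.trans (by linarith only [hq] : Y * q ≤ B)) H.L0.le
      linarith only [e1, e3]
    rcases le_total K L with h | h
    · have h4 : μ = K := by rw [H.hμ, min_eq_left h]
      rw [h4]
      exact h2
    · have h4 : μ = L := by rw [H.hμ, min_eq_right h]
      rw [h4]
      exact h3
  have h2 : 1000 * (M * (T * (L * U))) ≤ μ * B := by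
    have e1 : L * U ≤ A * T := mul_le_mul H.LA hUT hU H.A0.le
    have e2 : T * (L * U) ≤ T * (A * T) := mul_le_mul_of_nonneg_left e1 H.T0.le
    have e3 : M * (T * (L * U)) ≤ T * (T * (L * U)) := by
      apply mul_le_mul_of_nonneg_right
      · have h5 := H.cM
        have h6 := H.M0
        linarith only [h5, h6]
      · have := H.T0
        have := H.L0
        positivity
    have e4 : T * (T * (L * U)) ≤ T * (T * (A * T)) := mul_le_mul_of_nonneg_left e2 H.T0.le
    have e5 : T * (T * (A * T)) = A * T ^ 3 := by ring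
    have e6 := H.AT3
    have e7 := H.AT4
    have e8 := H.ATp4
    have e9 : B ≤ μ * B := by
      have h5 := mul_le_mul_of_nonneg_right (show (1 : ℝ) ≤ μ by
        have := H.μT
        have := H.Ts
        have := H.T1
        linarith) H.B0.le
      rwa [one_mul] at h5
    linarith only [e3, e4, e5, e6, e7, e8, e9]
  have h3 : 1000 * (M * (T * (K * L))) ≤ μ * B := by
    have e1 := mul_le_mul_of_nonneg_left H.KL H.T0.le
    have e2 : M * (T * (K * L)) ≤ T * (T * (μ * A)) := by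
      apply mul_le_mul _ e1 _ H.T0.le
      · have h5 := H.cM
        have h6 := H.M0
        linarith only [h5, h6]
      · have := H.T0
        have := H.L0
        have := H.K0
        positivity
    have e3 : T * (T * (μ * A)) * T = μ * (A * T ^ 3) := by ring
    have e4 := H.Aμ
    have e5 : T * (T * (μ * A)) ≤ T * (T * (μ * A)) * T := by
      have h5 : 0 ≤ T * (T * (μ * A)) := by
        have := H.T0
        have := H.μ0
        have := H.A0
        positivity
      exact le_mul_of_one_le_right h5 H.T1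
    have e6 : 0 ≤ μ * (A * T ^ 3) := mul_nonneg H.μ0.le H.ATp3.le
    linarith only [e2, e3, e4, e5, e6]
  have h4 : T * TDL = 16 * M * (T * (L * q)) + 16 * (M * (T * (L * U))) +
      32 * (M * (T * (K * L))) := by rw [hTDL]; ring
  have h5 : 16 * M * (T * (L * q)) ≤ 16 * M * (μ * B) := by
    apply mul_le_mul_of_nonneg_left h1
    have := H.M0
    positivity
  have h6 : 2 * (μ * B) ≤ M * (μ * B) := mul_le_mul_of_nonneg_right H.M2 H.μB.le
  have h7 := H.μB
  have h8 : M * (μ * B) = M * (μ * B) := rfl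
  nlinarith only [h2, h3, h4, h5, h6, h7]

/-- the load of a point. -/
theorem load {Nl D4 La : ℝ} (htests : T * TDL ≤ 17 * M * (μ * B)) (hN : B ≤ 2 * Lg * Nl)
    (hD : Nl ≤ 5 * D4) (hLa : (La - 1) * D4 ≤ TDL) (hLa1 : 1 ≤ La) :
    T * La ≤ 170 * (M * Lg) * μ + T := by
  have h1 : (La - 1) * B ≤ 10 * Lg * TDL := by
    have e1 : (La - 1) * B ≤ (La - 1) * (2 * Lg * Nl) :=
      mul_le_mul_of_nonneg_left hN (by linarith only [hLa1])
    have e2 : (La - 1) * (2 * Lg * Nl) ≤ (La - 1) * (2 * Lg * (5 * D4)) := by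
      apply mul_le_mul_of_nonneg_left _ (by linarith only [hLa1])
      apply mul_le_mul_of_nonneg_left hD
      have := H.Lg0
      positivity
    have e3 : (La - 1) * (2 * Lg * (5 * D4)) = 10 * Lg * ((La - 1) * D4) := by ring
    have e4 : 10 * Lg * ((La - 1) * D4) ≤ 10 * Lg * TDL := by
      apply mul_le_mul_of_nonneg_left hLa
      have := H.Lg0
      positivity
    linarith only [e1, e2, e3, e4]
  have h2 : B * (T * (La - 1)) ≤ B * (170 * (M * Lg) * μ) := by
    have e1 := mul_le_mul_of_nonneg_left h1 H.T0.le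
    have e2 : 10 * Lg * (T * TDL) ≤ 10 * Lg * (17 * M * (μ * B)) := by
      apply mul_le_mul_of_nonneg_left htests
      have := H.Lg0
      positivity
    nlinarith only [e1, e2]
  have h3 := le_of_mul_le_mul_left h2 H.B0
  linarith only [h3]

theorem La_le {La : ℝ} (h : T * La ≤ 170 * (M * Lg) * μ + T) : 100000 * La ≤ K + 200000 := by
  have h1 : 170 * (M * Lg) * μ * 100000 ≤ T * K := by
    have e1 : 170 * (M * Lg) * 100000 ≤ T := by
      have h5 := H.cML
      have h6 := mul_pos H.M0 H.Lg0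
      linarith only [h5, h6]
    have e2 := mul_le_mul e1 H.μK H.μ0.le H.T0.le
    linarith only [e2]
  have h2 : T * (100000 * La) ≤ T * (K + 200000) := by
    have := H.T0
    nlinarith only [h, h1, this]
  exact le_of_mul_le_mul_left h2 H.T0

end Bd

end Vale.Agent.P181.H411
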