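import Vale.Agent.P181.H72.WTorus

/-!
P181, Lemma G: a shear invariant form of positive weight which does not see the part in the last
variables of a common linear factor vanishes.
-/

set_option autoImplicit false

open MvPolynomial

namespace Vale.Agent.P181.H411.LemG

open Vale.Agent.P181 Vale.Agent.P181.H536 Vale.Agent.P181.H280 Vale.Agent.P181.TN
  Vale.Agent.P181.TW Vale.Agent.P181.R2.H866 Vale.Agent.P181.H72

variable {n : ℕ}

/-- heavy exponents: all coefficients vanish -/
lemma heavy_dev {L : Finset (Fin n)} {m b κ : ℕ} {F : Fm n (m + 1)} (hQ : Q2 L b F)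
    (hκ : m + 1 ≤ κ) (hκb : κ ≤ b + 1) {w : Sn n} (hw : w ∈ ZS L ^ κ) {h : Sn n}
    (hh : h ∈ linS (n + 2) ^ (b + 1 - κ)) {ξ : Sn n} (hξ : Ch L ξ) {z : Sn n} (hz : z ∈ ZS L)
    (j : ℕ) (g : Fin m → Sn n) (hg : Dg b g) : Dev z j ξ (F.curryLeft (w * h)) g = 0 := by
  have h1 := heavyN (s := 0) (p := ξ) (q := X 1) (F := F) hξ.mem' (X_mem_linS _)
    ((ZS_le L).trans ZZ_le) (b := b) (fun z hz j hj x g hg =>
      hQ _ (ch_lin hξ ⟨1, 0, Submodule.zero_mem _, by rw [one_smul, add_zero]⟩ x) z hz j hj g hg)
    hκ hκb hw hh hz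
  have h2 := h1 j (Nat.zero_le _) 0 g hg
  rwa [lin, zero_smul, add_zero] at h2

/-- the kernel condition is automatic -/
lemma isK_of_q2 {L : Finset (Fin n)} {a b : ℕ} {w₀ : Fin n → ℕ} {F : Fm n a}
    (hH : HomW (b + 1) w₀ F) (hw₀ : 1 ≤ ∑ i ∈ L, w₀ i) (hQ : Q2 L b F) :
    IsK (linS (n + 2)) (b + 1) F := by
  classical
  apply isK_of_chart
  intro x z hz
  choose z₁ hz₁ z₂ hz₂ he using fun j => Submodule.mem_sup.1 (ZZ_le_sup L (hz j))
  have key : ∀ S : Finset (Fin (b + 1)),
      F (fun _ => ∏ j, (ln n (x j) + z₁ j + if j ∈ S then 0 else z₂ j)) =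
        F (fun _ => ∏ j, (ln n (x j) + z j)) := by
    intro S
    induction S using Finset.induction_on with
    | empty =>
      congr 1
      funext _
      apply Finset.prod_congr rfl
      intro j _
      rw [if_neg (Finset.notMem_empty _), ← he j]
      abel
    | insert i S hi ih =>
      rw [← ih]
      have h1 : ∀ T : Finset (Fin (b + 1)),
          (fun _ : Fin a => ∏ j, (ln n (x j) + z₁ j + if j ∈ T then 0 else z₂ j)) =
          fun _ : Fin a => (ln n (x i) + z₁ i + if i ∈ T then 0 else z₂ i) *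
            ∏ j ∈ Finset.univ.erase i, (ln n (x j) + z₁ j + if j ∈ T then 0 else z₂ j) := by
        intro T
        funext _
        exact (Finset.mul_prod_erase Finset.univ
          (fun j => ln n (x j) + z₁ j + if j ∈ T then 0 else z₂ j) (Finset.mem_univ i)).symm
      have h2 : ∏ j ∈ Finset.univ.erase i,
            (ln n (x j) + z₁ j + if j ∈ insert i S then 0 else z₂ j) =
          ∏ j ∈ Finset.univ.erase i, (ln n (x j) + z₁ j + if j ∈ S then 0 else z₂ j) := by
        apply Finset.prod_congr rfl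
        intro j hj
        have hji := Finset.ne_of_mem_erase hj
        congr 1
        by_cases hjS : j ∈ S
        · rw [if_pos hjS, if_pos (Finset.mem_insert_of_mem hjS)]
        · rw [if_neg hjS, if_neg (by
            rw [Finset.mem_insert, not_or]
            exact ⟨hji, hjS⟩)]
      rw [h1 (insert i S), h1 S, h2, if_pos (Finset.mem_insert_self _ _), if_neg hi, add_zero]
      symm
      apply hQ.eq ⟨x i, z₁ i, hz₁ i, rfl⟩ (hz₂ i)
      intro _
      have h3 := H240.prod_mem_pow_card (linS (n + 2)) (Finset.univ.erase i)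
        (fun j => ln n (x j) + z₁ j + if j ∈ S then 0 else z₂ j) (fun j => by
          rw [add_assoc]
          apply line_mem
          apply (ZZ n).add_mem (ZS_le _ (hz₁ j))
          split_ifs
          · exact (ZZ n).zero_mem
          · exact ZS_le _ (hz₂ j))
      rwa [Finset.card_erase_of_mem (Finset.mem_univ i), Finset.card_univ, Fintype.card_fin,
        Nat.add_sub_cancel] at h3
  rw [← key Finset.univ]
  set P : Fin a → Sn n := fun _ => ∏ j, (ln n (x j) + z₁ j + if j ∈ (Finset.univ :
    Finset (Fin (b + 1))) then 0 else z₂ j) with hP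
  have hPU : ∀ i, P i ∈ UL L ^ (b + 1) := by
    intro i
    have h3 := H240.prod_mem_pow_card (UL L) (Finset.univ : Finset (Fin (b + 1)))
      (fun j => ln n (x j) + z₁ j + if j ∈ (Finset.univ : Finset (Fin (b + 1))) then 0 else z₂ j)
      (fun j => by
        rw [if_pos (Finset.mem_univ j), add_zero]
        exact (UL L).add_mem (ln_mem_UL L _) (ZS_le_UL L (hz₁ j)))
    rwa [Finset.card_univ, Fintype.card_fin] at h3
  have hPD : Dg (b + 1) P := fun i => pow_le_pow_left' (UL_le L) _ (hPU i)
  have h4 := hH (cL L 2) (cL_ne L two_ne_zero) P hPD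
  have h5 : (fun i => scw (cL L 2) (P i)) = P := by
    funext i
    exact scw_cL_UL_pow L 2 (hPU i)
  rw [h5, prod_cL] at h4
  have h6 : ((2 : ℂ) ^ (∑ i ∈ L, w₀ i) - 1) * F P = 0 := by
    rw [sub_mul, one_mul, ← h4, sub_self]
  refine (mul_eq_zero.1 h6).resolve_left ?_
  intro h7
  rw [sub_eq_zero] at h7
  have h8 : (2 : ℕ) ^ (∑ i ∈ L, w₀ i) = 2 ^ 0 := by exact_mod_cast h7
  have h9 := Nat.pow_right_injective le_rfl h8
  omega

/-- **Lemma G.** -/
theorem lemG (a : ℕ) : ∀ (b : ℕ) (w : Fin n → ℕ) (F : Fm n a), 2 * a ≤ b + 3 → 1 ≤ ∑ i, w i →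
    IsSymm F → Inv (b + 1) F → HomW (b + 1) w F → Q2 Finset.univ b F → Van (b + 1) F := by
  classical
  induction a with
  | zero =>
    intro b w F _ hw _ _ hH _ P hP
    have h4 := hH (fun _ => 2) (fun _ => two_ne_zero) P hP
    have h5 : (fun i => scw (fun _ => (2 : ℂ)) (P i)) = P := Subsingleton.elim _ _
    rw [h5, Finset.prod_pow_eq_pow_sum] at h4
    have h6 : ((2 : ℂ) ^ (∑ i, w i) - 1) * F P = 0 := by
      rw [sub_mul, one_mul, ← h4, sub_self]
    refine (mul_eq_zero.1 h6).resolve_left ?_
    intro h7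
    rw [sub_eq_zero] at h7
    have h8 : (2 : ℕ) ^ (∑ i, w i) = 2 ^ 0 := by exact_mod_cast h7
    have h9 := Nat.pow_right_injective le_rfl h8
    omega
  | succ m ih =>
    intro b w F hab hw hsy hI hH hQ
    by_cases hwm : ∑ i, w i ≤ m
    · exact treeW (N := m) (by omega) (by omega) le_rfl F hsy hI hH (isK_of_q2 hH hw hQ)
    set B := b + 1 with hB
    let O : ℕ → Prop := fun κ => ∀ r : Fin n → ℕ, ∑ i, r i = κ → κ ≤ B →
      ∀ A ∈ U2 n ^ (B - κ), Van B (F.curryLeft (mz r * A))
    have step : ∀ κ, κ ≤ B → (∀ κ', κ < κ' → κ' ≤ B → O κ') → O κ := by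
      intro κ hκ hO r hr _ A hA
      by_cases hrw : r ≤ w
      swap
      · exact curry_zeroW (by omega) hrw F hH (by rwa [hr])
      have hmz : mz r ∈ ZS (Finset.univ : Finset (Fin n)) ^ κ := by
        have h := mz_mem_ZS Finset.univ r (fun i hi => absurd (Finset.mem_univ i) hi)
        rwa [hr] at h
      have hAU : A ∈ UL (Finset.univ : Finset (Fin n)) ^ (B - κ) :=
        pow_le_pow_left' (U2_le_UL _) _ hA
      have hAl : A ∈ linS (n + 2) ^ (B - κ) := pow_le_pow_left' (UL_le _) _ hAU
      have hTop : ∀ j, κ < j → j ≤ B → ∀ v ∈ ZS (Finset.univ : Finset (Fin n)) ^ j,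
          ∀ A ∈ UL (Finset.univ : Finset (Fin n)) ^ (B - j), Van B (F.curryLeft (v * A)) :=
        fun j hj hjB v hv A hA => van_of_mono hjB (fun r' hr' _ A' hA' =>
          hO j hj hjB r' hr' hjB A' (by rwa [hr'] at hA')) hv hA
      have hInv : Inv B (F.curryLeft (mz r * A)) := by
        apply curry_invW (by omega) F hI _ (by rwa [hr])
        intro r' hr'0 hr' A' hA'
        have h3 : ∑ i, (r + r') i = ∑ i, r i + ∑ i, r' i := by
          simp only [Pi.add_apply]
          rw [Finset.sum_add_distrib]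
        have h4 : 0 < ∑ i, r' i := by
          rw [Nat.pos_iff_ne_zero]
          intro h4
          apply hr'0
          funext i
          exact (Finset.sum_eq_zero_iff.1 h4) i (Finset.mem_univ i)
        exact hO (∑ i, (r + r') i) (by omega) hr' (r + r') rfl hr' A' hA'
      have hHW : HomW B (w - r) (F.curryLeft (mz r * A)) :=
        curry_homW (by omega) hrw F hH (by rwa [hr])
      have hsum : ∑ i, w i = ∑ i, (w - r) i + ∑ i, r i := by
        rw [← Finset.sum_add_distrib]
        apply Finset.sum_congr rfl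
        intro i _
        have h5 : r i ≤ w i := hrw i
        rw [Pi.sub_apply]
        omega
      by_cases hpos : 1 ≤ ∑ i, (w - r) i
      · apply ih b (w - r) (F.curryLeft (mz r * A)) (by omega) hpos (hsy.curryLeft _) hInv hHW
        by_cases hκm : m + 1 ≤ κ
        · intro ξ hξ z hz j _ g hg
          exact heavy_dev hQ hκm hκ hmz hAl hξ hz j g hg
        · exact light_q2 hQ (by omega) (by omega) hTop hmz hAU
      · have hκm : m + 1 ≤ κ := by omega
        have hK : IsK (linS (n + 2)) B (F.curryLeft (mz r * A)) := heavy_isK hQ hκm hκ hmz hAl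
        rcases Nat.eq_zero_or_pos m with rfl | hm
        · exact zeroW n B (w - r) _ (hsy.curryLeft _) hInv hHW hK
        · exact treeW (N := m) hm (by omega) (by omega) _ (hsy.curryLeft _) hInv hHW hK
    have all : ∀ d κ, κ ≤ B → B - κ ≤ d → O κ := by
      intro d
      induction d with
      | zero =>
        intro κ hκ hd
        exact step κ hκ fun κ' h1 h2 => absurd h2 (by omega)
      | succ d ih =>
        intro κ hκ hd
        exact step κ hκ fun κ' h1 h2 => ih κ' h2 (by omega)
    intro P hP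
    let W : Submodule ℂ (Sn n) :=
      LinearMap.ker ({ toFun := fun u => F.curryLeft u (fun i => P i.succ)
                       map_add' := fun x y => by rw [map_add]; rfl
                       map_smul' := fun c x => by rw [map_smul]; rfl } : Sn n →ₗ[ℂ] ℂ)
    have h2 : linS (n + 2) ^ B ≤ W := by
      apply linS_pow_le
      intro k hk v hv A hA
      change F.curryLeft (v * A) (fun i => P i.succ) = 0
      apply van_curry_of_mz F A _ hv (fun i => P i.succ) (fun i => hP i.succ)
      intro r hr
      exact all B k hk (by omega) r hr hk A hA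
    have h3 : F.curryLeft (P 0) (fun i => P i.succ) = 0 := h2 (hP 0)
    rw [MultilinearMap.curryLeft_apply] at h3
    rw [← h3]
    congr 1
    funext i
    refine Fin.cases ?_ (fun i => ?_) i
    · rfl
    · rfl

end Vale.Agent.P181.H411.LemG
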