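import Vale.Agent.P181.T6.Spec
import Vale.Agent.P181.H463.Rows

/-!
# P181 (T6), leaf [LP]: the assembly of a design

`Plan`: numbered columns `c < L`, marks `mr c i`, bottoms `bt c` of the fixed columns, servers
`pi r c`; output: a `Design` and `DesignFor`.
-/

set_option autoImplicit false

open scoped Classical

namespace Vale.Agent.P181.T6

open Finset
open Vale.Agent.P181.H463 (collen collen_le lt_collen rows_collen)

/-! ### Generic facts -/

theorem card_filter_iff {α : Type} [Fintype α] {p q : α → Prop} {hp : DecidablePred p}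
    {hq : DecidablePred q} (h : ∀ a, p a ↔ q a) :
    (@Finset.filter α p hp univ).card = (@Finset.filter α q hq univ).card := by
  congr 1
  ext a
  simp [h a]

theorem card_filter_eq_zero {α : Type} [Fintype α] {p : α → Prop} {hp : DecidablePred p}
    (h : ∀ a, ¬ p a) : (@Finset.filter α p hp univ).card = 0 := by
  rw [card_eq_zero, filter_eq_empty_iff]
  intro a _
  exact h a

namespace Design

variable {m R N : ℕ} {T S C : Type} [Fintype T] [Fintype S] [Fintype C]
  (D : Design m R N T S C)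

theorem sum_card_srv (p : T ⊕ (S ⊕ Fin N)) :
    ∑ c : C, ((range (D.len c)).filter (fun i => i < R ∧ D.srv c i = p)).card =
      ∑ i ∈ range R, (univ.filter fun c : C => i < D.len c ∧ D.srv c i = p).card := by
  have h0 : ∀ c : C, ((range (D.len c)).filter (fun i => i < R ∧ D.srv c i = p)).card =
      ∑ i ∈ range R, if i < D.len c ∧ D.srv c i = p then 1 else 0 := by
    intro c
    rw [← card_filter]
    congr 1
    ext i
    simp only [mem_filter, mem_range]
    tauto
  rw [sum_congr rfl (fun c _ => h0 c), sum_comm]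
  apply sum_congr rfl
  intro i _
  rw [card_filter]

theorem inc_inl (t : T) : D.inc (Sum.inl t) =
    ∑ i ∈ range R, (univ.filter fun c : C => i < D.len c ∧ D.srv c i = Sum.inl t).card := by
  unfold Design.inc
  rw [sum_add_distrib, D.sum_card_srv]
  conv_rhs => rw [← add_zero (∑ i ∈ range R, _)]
  congr 1
  apply sum_eq_zero
  intro c _
  split_ifs
  · rw [card_eq_zero, filter_eq_empty_iff]
    intro j _ h
    exact absurd h (by simp)
  · rfl

theorem inc_inr (q : S ⊕ Fin N) : D.inc (Sum.inr q) =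
    (∑ i ∈ range R, (univ.filter fun c : C => i < D.len c ∧ D.srv c i = Sum.inr q).card) +
    (univ.filter fun c : C => D.fx c ∧ ∃ j, D.bot c j = q).card := by
  unfold Design.inc
  rw [sum_add_distrib, D.sum_card_srv]
  congr 1
  rw [card_filter]
  apply sum_congr rfl
  intro c _
  by_cases hf : D.fx c
  · rw [if_pos hf]
    by_cases hq : ∃ j, D.bot c j = q
    · rw [if_pos ⟨hf, hq⟩]
      obtain ⟨j, hj⟩ := hq
      rw [card_eq_one]
      refine ⟨j, ?_⟩
      ext j'
      rw [mem_filter, mem_singleton]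
      constructor
      · rintro ⟨-, h'⟩
        exact D.bot_inj c hf ((Sum.inr_injective h').trans hj.symm)
      · rintro rfl
        exact ⟨mem_univ _, congrArg Sum.inr hj⟩
    · rw [if_neg (fun h => hq h.2), card_eq_zero, filter_eq_empty_iff]
      intro j _ hj
      exact hq ⟨j, Sum.inr_injective hj⟩
  · rw [if_neg hf, if_neg (fun h => hf h.1)]

end Design

/-- The data of a design (columns numbered by `c < L`). -/
structure Plan (k b n R N : ℕ) (J : Type) [Fintype J] [Nonempty J] where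
  lam : Fin n → ℕ
  anti : Antitone lam
  hRn : R ≤ n
  hR0 : 0 < R
  /-- number of columns -/
  L : ℕ
  hL : ∀ i, lam i ≤ L
  fx : ℕ → Prop
  fx_lt : ∀ c, fx c → c < L
  mr : ℕ → ℕ → Option ((Fin R × J) ⊕ Fin N)
  mk_fx : ∀ c i q, mr c i = some q → fx c
  mk_inj : ∀ c i i' q, mr c i = some q → mr c i' = some q → i = i'
  bt : ℕ → Finset ((Fin R × J) ⊕ Fin N)
  bt_card : ∀ c, fx c → (bt c).card + R = (univ.filter fun i : Fin n => c < lam i).card
  mk_bt : ∀ c i q, mr c i = some q → q ∉ bt c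
  w : Fin R → ℕ
  pi : (r : Fin R) → ℕ → Fin (w r)
  card_pi : ∀ (r : Fin R) (g : Fin (w r)), ((range (lam (Fin.castLE hRn r))).filter
    (fun c => mr c r = none ∧ pi r c = g)).card = k
  d : Fin N → ℕ
  d_bal : ∀ i j, d i ≤ d j + 1
  deg_S : ∀ s : Fin R × J, (∑ i ∈ range R, ((range L).filter
    (fun c => mr c i = some (Sum.inl s))).card) +
    ((range L).filter (fun c => fx c ∧ Sum.inl s ∈ bt c)).card = k
  deg_N : ∀ q : Fin N, (∑ i ∈ range R, ((range L).filter
    (fun c => mr c i = some (Sum.inr q))).card) +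
    ((range L).filter (fun c => fx c ∧ Sum.inr q ∈ bt c)).card + d q = k
  card_b : ∑ r, w r + (Fintype.card (Fin R × J) + N) = b

namespace Plan

variable {k b n R N : ℕ} {J : Type} [Fintype J] [Nonempty J] (P : Plan k b n R N J)

/-- the pure letters -/
abbrev Tp : Type := Σ r : Fin R, Fin (P.w r)

/-- the server of the row `j` of the column `c` -/
noncomputable def sv (c : ℕ) (j : Fin R) : P.Tp ⊕ ((Fin R × J) ⊕ Fin N) :=
  match P.mr c j with
  | some q => Sum.inr q
  | none => Sum.inl ⟨j, P.pi j c⟩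

theorem sv_inr {c : ℕ} {j : Fin R} {q : (Fin R × J) ⊕ Fin N} :
    P.sv c j = Sum.inr q ↔ P.mr c j = some q := by
  unfold sv
  cases h : P.mr c j with
  | none => simp
  | some q' => simp

theorem sv_inl {c : ℕ} {j r : Fin R} {g : Fin (P.w r)} :
    P.sv c j = Sum.inl ⟨r, g⟩ ↔ j = r ∧ P.mr c r = none ∧ P.pi r c = g := by
  unfold sv
  cases h : P.mr c j with
  | none =>
    constructor
    · intro h1
      rw [Sum.inl.injEq, Sigma.mk.injEq] at h1
      obtain ⟨rfl, h2⟩ := h1
      rw [heq_eq_eq] at h2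
      exact ⟨rfl, h, h2⟩
    · rintro ⟨rfl, -, h3⟩
      rw [h3]
  | some q' =>
    constructor
    · intro h1
      exact absurd h1 (by simp)
    · rintro ⟨rfl, h2, -⟩
      rw [h] at h2
      exact absurd h2 (by simp)

theorem le_len {c : Fin P.L} (h : P.fx c) : R ≤ collen P.lam P.L c := by
  have h1 := P.bt_card c h
  unfold collen
  omega

/-- the bottom of a fixed column -/
noncomputable def bot (c : Fin P.L) (j : Fin (collen P.lam P.L c - R)) : (Fin R × J) ⊕ Fin N :=
  if h : P.fx c then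
    ((P.bt c).equivFinOfCardEq (n := collen P.lam P.L c - R) (by
      have h1 := P.bt_card c h
      unfold collen
      omega)).symm j
  else Sum.inl (⟨0, P.hR0⟩, Classical.arbitrary J)

theorem bot_inj (c : Fin P.L) (h : P.fx c) : Function.Injective (P.bot c) := by
  intro j j' hj
  unfold bot at hj
  rw [dif_pos h, dif_pos h] at hj
  exact (Equiv.injective _) (Subtype.ext hj)

theorem exists_bot (c : Fin P.L) (h : P.fx c) (q : (Fin R × J) ⊕ Fin N) :
    (∃ j, P.bot c j = q) ↔ q ∈ P.bt c := by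
  constructor
  · rintro ⟨j, rfl⟩
    unfold bot
    rw [dif_pos h]
    exact Subtype.property _
  · intro hq
    have h1 := P.bt_card c h
    have h2 : (P.bt c).card = collen P.lam P.L c - R := by
      unfold collen
      omega
    refine ⟨(P.bt c).equivFinOfCardEq h2 ⟨q, hq⟩, ?_⟩
    unfold bot
    rw [dif_pos h, Equiv.symm_apply_apply]

/-- The design. -/
noncomputable def design : Design n R N P.Tp (Fin R × J) (Fin P.L) where
  cls t := t.1
  cls_lt t := t.1.2
  len c := collen P.lam P.L c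
  len_le c := collen_le _ _ _
  srv c i := if h : i < R then P.sv c ⟨i, h⟩ else P.sv c ⟨0, P.hR0⟩
  fx c := P.fx c
  fx_len c h := P.le_len h
  bot := P.bot
  bot_inj := P.bot_inj
  serve := by
    intro c i _ hi
    rw [dif_pos hi]
    cases h : P.mr c i with
    | none =>
      left
      exact ⟨⟨⟨i, hi⟩, P.pi ⟨i, hi⟩ c⟩, P.sv_inl.2 ⟨rfl, h, rfl⟩, rfl⟩
    | some q =>
      right
      have hfx := P.mk_fx _ _ _ h
      refine ⟨hfx, q, P.sv_inr.2 h, ?_, ?_⟩
      · intro j hj
        exact P.mk_bt _ _ _ h ((P.exists_bot c hfx q).1 ⟨j, hj⟩)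
      · intro i' hi' h'
        rw [dif_pos hi', P.sv_inr] at h'
        exact P.mk_inj _ _ _ _ h' h

theorem design_fx (c : Fin P.L) : P.design.fx c ↔ P.fx c := Iff.rfl

theorem design_len (c : Fin P.L) : P.design.len c = collen P.lam P.L c := rfl

theorem srv_inr {c : Fin P.L} {i : ℕ} (hi : i < R) {q : (Fin R × J) ⊕ Fin N} :
    P.design.srv c i = Sum.inr q ↔ P.mr c i = some q := by
  change (if h : i < R then P.sv c ⟨i, h⟩ else P.sv c ⟨0, P.hR0⟩) = _ ↔ _
  rw [dif_pos hi, P.sv_inr]

theorem srv_inl {c : Fin P.L} {i : ℕ} (hi : i < R) {r : Fin R} {g : Fin (P.w r)} :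
    P.design.srv c i = Sum.inl ⟨r, g⟩ ↔ i = r ∧ P.mr c r = none ∧ P.pi r c = g := by
  change (if h : i < R then P.sv c ⟨i, h⟩ else P.sv c ⟨0, P.hR0⟩) = _ ↔ _
  rw [dif_pos hi, P.sv_inl]
  constructor
  · rintro ⟨h1, h2⟩
    exact ⟨congrArg Fin.val h1, h2⟩
  · rintro ⟨h1, h2⟩
    exact ⟨Fin.ext h1, h2⟩

theorem lt_len (c : Fin P.L) (r : Fin R) :
    (r : ℕ) < collen P.lam P.L c ↔ (c : ℕ) < P.lam (Fin.castLE P.hRn r) :=
  lt_collen P.anti (Fin.castLE P.hRn r) c

theorem lt_len_of_mk {c : Fin P.L} {i i' : ℕ} {q : (Fin R × J) ⊕ Fin N} (h : P.mr c i = some q)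
    (hi : i' < R) : i' < collen P.lam P.L c :=
  lt_of_lt_of_le hi (P.le_len (P.mk_fx _ _ _ h))

/-- a pure letter is known exactly in the columns which it serves. -/
theorem known_inl {c : Fin P.L} {r : Fin R} {g : Fin (P.w r)} :
    P.design.known c (Sum.inl ⟨r, g⟩) ↔
      (c : ℕ) < P.lam (Fin.castLE P.hRn r) ∧ P.mr c r = none ∧ P.pi r c = g := by
  unfold Design.known
  constructor
  · rintro (⟨i, hi, hiR, h⟩ | ⟨-, j, h⟩)
    · rw [P.srv_inl hiR] at h
      obtain ⟨rfl, h2⟩ := h
      exact ⟨(P.lt_len c r).1 hi, h2⟩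
    · exact absurd h (by simp)
  · rintro ⟨h1, h2⟩
    left
    exact ⟨r, (P.lt_len c r).2 h1, r.2, (P.srv_inl r.2).2 ⟨rfl, h2⟩⟩

/-- the columns in which a point is known. -/
theorem known_inr {c : Fin P.L} {q : (Fin R × J) ⊕ Fin N} :
    P.design.known c (Sum.inr q) ↔ (∃ i < R, P.mr c i = some q) ∨ (P.fx c ∧ q ∈ P.bt c) := by
  unfold Design.known
  constructor
  · rintro (⟨i, hi, hiR, h⟩ | ⟨hf, j, h⟩)
    · left
      exact ⟨i, hiR, (P.srv_inr hiR).1 h⟩
    · right
      exact ⟨hf, (P.exists_bot c hf q).1 ⟨j, Sum.inr_injective h⟩⟩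
  · rintro (⟨i, hi, h⟩ | ⟨hf, h⟩)
    · left
      exact ⟨i, P.lt_len_of_mk h hi, hi, (P.srv_inr hi).2 h⟩
    · right
      obtain ⟨j, hj⟩ := (P.exists_bot c hf q).2 h
      exact ⟨hf, j, congrArg Sum.inr hj⟩

theorem miss_iff {c : Fin P.L} {i : ℕ} :
    P.design.miss c i ↔ i < R ∧ ∃ q, P.mr c i = some q := by
  unfold Design.miss
  constructor
  · rintro ⟨h1, -, q, h2⟩
    exact ⟨h1, q, (P.srv_inr h1).1 h2⟩
  · rintro ⟨h1, q, h2⟩
    exact ⟨h1, P.lt_len_of_mk h2 h1, q, (P.srv_inr h1).2 h2⟩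

theorem card_fin_filter (p : ℕ → Prop) [DecidablePred p] :
    (univ.filter fun c : Fin P.L => p c).card = ((range P.L).filter p).card := by
  rw [card_filter, card_filter, sum_range]

theorem card_fin_filter' (p : ℕ → Prop) [DecidablePred p] {M : ℕ} (hM : M ≤ P.L) :
    (univ.filter fun c : Fin P.L => (c : ℕ) < M ∧ p c).card = ((range M).filter p).card := by
  rw [P.card_fin_filter (fun c => c < M ∧ p c)]
  congr 1
  ext c
  rw [mem_filter, mem_filter, mem_range, mem_range]
  constructor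
  · rintro ⟨-, h2, h3⟩
    exact ⟨h2, h3⟩
  · rintro ⟨h2, h3⟩
    exact ⟨by omega, h2, h3⟩

theorem mark_eq (q : (Fin R × J) ⊕ Fin N) {i : ℕ} (hi : i < R) :
    P.design.mark q i = ((range P.L).filter (fun c => P.mr c i = some q)).card := by
  unfold Design.mark
  rw [← P.card_fin_filter]
  apply card_filter_iff
  intro c
  constructor
  · rintro ⟨-, -, h⟩
    exact (P.srv_inr hi).1 h
  · intro h
    exact ⟨hi, P.lt_len_of_mk h hi, (P.srv_inr hi).2 h⟩

theorem cap_eq (p : (Fin R × J) ⊕ Fin N) {i : ℕ} (hi : i < R) :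
    P.design.cap p i = ((range P.L).filter (fun c => (∃ q, P.mr c i = some q) ∧
      ((∃ i' < R, P.mr c i' = some p) ∨ p ∈ P.bt c))).card := by
  unfold Design.cap
  rw [← P.card_fin_filter]
  apply card_filter_iff
  intro c
  rw [P.miss_iff, P.known_inr]
  constructor
  · rintro ⟨⟨-, q, h1⟩, h2⟩
    refine ⟨⟨q, h1⟩, ?_⟩
    rcases h2 with h2 | h2
    · exact Or.inl h2
    · exact Or.inr h2.2
  · rintro ⟨⟨q, h1⟩, h2⟩
    refine ⟨⟨hi, q, h1⟩, ?_⟩
    rcases h2 with h2 | h2
    · exact Or.inl h2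
    · exact Or.inr ⟨P.mk_fx _ _ _ h1, h2⟩

theorem uniq_iff : P.design.Uniq ↔ ∀ (c i : ℕ) (q : (Fin R × J) ⊕ Fin N), c < P.L → i < R →
    (∃ q', P.mr c i = some q') → ((∃ i' < R, P.mr c i' = some q) ∨ q ∈ P.bt c) →
    (∃ c', c' < P.L ∧ P.mr c' i = some q) → P.mr c i = some q := by
  constructor
  · intro h c i q hc hi hm hk hq
    have h1 := h ⟨c, hc⟩ i (P.miss_iff.2 ⟨hi, hm⟩) q (P.known_inr.2 (by
      rcases hk with hk | hk
      · exact Or.inl hk
      · obtain ⟨q', hq'⟩ := hm
        exact Or.inr ⟨P.mk_fx _ _ _ hq', hk⟩)) (by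
      rw [P.mark_eq q hi, card_pos]
      obtain ⟨c', hc', hq'⟩ := hq
      exact ⟨c', mem_filter.2 ⟨mem_range.2 hc', hq'⟩⟩)
    exact (P.srv_inr hi).1 h1
  · intro h c i hm q hk hq
    obtain ⟨hi, hm⟩ := P.miss_iff.1 hm
    rw [P.mark_eq q hi, card_pos] at hq
    obtain ⟨c', hc'⟩ := hq
    rw [mem_filter, mem_range] at hc'
    rw [P.srv_inr hi]
    refine h c i q c.2 hi hm ?_ ⟨c', hc'.1, hc'.2⟩
    rcases P.known_inr.1 hk with h1 | h1
    · exact Or.inl h1
    · exact Or.inr h1.2

theorem inc_inl (t : P.Tp) : P.design.inc (Sum.inl t) = k := by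
  obtain ⟨r, g⟩ := t
  refine (P.design.inc_inl _).trans ?_
  rw [sum_eq_single (r : ℕ)]
  · refine Eq.trans ?_ (P.card_pi r g)
    rw [← P.card_fin_filter' _ (P.hL (Fin.castLE P.hRn r))]
    apply card_filter_iff
    intro c
    rw [P.srv_inl r.2, P.design_len, P.lt_len]
    simp
  · intro i hi hne
    rw [mem_range] at hi
    apply card_filter_eq_zero
    rintro c ⟨-, h⟩
    rw [P.srv_inl hi] at h
    exact hne h.1
  · intro h
    exact absurd (mem_range.2 r.2) h

theorem inc_inr (q : (Fin R × J) ⊕ Fin N) : P.design.inc (Sum.inr q) =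
    (∑ i ∈ range R, ((range P.L).filter (fun c => P.mr c i = some q)).card) +
    ((range P.L).filter (fun c => P.fx c ∧ q ∈ P.bt c)).card := by
  refine (P.design.inc_inr _).trans ?_
  congr 1
  · apply sum_congr rfl
    intro i hi
    rw [mem_range] at hi
    rw [← P.card_fin_filter]
    apply card_filter_iff
    intro c
    constructor
    · rintro ⟨-, h⟩
      exact (P.srv_inr hi).1 h
    · intro h
      exact ⟨P.lt_len_of_mk h hi, (P.srv_inr hi).2 h⟩
  · rw [← P.card_fin_filter]
    apply card_filter_iff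
    intro c
    constructor
    · rintro ⟨hf, h⟩
      exact ⟨hf, (P.exists_bot c hf q).1 h⟩
    · rintro ⟨hf, h⟩
      exact ⟨hf, (P.exists_bot c hf q).2 h⟩

/-- The lower part of the columns which are not fixed. -/
noncomputable def eta (i : Fin (n - R)) : ℕ :=
  (univ.filter fun c : Fin P.L => ¬ P.fx c ∧ R + (i : ℕ) < collen P.lam P.L c).card

/-- **[LP]** the design of a plan. -/
theorem designFor {cells : ℕ} (hT : P.design.Types) (hR : P.design.Rigid) (hU : P.design.Uniq)
    (hcells : ∑ c ∈ (range P.L).filter P.fx, (P.bt c).card ≤ cells) :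
    DesignFor k b n R N cells P.lam P.eta := by
  refine ⟨P.Tp, Fin R × J, Fin P.L, inferInstance, inferInstance, inferInstance, P.design, P.d,
    hT, hR, hU, ?_, ?_, ?_, ?_, P.inc_inl, ?_, ?_, P.d_bal⟩
  · rw [Fintype.card_sigma]
    simp only [Fintype.card_fin]
    exact P.card_b
  · intro i
    have h1 := congrFun (rows_collen P.anti P.hL) i
    exact h1
  · intro i
    rfl
  · refine le_trans (le_of_eq ?_) hcells
    rw [sum_filter, sum_filter, sum_range]
    apply sum_congr rfl
    intro c _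
    by_cases hf : P.fx c
    · rw [if_pos ((P.design_fx c).2 hf), if_pos hf, P.design_len]
      have h1 := P.bt_card c hf
      unfold collen
      omega
    · rw [if_neg (fun h => hf ((P.design_fx c).1 h)), if_neg hf]
  · intro s
    rw [P.inc_inr]
    exact P.deg_S s
  · intro q
    rw [P.inc_inr]
    exact P.deg_N q

end Plan

end Vale.Agent.P181.T6
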