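import Vale.Agent.P181.H503.TypeAll
import Vale.Agent.P181.Z.H310.EndL

set_option autoImplicit false

/-!
# P181: many cells in boundedly many rows, `b ≥ a (log a) ^ C`
-/

open Finset Filter

namespace Vale.Agent.P181.H411.PR

open Vale.Agent.P181 Vale.Agent.P181.H280
open Vale.Agent.P181.T4 (ex ex_of_lt ex_anti)
open Vale.Agent.P181.T7 (below)

lemma ex_of_ge {k : ℕ} (mu : Fin k → ℕ) {i : ℕ} (h : k ≤ i) : ex mu i = 0 := by
  rw [ex, dif_neg (by omega)]

/-- the product over the range -/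
lemma prod_ex_min {m : ℕ} (lam : Fin m → ℕ) (A : ℝ) (M : ℕ) (hM : m ≤ M) :
    ∏ i : Fin m, (if 1 ≤ (i : ℕ) then max 1 (min ((lam i : ℝ) / A) A) else 1) =
      ∏ i ∈ Ico 1 M, max 1 (min ((ex lam i : ℝ) / A) A) := by
  have h1 : ∏ i : Fin m, (if 1 ≤ (i : ℕ) then max 1 (min ((lam i : ℝ) / A) A) else 1) =
      ∏ i ∈ range m, (if 1 ≤ i then max 1 (min ((ex lam i : ℝ) / A) A) else 1) := by
    rw [Finset.prod_range]
    apply Finset.prod_congr rfl
    intro i _
    rw [ex_of_lt lam i.2]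
  have h2 : ∏ i ∈ range m, (if 1 ≤ i then max 1 (min ((ex lam i : ℝ) / A) A) else 1) =
      ∏ i ∈ range M, (if 1 ≤ i then max 1 (min ((ex lam i : ℝ) / A) A) else 1) := by
    apply Finset.prod_subset
    · intro i hi
      rw [Finset.mem_range] at hi ⊢
      omega
    · intro i _ hi
      rw [Finset.mem_range, not_lt] at hi
      rw [ex_of_ge lam hi]
      have : min (((0 : ℕ) : ℝ) / A) A ≤ 1 := by
        refine (min_le_left _ _).trans ?_
        simp
      rw [max_eq_left this]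
      simp
  rw [h1, h2, ← Finset.prod_filter]
  apply Finset.prod_congr _ (fun _ _ => rfl)
  ext i
  simp only [Finset.mem_filter, Finset.mem_range, Finset.mem_Ico]
  tauto

/-- the last heavy row -/
lemma heavy {k n T M : ℕ} {A X : ℝ} {f : ℕ → ℕ} (hf : Antitone f) (hk0 : ∀ i, k ≤ i → f i = 0)
    (hkn : k ≤ n) (hkT : k ≤ T) (hA : 1 ≤ A) (hX : 1 ≤ X) (h1A : 1 < A)
    (hprod : A * X ^ (M * (n + 1)) ≤ ∏ i ∈ Ico 1 T, max 1 (min ((f i : ℝ) / A) A)) :
    ∃ m, 2 ≤ m ∧ m ≤ k ∧ A * X ^ M ≤ f (m - 1) ∧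
      A ^ m * X ^ M ≤ ∏ i ∈ Ico 1 m, min (f i : ℝ) (A ^ 2) := by
  classical
  have hA0 : 0 < A := by linarith
  have hX0 : 0 < X := by linarith
  have hXM : 1 ≤ X ^ M := one_le_pow₀ hX
  have hH : 0 < A * X ^ M := by positivity
  have hex : ∃ i, (f i : ℝ) < A * X ^ M := ⟨k, by rw [hk0 k le_rfl]; simpa using hH⟩
  obtain ⟨m, hm⟩ : ∃ m, m = Nat.find hex := ⟨_, rfl⟩
  have h0 : (f m : ℝ) < A * X ^ M := by rw [hm]; exact Nat.find_spec hex
  have hmk : m ≤ k := by
    rw [hm]
    exact Nat.find_min' hex (by rw [hk0 k le_rfl]; simpa using hH)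
  have hlt : ∀ i, i < m → A * X ^ M ≤ f i := by
    intro i hi
    rw [hm] at hi
    exact not_lt.1 (Nat.find_min hex hi)
  clear hm
  -- light factors
  have hlight : ∀ i, m ≤ i → max 1 (min ((f i : ℝ) / A) A) ≤ if i < k then X ^ M else 1 := by
    intro i hi
    split_ifs with hik
    · refine max_le hXM ((min_le_left _ _).trans ?_)
      rw [div_le_iff₀ hA0, mul_comm]
      have h1 : (f i : ℝ) ≤ f m := by exact_mod_cast hf hi
      exact h1.trans h0.le
    · rw [hk0 i (by omega)]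
      refine max_le le_rfl ((min_le_left _ _).trans ?_)
      simp
  have hlp : ∀ p, m ≤ p → ∏ i ∈ Ico p T, max 1 (min ((f i : ℝ) / A) A) ≤ X ^ (M * (k - p)) := by
    intro p hp
    calc ∏ i ∈ Ico p T, max 1 (min ((f i : ℝ) / A) A)
        ≤ ∏ i ∈ Ico p T, (if i < k then X ^ M else 1) := by
          refine Finset.prod_le_prod (fun i _ => le_trans zero_le_one (le_max_left _ _)) ?_
          intro i hi
          rw [Finset.mem_Ico] at hi
          exact hlight i (hp.trans hi.1)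
      _ = (X ^ M) ^ ((Ico p T).filter (fun i => i < k)).card := by
          rw [Finset.prod_ite, Finset.prod_const, Finset.prod_const, one_pow, mul_one]
      _ = (X ^ M) ^ (k - p) := by
          congr 1
          have : (Ico p T).filter (fun i => i < k) = Ico p k := by
            ext i
            simp only [Finset.mem_filter, Finset.mem_Ico]
            omega
          rw [this, Nat.card_Ico]
      _ = X ^ (M * (k - p)) := by rw [← pow_mul]
  have hm2 : 2 ≤ m := by
    by_contra hcon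
    have h1 := hprod.trans (hlp 1 (by omega))
    have h2 : X ^ (M * (k - 1)) ≤ X ^ (M * (n + 1)) :=
      pow_le_pow_right₀ hX (Nat.mul_le_mul_left _ (by omega))
    have h3 : 0 < X ^ (M * (n + 1)) := by positivity
    nlinarith
  refine ⟨m, hm2, hmk, hlt (m - 1) (by omega), ?_⟩
  have hsplit : ∏ i ∈ Ico 1 T, max 1 (min ((f i : ℝ) / A) A) =
      (∏ i ∈ Ico 1 m, max 1 (min ((f i : ℝ) / A) A)) *
        ∏ i ∈ Ico m T, max 1 (min ((f i : ℝ) / A) A) :=
    (Finset.prod_Ico_consecutive _ (by omega) (by omega)).symm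
  have hheavy : ∏ i ∈ Ico 1 m, max 1 (min ((f i : ℝ) / A) A) =
      (∏ i ∈ Ico 1 m, min (f i : ℝ) (A ^ 2)) / A ^ (m - 1) := by
    rw [eq_div_iff (by positivity)]
    have h1 : A ^ (m - 1) = ∏ _i ∈ Ico 1 m, A := by
      rw [Finset.prod_const, Nat.card_Ico]
    rw [h1, ← Finset.prod_mul_distrib]
    apply Finset.prod_congr rfl
    intro i hi
    rw [Finset.mem_Ico] at hi
    have h2 := hlt i hi.2
    have h3 : A * 1 ≤ A * X ^ M := by gcongr
    have h4 : 1 ≤ (f i : ℝ) / A := by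
      rw [le_div_iff₀ hA0]
      linarith
    rw [max_eq_right (le_min h4 hA), min_mul_of_nonneg _ _ hA0.le]
    congr 1
    · field_simp
    · ring
  rw [hsplit, hheavy] at hprod
  obtain ⟨P, hP⟩ : ∃ P, P = ∏ i ∈ Ico 1 m, min (f i : ℝ) (A ^ 2) := ⟨_, rfl⟩
  rw [← hP] at hprod ⊢
  have hP0 : 0 ≤ P := by
    rw [hP]
    exact Finset.prod_nonneg fun i _ => le_min (Nat.cast_nonneg _) (by positivity)
  have h5 : A * X ^ (M * (n + 1)) ≤ P / A ^ (m - 1) * X ^ (M * (k - m)) :=
    hprod.trans (mul_le_mul_of_nonneg_left (hlp m le_rfl) (by positivity))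
  have h6 : X ^ (M * (k - m)) * X ^ M ≤ X ^ (M * (n + 1)) := by
    rw [← pow_add]
    apply pow_le_pow_right₀ hX
    have : M * (k - m) + M = M * (k - m + 1) := by ring
    rw [this]
    exact Nat.mul_le_mul_left _ (by omega)
  have h7 : (A * X ^ M) * X ^ (M * (k - m)) ≤ P / A ^ (m - 1) * X ^ (M * (k - m)) := by
    refine le_trans ?_ h5
    calc (A * X ^ M) * X ^ (M * (k - m)) = A * (X ^ (M * (k - m)) * X ^ M) := by ring
      _ ≤ A * X ^ (M * (n + 1)) := by gcongr
  have h8 : A * X ^ M ≤ P / A ^ (m - 1) := le_of_mul_le_mul_right h7 (by positivity)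
  rw [le_div_iff₀ (by positivity)] at h8
  refine le_trans (le_of_eq ?_) h8
  have h9 : A ^ m = A ^ (m - 1) * A := by
    rw [← pow_succ]
    congr 1
    omega
  rw [h9]
  ring

/-- **Many cells in at most `n` rows.** -/
theorem prod_rows (n : ℕ) : ∃ K : ℝ, ∀ C : ℝ, K ≤ C → ∀ a b : ℕ, C ≤ a →
    (a : ℝ) * Real.log a ^ C ≤ b → ∀ (m : ℕ) (lam : Fin m → ℕ),
      (univ.filter fun i => lam i ≠ 0).card ≤ n →
      (a : ℝ) * Real.log a ^ C ≤
        ∏ i : Fin m, (if 1 ≤ (i : ℕ) then max 1 (min ((lam i : ℝ) / a) a) else 1) →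
      plethMult a b m lam ≤ plethMult b a m lam := by
  obtain ⟨M, hM⟩ : ∃ M : ℕ, M = 8 * (n + 2) + 20 := ⟨_, rfl⟩
  have hM0 : 1 ≤ M := by omega
  -- the size of `a`
  have hev : ∀ᶠ a : ℕ in atTop, (1000 : ℝ) ≤ Real.log a ∧ (n : ℝ) + 2 ≤ Real.log a ∧
      (Real.log a ^ 2) ^ M ≤ a := by
    have h1 : Tendsto (fun a : ℕ => Real.log a) atTop atTop :=
      Real.tendsto_log_atTop.comp tendsto_natCast_atTop_atTop
    have h2 : (fun x : ℝ => Real.log x ^ (2 * M)) =o[atTop] (id : ℝ → ℝ) :=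
      Real.isLittleO_pow_log_id_atTop
    have h3 := tendsto_natCast_atTop_atTop (R := ℝ) |>.eventually
      (h2.bound (show (0 : ℝ) < 1 by norm_num))
    filter_upwards [h1.eventually_ge_atTop 1000, h1.eventually_ge_atTop ((n : ℝ) + 2), h3]
      with a e1 e2 e3
    refine ⟨e1, e2, ?_⟩
    simp only [id] at e3
    rw [Real.norm_of_nonneg (by positivity), Real.norm_of_nonneg (Nat.cast_nonneg a)] at e3
    rw [← pow_mul]
    linarith
  obtain ⟨a0, ha0⟩ := Filter.eventually_atTop.1 hev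
  refine ⟨max (((a0 + n + 23 : ℕ)) : ℝ) ((2 * (M * (n + 3)) : ℕ) : ℝ), ?_⟩
  intro C hC a b hCa hb m lam hcard hprod
  have ha1 : a0 + n + 23 ≤ a := by
    have h1 := ((le_max_left _ _).trans hC).trans hCa
    exact_mod_cast h1
  obtain ⟨hL, hLn, hXA⟩ := ha0 a (by omega)
  obtain ⟨L, hLdef⟩ : ∃ L, L = Real.log a := ⟨_, rfl⟩
  rw [← hLdef] at hL hLn hXA hb hprod
  have hL1 : 1 ≤ L := by linarith
  have hCM : L ^ (2 * (M * (n + 3))) ≤ L ^ C := by
    rw [← Real.rpow_natCast]
    exact Real.rpow_le_rpow_of_exponent_le hL1 ((le_max_right _ _).trans hC)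
  obtain ⟨X, hXdef⟩ : ∃ X, X = L ^ 2 := ⟨_, rfl⟩
  have hXM : X ^ (M * (n + 3)) ≤ L ^ C := by
    rw [hXdef, ← pow_mul]
    exact hCM
  rw [← hXdef] at hXA
  have hX6 : 1000000 ≤ X := by rw [hXdef]; nlinarith
  have hX1 : 1 ≤ X := by linarith
  have haR : (1 : ℝ) < a := by
    have : 1 < a := by omega
    exact_mod_cast this
  have ha0' : (0 : ℝ) < a := by linarith
  by_cases hbig : (a - 1) ^ 2 ≤ b
  · exact H463.big_stmt _ _ _ lam hbig
  have hb2 : b ≤ a ^ 2 := by
    push Not at hbig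
    have : (a - 1) ^ 2 ≤ a ^ 2 := Nat.pow_le_pow_left (by omega) 2
    omega
  have hbX : (a : ℝ) * X ^ M ≤ b := by
    refine le_trans ?_ hb
    refine mul_le_mul_of_nonneg_left (le_trans ?_ hXM) ha0'.le
    exact pow_le_pow_right₀ hX1 (Nat.le_mul_of_pos_right _ (by omega))
  -- reduction to positive rows
  refine Z.H310.reduce (a := a) (b := b) (n := n)
    (fun f => (a : ℝ) * L ^ C ≤ ∏ i ∈ Ico 1 (m + n + 1), max 1 (min ((f i : ℝ) / a) a)) ?_ m lam
    hcard ?_
  swap
  · show _ ≤ _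
    rw [← prod_ex_min lam (a : ℝ) (m + n + 1) (by omega)]
    exact hprod
  intro k hkn mu hanti hpos hsum hQ
  have hQ' : (a : ℝ) * X ^ (M * (n + 1)) ≤
      ∏ i ∈ Ico 1 (m + n + 1), max 1 (min ((ex mu i : ℝ) / a) a) := by
    refine le_trans ?_ hQ
    refine mul_le_mul_of_nonneg_left (le_trans ?_ hXM) ha0'.le
    exact pow_le_pow_right₀ hX1 (Nat.mul_le_mul_left _ (by omega))
  have hea : Antitone (ex mu) := fun i j hij => ex_anti hanti hij
  obtain ⟨r, hr2, hrk, hrow, hpr⟩ := heavy hea (fun i hi => ex_of_ge mu hi) hkn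
    (show k ≤ m + n + 1 by omega) haR.le hX1 haR hQ'
  -- padding
  obtain ⟨l, hl⟩ : ∃ l, a = k + l := Nat.exists_eq_add_of_le (by omega)
  have key : ∀ (A : ℕ), A = a → ∀ mu' : Fin A → ℕ, (∀ i, mu' i = ex mu i) →
      plethMult a b A mu' ≤ plethMult b a A mu' := by
    intro A hA mu' hmu'
    subst hA
    have hex' : ∀ i, ex mu' i = ex mu i := by
      intro i
      by_cases hi : i < A
      · rw [ex_of_lt mu' hi, hmu']
      · rw [ex_of_ge mu' (by omega), ex_of_ge mu (by omega)]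
    have hbelow : below (n + 2) mu' = 0 := by
      unfold below
      apply Finset.sum_eq_zero
      intro i hi
      rw [Finset.mem_Ico] at hi
      rw [hex', ex_of_ge mu (by omega)]
    refine H503.type_real H503.caseC_nat H503.caseR_nat (R := n + 2) (m := r) (M := M) (X := X)
      (by omega) hr2 (by omega) hX6 hXA ?_ hb2 hbX ?_ ?_ (by omega) ?_ ?_ ?_ ?_
    · rw [← hLdef, hXdef]
      nlinarith
    · intro i j hij
      rw [hmu', hmu']
      exact hea hij
    · rw [← hsum]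
      have h1 : ∑ i, mu' i = ∑ i ∈ range A, ex mu i := by
        rw [Finset.sum_range]
        exact Finset.sum_congr rfl fun i _ => hmu' i
      have h2 : ∑ i, mu i = ∑ i ∈ range k, ex mu i := by
        rw [Finset.sum_range]
        exact Finset.sum_congr rfl fun i _ => (ex_of_lt mu i.2).symm
      rw [h1, h2]
      refine (Finset.sum_subset (fun i hi => ?_) fun i _ hi => ?_).symm
      · rw [Finset.mem_range] at hi ⊢
        omega
      · rw [Finset.mem_range, not_lt] at hi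
        exact ex_of_ge mu hi
    · rw [hXdef]
      push_cast
      nlinarith
    · rw [hbelow, hex']
      simp
    · rw [hex']
      exact hrow
    · refine hpr.trans (le_of_eq ?_)
      apply Finset.prod_congr rfl
      intro i _
      rw [hex']
  have h1 := key (k + l) hl.symm
    (fun i : Fin (k + l) => if h : (i : ℕ) < k then mu ⟨i, h⟩ else 0) (fun i => rfl)
  rw [H530.pad_stmt a b k l mu, H530.pad_stmt b a k l mu] at h1
  exact h1

end Vale.Agent.P181.H411.PR
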