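import Mathlib

set_option autoImplicit false

/-!
# Round robin

A set of columns is distributed over `w` positions, `a` columns to each position.
-/

namespace Vale.Agent.P181.H411

/-- Every finite set is in bijection with an interval starting at `x`. -/
lemma exists_enum (A : Finset ℕ) (x : ℕ) : ∃ f : ℕ → ℕ, Set.InjOn f A ∧
    A.image f = Finset.Ico x (x + A.card) := by
  classical
  let e := A.equivFin
  refine ⟨fun c => if h : c ∈ A then x + e ⟨c, h⟩ else 0, ?_, ?_⟩
  · intro c hc d hd h
    have hc' : c ∈ A := hc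
    have hd' : d ∈ A := hd
    simp only [hc', hd', dif_pos] at h
    have h1 : e ⟨c, hc'⟩ = e ⟨d, hd'⟩ := Fin.ext (by omega)
    exact congrArg Subtype.val (e.injective h1)
  · ext i
    rw [Finset.mem_image, Finset.mem_Ico]
    constructor
    · rintro ⟨c, hc, rfl⟩
      rw [dif_pos hc]
      have := (e ⟨c, hc⟩).2
      omega
    · rintro ⟨h1, h2⟩
      have h3 : i - x < A.card := by omega
      refine ⟨(e.symm ⟨i - x, h3⟩ : A), (e.symm ⟨i - x, h3⟩ : A).2, ?_⟩
      rw [dif_pos (e.symm ⟨i - x, h3⟩ : A).2]
      simp only [Subtype.coe_eta, Equiv.apply_symm_apply]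
      omega

lemma card_filter_of_enum {A : Finset ℕ} {f : ℕ → ℕ} (hf : Set.InjOn f A) {I : Finset ℕ}
    (hI : A.image f = I) (w j : ℕ) :
    (A.filter (fun c => f c % w = j)).card = (I.filter (fun i => i % w = j)).card := by
  classical
  rw [← hI, Finset.filter_image, Finset.card_image_of_injOn]
  exact hf.mono (by
    intro c hc
    exact (Finset.mem_filter.1 hc).1)

lemma image_mod_of_enum {A : Finset ℕ} {f : ℕ → ℕ} {x n : ℕ}
    (hI : A.image f = Finset.Ico x (x + n)) {w : ℕ} (hw : 3 ≤ w) :
    min 3 n ≤ (A.image (fun c => f c % w)).card := by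
  classical
  have h1 : A.image (fun c => f c % w) = (Finset.Ico x (x + n)).image (fun i => i % w) := by
    rw [← hI, Finset.image_image]
    rfl
  rw [h1]
  have h2 : (Finset.Ico x (x + min 3 n)).image (fun i => i % w) ⊆
      (Finset.Ico x (x + n)).image (fun i => i % w) := by
    apply Finset.image_subset_image
    apply Finset.Ico_subset_Ico_right
    omega
  refine le_trans ?_ (Finset.card_le_card h2)
  rw [Finset.card_image_of_injOn]
  · rw [Nat.card_Ico]
    omega
  · intro i hi j hj hij
    rw [Finset.coe_Ico, Set.mem_Ico] at hi hj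
    have h3 : i % w = j % w := hij
    have hi' := Nat.div_add_mod i w
    have hj' := Nat.div_add_mod j w
    rcases lt_trichotomy (i / w) (j / w) with h | h | h
    · exfalso
      have : w * (i / w) + w ≤ w * (j / w) := by
        rw [← Nat.mul_succ]
        exact Nat.mul_le_mul_left _ h
      omega
    · rw [h] at hi'
      omega
    · exfalso
      have : w * (j / w) + w ≤ w * (i / w) := by
        rw [← Nat.mul_succ]
        exact Nat.mul_le_mul_left _ h
      omega

lemma card_range_mod (n w j : ℕ) (hw : 0 < w) (hj : j < w) :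
    ((Finset.Ico 0 (0 + n)).filter (fun i => i % w = j)).card =
      n / w + if j < n % w then 1 else 0 := by
  have h := Nat.count_modEq_card n hw j
  rw [Nat.count_eq_card_filter_range] at h
  rw [Nat.mod_eq_of_lt hj] at h
  rw [← h, zero_add, ← Finset.range_eq_Ico]
  congr 1
  apply Finset.filter_congr
  intro i _
  rw [Nat.ModEq, Nat.mod_eq_of_lt hj]

/-- **(RR)** Round robin. -/
theorem rr (P E S0 S1 : Finset ℕ) (a w k : ℕ) (hP : P.card = a * w) (hE : E ⊆ P) (h0 : S0 ⊆ P)
    (h1 : S1 ⊆ P) (hE0 : Disjoint E S0) (hE1 : Disjoint E S1) (h01 : Disjoint S0 S1)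
    (hw : 3 ≤ w) (_hk : k + 2 ≤ a) (hEc : w * k ≤ E.card) :
    ∃ g : ℕ → ℕ, (∀ c, g c < w) ∧ (∀ j < w, (P.filter (fun c => g c = j)).card = a) ∧
      (∀ j < w, k ≤ (E.filter (fun c => g c = j)).card) ∧
      min 3 S0.card ≤ (S0.image g).card ∧ min 3 S1.card ≤ (S1.image g).card := by
  classical
  obtain ⟨fE, hfE, hfE'⟩ := exists_enum E 0
  obtain ⟨f0, hf0, hf0'⟩ := exists_enum S0 E.card
  obtain ⟨f1, hf1, hf1'⟩ := exists_enum S1 (E.card + S0.card)
  set U : Finset ℕ := E ∪ S0 ∪ S1 with hU
  have hUc : U.card = E.card + S0.card + S1.card := by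
    rw [hU, Finset.card_union_of_disjoint, Finset.card_union_of_disjoint hE0]
    rw [Finset.disjoint_union_left]
    exact ⟨hE1, h01⟩
  have hUP : U ⊆ P := Finset.union_subset (Finset.union_subset hE h0) h1
  obtain ⟨fR, hfR, hfR'⟩ := exists_enum (P \ U) (E.card + S0.card + S1.card)
  let f : ℕ → ℕ := fun c => if c ∈ E then fE c else if c ∈ S0 then f0 c else
    if c ∈ S1 then f1 c else fR c
  have eE : ∀ c ∈ E, f c = fE c := fun c hc => if_pos hc
  have e0 : ∀ c ∈ S0, f c = f0 c := by
    intro c hc
    have : c ∉ E := fun h => (Finset.disjoint_left.1 hE0) h hc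
    simp only [f, this, if_false, hc, if_true]
  have e1 : ∀ c ∈ S1, f c = f1 c := by
    intro c hc
    have h2 : c ∉ E := fun h => (Finset.disjoint_left.1 hE1) h hc
    have h3 : c ∉ S0 := fun h => (Finset.disjoint_left.1 h01) h hc
    simp only [f, h2, h3, if_false, hc, if_true]
  have eR : ∀ c ∈ P \ U, f c = fR c := by
    intro c hc
    have h4 := (Finset.mem_sdiff.1 hc).2
    rw [hU, Finset.mem_union, Finset.mem_union, not_or, not_or] at h4
    simp only [f, h4.1.1, h4.1.2, h4.2, if_false]
  have iE : E.image f = Finset.Ico 0 (0 + E.card) := by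
    rw [← hfE']
    exact Finset.image_congr (fun c hc => eE c hc)
  have i0 : S0.image f = Finset.Ico E.card (E.card + S0.card) := by
    rw [← hf0']
    exact Finset.image_congr (fun c hc => e0 c hc)
  have i1 : S1.image f = Finset.Ico (E.card + S0.card) (E.card + S0.card + S1.card) := by
    rw [← hf1']
    exact Finset.image_congr (fun c hc => e1 c hc)
  have iR : (P \ U).image f = Finset.Ico (E.card + S0.card + S1.card)
      (E.card + S0.card + S1.card + (P \ U).card) := by
    rw [← hfR']
    exact Finset.image_congr (fun c hc => eR c hc)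
  have hRc : E.card + S0.card + S1.card + (P \ U).card = P.card := by
    rw [← hUc, add_comm]
    exact Finset.card_sdiff_add_card_eq_card hUP
  have hPU : P = E ∪ S0 ∪ S1 ∪ (P \ U) := by
    rw [← hU]
    exact (Finset.union_sdiff_of_subset hUP).symm
  have iP : P.image f = Finset.Ico 0 (0 + P.card) := by
    conv_lhs => rw [hPU]
    rw [Finset.image_union, Finset.image_union, Finset.image_union, iE, i0, i1, iR, hRc,
      zero_add, zero_add, Finset.Ico_union_Ico_eq_Ico (Nat.zero_le _) (Nat.le_add_right _ _),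
      Finset.Ico_union_Ico_eq_Ico (Nat.zero_le _) (Nat.le_add_right _ _),
      Finset.Ico_union_Ico_eq_Ico (Nat.zero_le _) (by omega)]
  have injP : Set.InjOn f P := by
    rw [← Finset.card_image_iff, iP, Nat.card_Ico]
    omega
  refine ⟨fun c => f c % w, fun c => Nat.mod_lt _ (by omega), ?_, ?_, ?_, ?_⟩
  · intro j hj
    rw [card_filter_of_enum injP iP, card_range_mod _ _ _ (by omega) hj, hP,
      Nat.mul_mod_left, Nat.mul_div_cancel _ (by omega), if_neg (by omega), add_zero]
  · intro j hj
    rw [card_filter_of_enum (injP.mono (by exact_mod_cast hE)) iE,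
      card_range_mod _ _ _ (by omega) hj]
    have : k ≤ E.card / w := by
      rw [Nat.le_div_iff_mul_le (by omega)]
      rwa [mul_comm]
    omega
  · exact image_mod_of_enum i0 hw
  · exact image_mod_of_enum i1 hw

end Vale.Agent.P181.H411
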