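import Vale.Agent.P181.H411.Seam
import Vale.Agent.P181.H583.HWDef
import Mathlib.RingTheory.MvPolynomial.WeightedHomogeneous
import Mathlib.RingTheory.MvPolynomial.Basic
import Mathlib.Algebra.MvPolynomial.Funext

set_option autoImplicit false

open scoped TensorProduct

namespace Vale.Agent.P181.T4

open Vale.Agent.P181 Vale.Agent.P181.H280 Vale.Agent.P181.H54 Vale.Agent.P181.FR MvPolynomial

/-! ### Polynomial form -/

/-- The function of a polynomial in the variables `(i, j)`, `i` a coordinate, `j` a point. -/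
noncomputable def evalP (B m : ℕ) : MvPolynomial (Fin m × Fin B) ℂ →ₗ[ℂ] Fn B m where
  toFun f p := eval (fun ij => p ij.2 ij.1) f
  map_add' f g := by
    funext p
    exact (eval (fun ij : Fin m × Fin B => p ij.2 ij.1)).map_add f g
  map_smul' c f := by
    funext p
    rw [smul_eval, Pi.smul_apply, smul_eq_mul, RingHom.id_apply]

lemma evalP_apply {B m : ℕ} (f : MvPolynomial (Fin m × Fin B) ℂ) (p : Fin B → Fin m → ℂ) :
    evalP B m f p = eval (fun ij => p ij.2 ij.1) f := rfl

lemma evalP_inj {B m : ℕ} {f g : MvPolynomial (Fin m × Fin B) ℂ}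
    (h : evalP B m f = evalP B m g) : f = g := by
  apply MvPolynomial.funext
  intro x
  exact congrFun h (fun j i => x (i, j))

/-- The weight counting the variables of the point `j`. -/
def colW {m B : ℕ} (j : Fin B) : Fin m × Fin B → ℕ := fun ij => if ij.2 = j then 1 else 0

/-- Homogeneous of degree `a` in each point. -/
def ColHom {m B : ℕ} (a : ℕ) (f : MvPolynomial (Fin m × Fin B) ℂ) : Prop :=
  ∀ j, IsWeightedHomogeneous (colW j) f a

/-- The polynomials which are homogeneous of degree `a` in each point. -/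
noncomputable def ColS (m B a : ℕ) : Submodule ℂ (MvPolynomial (Fin m × Fin B) ℂ) :=
  ⨅ j : Fin B, weightedHomogeneousSubmodule ℂ (colW j) a

lemma mem_ColS {m B a : ℕ} {f : MvPolynomial (Fin m × Fin B) ℂ} : f ∈ ColS m B a ↔ ColHom a f := by
  rw [ColS, Submodule.mem_iInf]
  rfl

lemma weight_colW {m B : ℕ} (j : Fin B) (d : Fin m × Fin B →₀ ℕ) :
    Finsupp.weight (colW j) d = ∑ i, d (i, j) := by
  classical
  rw [Finsupp.weight_apply, Finsupp.sum_fintype _ _ (fun _ => by simp), Fintype.sum_prod_type]
  refine Finset.sum_congr rfl fun i _ => ?_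
  rw [Finset.sum_eq_single j]
  · simp [colW]
  · intro k _ hk
    simp [colW, hk]
  · intro h
    exact absurd (Finset.mem_univ _) h

lemma colHom_coeff {m B a : ℕ} {f : MvPolynomial (Fin m × Fin B) ℂ} (hf : ColHom a f)
    {d : Fin m × Fin B →₀ ℕ} (hd : d ∈ f.support) (j : Fin B) : ∑ i, d (i, j) = a := by
  rw [← weight_colW]
  exact hf j (mem_support_iff.1 hd)

lemma evalP_monomial {m B : ℕ} (d : Fin m × Fin B →₀ ℕ) (c : ℂ) :
    evalP B m (monomial d c) = c • fun p => ∏ j, eval (p j)
      (∏ i, (X i : MvPolynomial (Fin m) ℂ) ^ d (i, j)) := by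
  classical
  funext p
  rw [evalP_apply, eval_monomial, Pi.smul_apply, smul_eq_mul,
    Finsupp.prod_fintype _ _ (fun _ => pow_zero _), Fintype.prod_prod_type, Finset.prod_comm]
  congr 1
  refine Finset.prod_congr rfl fun j _ => ?_
  rw [map_prod]
  exact Finset.prod_congr rfl fun i _ => by rw [map_pow, eval_X]

lemma evalP_mem {m B a : ℕ} {f : MvPolynomial (Fin m × Fin B) ℂ} (hf : ColHom a f) :
    evalP B m f ∈ MP B m a := by
  classical
  rw [f.as_sum, map_sum]
  refine Submodule.sum_mem _ fun d hd => ?_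
  rw [evalP_monomial]
  refine Submodule.smul_mem _ _ (Submodule.subset_span ⟨fun j => ∏ i, X i ^ d (i, j), ?_, rfl⟩)
  intro j
  have h := IsHomogeneous.prod Finset.univ
    (fun i : Fin m => (X i : MvPolynomial (Fin m) ℂ) ^ d (i, j)) (fun i => d (i, j))
    (fun i _ => isHomogeneous_X_pow _ _)
  rwa [colHom_coeff hf hd j] at h

lemma rename_wh {m B a : ℕ} (q : MvPolynomial (Fin m) ℂ) (hq : q.IsHomogeneous a) (j k : Fin B) :
    IsWeightedHomogeneous (colW (m := m) k) (rename (fun i => (i, j)) q)
      (if j = k then a else 0) := by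
  classical
  rw [q.as_sum, map_sum]
  have : ∀ d ∈ q.support, IsWeightedHomogeneous (colW (m := m) k)
      (rename (fun i => (i, j)) (monomial d (coeff d q))) (if j = k then a else 0) := by
    intro d hd
    rw [rename_monomial]
    refine isWeightedHomogeneous_monomial _ _ _ ?_
    have hdeg : ∑ i, d i = a := by
      have hd' : Finsupp.degree d = a := by
        rw [Finsupp.degree_eq_weight_one]
        exact hq (mem_support_iff.1 hd)
      rw [← hd', Finsupp.degree_eq_sum]
    rw [Finsupp.weight_apply, Finsupp.sum_mapDomain_index (h := fun i c => c • colW k i)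
      (fun _ => by simp) (fun _ _ _ => by simp [add_mul]),
      Finsupp.sum_fintype _ _ (fun _ => by simp)]
    by_cases h : j = k
    · simp only [colW, h, if_true, smul_eq_mul, mul_one]
      exact hdeg
    · simp [colW, h]
  exact (weightedHomogeneousSubmodule ℂ (colW (m := m) k) _).sum_mem this

lemma exists_evalP {m B a : ℕ} {G : Fn B m} (hG : G ∈ MP B m a) :
    ∃ f : MvPolynomial (Fin m × Fin B) ℂ, ColHom a f ∧ evalP B m f = G := by
  classical
  induction hG using Submodule.span_induction with
  | mem G hG =>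
    obtain ⟨q, hq, rfl⟩ := hG
    refine ⟨∏ j, rename (fun i => (i, j)) (q j), ?_, ?_⟩
    · intro k
      have h := IsWeightedHomogeneous.prod Finset.univ (fun j => rename (fun i => (i, j)) (q j))
        (fun j => if j = k then a else 0) (fun j _ => rename_wh (q j) (hq j) j k)
      rwa [Finset.sum_ite_eq' Finset.univ k, if_pos (Finset.mem_univ _)] at h
    · funext p
      rw [evalP_apply, map_prod]
      refine Finset.prod_congr rfl fun j _ => ?_
      rw [eval_rename]
      rfl
  | zero => exact ⟨0, fun j => isWeightedHomogeneous_zero ℂ _ _, map_zero _⟩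
  | add G H _ _ h h' =>
    obtain ⟨f, hf, rfl⟩ := h
    obtain ⟨g, hg, rfl⟩ := h'
    exact ⟨f + g, fun j => (hf j).add (hg j), map_add _ _ _⟩
  | smul c G _ h =>
    obtain ⟨f, hf, rfl⟩ := h
    exact ⟨c • f, fun j => (weightedHomogeneousSubmodule ℂ (colW j) a).smul_mem c (hf j),
      map_smul _ _ _⟩

/-- `MP` is the image of the polynomials which are homogeneous of degree `a` in each point. -/
lemma MP_eq_map (m B a : ℕ) : MP B m a = (ColS m B a).map (evalP B m) := by
  apply le_antisymm
  · intro G hG
    obtain ⟨f, hf, rfl⟩ := exists_evalP hG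
    exact ⟨f, mem_ColS.2 hf, rfl⟩
  · rintro _ ⟨f, hf, rfl⟩
    exact evalP_mem (mem_ColS.1 hf)

lemma ColS_le (m B a : ℕ) : ColS m B a ≤ restrictTotalDegree (Fin m × Fin B) ℂ (B * a) := by
  classical
  intro f hf
  rw [mem_restrictTotalDegree]
  refine Finset.sup_le fun d hd => ?_
  rw [Finsupp.sum_fintype _ _ (fun _ => rfl), Fintype.sum_prod_type, Finset.sum_comm]
  rw [Finset.sum_congr rfl (fun j _ => colHom_coeff (mem_ColS.1 hf) hd j), Finset.sum_const,
    Finset.card_univ, Fintype.card_fin, smul_eq_mul]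

instance {m B a : ℕ} : Module.Finite ℂ (ColS m B a) :=
  Submodule.finiteDimensional_of_le (ColS_le m B a)

instance {m B a : ℕ} : Module.Finite ℂ (MP B m a) := by
  rw [MP_eq_map]
  infer_instance

instance {m B a : ℕ} {lam : Fin m → ℕ} : Module.Finite ℂ (HWS B m a lam) :=
  Submodule.finiteDimensional_of_le (S₂ := MP B m a) (fun _ h => h.1)

end Vale.Agent.P181.T4
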