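import Vale.Agent.P181.H411.Seam2

set_option autoImplicit false

open scoped TensorProduct

namespace Vale.Agent.P181.T4

open Vale.Agent.P181 Vale.Agent.P181.H280 Vale.Agent.P181.H54 Vale.Agent.P181.FR MvPolynomial

/-! ### Multiplicities and highest weight functions -/

lemma card_le_finrank_sub {M : Type} [AddCommMonoid M] [Module ℂ M] [Module.Finite ℂ M]
    {ι : Type*} [Fintype ι] (S : Submodule ℂ M) (x : ι → M) (hx : ∀ i, x i ∈ S)
    (hli : LinearIndependent ℂ x) : Fintype.card ι ≤ Module.finrank ℂ S := by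
  let _ := Module.addCommMonoidToAddCommGroup ℂ (M := M)
  have h : LinearIndependent ℂ (fun i => (⟨x i, hx i⟩ : S)) := by
    apply LinearIndependent.of_comp S.subtype
    exact hli
  exact h.fintype_card_le_finrank

lemma finrank_le_of_inj' {M : Type} {N : Type*} [AddCommMonoid M] [Module ℂ M]
    [AddCommGroup N] [Module ℂ N] (f : M →ₗ[ℂ] N) (S : Submodule ℂ M) (T : Submodule ℂ N)
    [Module.Finite ℂ T] (hST : ∀ x ∈ S, f x ∈ T) (hinj : ∀ x ∈ S, f x = 0 → x = 0) :
    Module.finrank ℂ S ≤ Module.finrank ℂ T := by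
  let _ := Module.addCommMonoidToAddCommGroup ℂ (M := M)
  let g : S →ₗ[ℂ] T := (f.domRestrict S).codRestrict T (fun x => hST x x.2)
  have hg : Function.Injective g := by
    rw [injective_iff_map_eq_zero]
    intro x hx
    have h1 : f x = 0 := congrArg Subtype.val hx
    exact Subtype.ext (hinj x x.2 h1)
  exact LinearMap.finrank_le_finrank_of_injective hg

/-- Symmetrization over the points. -/
noncomputable def symF (B m : ℕ) : Fn B m →ₗ[ℂ] Fn B m where
  toFun G := fun p => ∑ σ : Equiv.Perm (Fin B), G (fun j => p (σ j))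
  map_add' G H := by
    funext p
    exact Finset.sum_add_distrib
  map_smul' c G := by
    funext p
    exact (Finset.smul_sum (r := c)).symm

lemma symF_apply {B m : ℕ} (G : Fn B m) (p : Fin B → Fin m → ℂ) :
    symF B m G p = ∑ σ : Equiv.Perm (Fin B), G (fun j => p (σ j)) := rfl

lemma symF_HWF {B m : ℕ} {lam : Fin m → ℕ} {G : Fn B m} (hG : HWF B m lam G) :
    HWF B m lam (symF B m G) := by
  intro g hg p
  rw [symF_apply, symF_apply, Finset.mul_sum]
  exact Finset.sum_congr rfl fun σ _ => hG g hg (fun j => p (σ j))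

/-- **(A2)** Highest weight functions with linearly independent symmetrizations give a lower bound
for the multiplicity. -/
theorem plethMult_ge {b a m : ℕ} {lam : Fin m → ℕ} {ι : Type*} [Fintype ι]
    (G : ι → (Fin b → Fin m → ℂ) → ℂ) (hG : ∀ i, G i ∈ MP b m a) (hw : ∀ i, HWF b m lam (G i))
    (hli : LinearIndependent ℂ
      (fun i => fun p : Fin b → Fin m → ℂ => ∑ s : Equiv.Perm (Fin b), G i (fun j => p (s j)))) :
    Fintype.card ι ≤ plethMult b a m lam := by
  choose x hx using fun i => exists_ptv (G i) (hG i)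
  have hx' : ∀ i, ptvL b a m (x i) =
      fun p : Fin b → Fin m → ℂ => ∑ s : Equiv.Perm (Fin b), G i (fun j => p (s j)) :=
    fun i => funext (hx i)
  refine card_le_finrank_sub (hwSpace lam (plethAct b a m)) x ?_ ?_
  · intro i
    rw [mem_hwSpace_iff, hx' i]
    exact symF_HWF (hw i)
  · apply LinearIndependent.of_comp (ptvL b a m)
    have h : (ptvL b a m : Pleth b a m → Fn b m) ∘ x =
        fun i => fun p : Fin b → Fin m → ℂ =>
          ∑ s : Equiv.Perm (Fin b), G i (fun j => p (s j)) := funext hx'
    rw [h]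
    exact hli

/-- **(A2)**, submodule form. -/
theorem plethMult_ge_finrank {b a m : ℕ} {lam : Fin m → ℕ} (S : Submodule ℂ (Fn b m))
    (hS : S ≤ HWS b m a lam) (hinj : ∀ G ∈ S, symF b m G = 0 → G = 0) :
    Module.finrank ℂ S ≤ plethMult b a m lam := by
  have : Module.Finite ℂ S := Submodule.finiteDimensional_of_le hS
  let v : Fin (Module.finrank ℂ S) → S := Module.finBasis ℂ S
  have hv : LinearIndependent ℂ v := (Module.finBasis ℂ S).linearIndependent
  have h1 : LinearIndependent ℂ (fun i => symF b m (v i : Fn b m)) := by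
    let g : S →ₗ[ℂ] Fn b m := (symF b m).domRestrict S
    have hg : LinearMap.ker g = ⊥ := by
      rw [LinearMap.ker_eq_bot']
      intro x hx
      exact Subtype.ext (hinj x x.2 hx)
    exact hv.map' g hg
  have h2 := plethMult_ge (b := b) (a := a) (m := m) (lam := lam) (fun i => (v i : Fn b m))
    (fun i => (hS (v i).2).1) (fun i => (hS (v i).2).2) h1
  rwa [Fintype.card_fin] at h2

/-- **(A1)** The multiplicity is at most the dimension of the space of all highest weight
functions of `a` points of degree `b` in each point. -/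
theorem plethMult_le_finrank_HWS {a b m : ℕ} {lam : Fin m → ℕ} :
    plethMult a b m lam ≤ Module.finrank ℂ (HWS a m b lam) := by
  refine finrank_le_of_inj' (ptvL a b m) (hwSpace lam (plethAct a b m)) (HWS a m b lam) ?_ ?_
  · intro x hx
    exact ⟨ptvL_mem x, (mem_hwSpace_iff x).1 hx⟩
  · intro x _ h0
    exact ptvL_inj (h0.trans (map_zero _).symm)

/-- The symmetric highest weight functions. -/
noncomputable def HWSS (B m a : ℕ) (lam : Fin m → ℕ) : Submodule ℂ (Fn B m) where
  carrier := {G | G ∈ HWS B m a lam ∧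
    ∀ (σ : Equiv.Perm (Fin B)) p, G (fun j => p (σ j)) = G p}
  add_mem' := by
    rintro G H ⟨hG, hG'⟩ ⟨hH, hH'⟩
    refine ⟨Submodule.add_mem _ hG hH, fun σ p => ?_⟩
    rw [Pi.add_apply, Pi.add_apply, hG', hH']
  zero_mem' := ⟨Submodule.zero_mem _, fun _ _ => rfl⟩
  smul_mem' := by
    rintro c G ⟨hG, hG'⟩
    refine ⟨Submodule.smul_mem _ c hG, fun σ p => ?_⟩
    rw [Pi.smul_apply, Pi.smul_apply, hG']

/-- The multiplicity is the dimension of the space of symmetric highest weight functions. -/
theorem plethMult_eq {b a m : ℕ} {lam : Fin m → ℕ} :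
    plethMult b a m lam = Module.finrank ℂ (HWSS b m a lam) := by
  have hle : HWSS b m a lam ≤ HWS b m a lam := fun _ h => h.1
  have : Module.Finite ℂ (HWSS b m a lam) := Submodule.finiteDimensional_of_le hle
  apply le_antisymm
  · refine finrank_le_of_inj' (ptvL b a m) (hwSpace lam (plethAct b a m)) (HWSS b m a lam) ?_ ?_
    · intro x hx
      exact ⟨⟨ptvL_mem x, (mem_hwSpace_iff x).1 hx⟩, ptvL_perm x⟩
    · intro x _ h0
      exact ptvL_inj (h0.trans (map_zero _).symm)
  · refine plethMult_ge_finrank _ hle ?_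
    intro G hG h0
    have hc : (Fintype.card (Equiv.Perm (Fin b)) : ℂ) ≠ 0 := by
      exact_mod_cast Fintype.card_ne_zero
    funext p
    have h1 := congrFun h0 p
    rw [symF_apply, Finset.sum_congr rfl (fun σ _ => hG.2 σ p), Finset.sum_const, nsmul_eq_mul,
      Finset.card_univ, Pi.zero_apply] at h1
    exact (mul_eq_zero.1 h1).resolve_left hc

end Vale.Agent.P181.T4
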