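import Vale.Agent.P181.H411.Seam3
import Vale.Agent.P181.H583.Poly
import Vale.Agent.P181.R2.H822.FR8

set_option autoImplicit false

open scoped TensorProduct

namespace Vale.Agent.P181.T4

open Vale.Agent.P181 Vale.Agent.P181.H280 Vale.Agent.P181.H54 Vale.Agent.P181.FR MvPolynomial

/-! ### Highest weight polynomials and highest weight functions -/

section act

variable {n : ℕ} {σ : Type}

lemma polyAct_apply (g : Matrix (Fin n) (Fin n) ℂ) (f : MvPolynomial (Fin n × σ) ℂ) :
    polyAct n σ g f =
      aeval (fun p : Fin n × σ => ∑ k, g k p.1 • (X (k, p.2) : MvPolynomial (Fin n × σ) ℂ)) f :=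
  rfl

lemma polyAct_act_mul (g h : Matrix (Fin n) (Fin n) ℂ) (f : MvPolynomial (Fin n × σ) ℂ) :
    polyAct n σ (g * h) f = polyAct n σ g (polyAct n σ h f) := by
  have e : (aeval (fun p : Fin n × σ => ∑ k, (g * h) k p.1 •
      (X (k, p.2) : MvPolynomial (Fin n × σ) ℂ)) : MvPolynomial (Fin n × σ) ℂ →ₐ[ℂ] _) =
      (aeval (fun p : Fin n × σ => ∑ k, g k p.1 •
        (X (k, p.2) : MvPolynomial (Fin n × σ) ℂ))).comp
      (aeval (fun p : Fin n × σ => ∑ k, h k p.1 •
        (X (k, p.2) : MvPolynomial (Fin n × σ) ℂ))) := by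
    apply MvPolynomial.algHom_ext
    intro p
    rw [AlgHom.comp_apply, aeval_X, aeval_X, map_sum]
    simp only [map_smul, aeval_X, Matrix.mul_apply, Finset.smul_sum, Finset.sum_smul, smul_smul]
    rw [Finset.sum_comm]
    refine Finset.sum_congr rfl fun i _ => Finset.sum_congr rfl fun k _ => ?_
    rw [mul_comm]
  exact DFunLike.congr_fun e f

/-- The substitution `x_{i,j} ↦ x_{i,j} + T x_{s,j}`. -/
noncomputable def shiftP (s i : Fin n) :
    MvPolynomial (Fin n × σ) ℂ →ₐ[ℂ] Polynomial (MvPolynomial (Fin n × σ) ℂ) :=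
  aeval (fun p => Polynomial.C (X p) +
    if p.1 = i then Polynomial.X * Polynomial.C (X (s, p.2)) else 0)

lemma shiftP_X (s i : Fin n) (p : Fin n × σ) : shiftP (σ := σ) s i (X p) =
    Polynomial.C (X p) + if p.1 = i then Polynomial.X * Polynomial.C (X (s, p.2)) else 0 := by
  rw [shiftP, aeval_X]

lemma rowOp_leibniz [Fintype σ] (s i : Fin n) (f h : MvPolynomial (Fin n × σ) ℂ) :
    rowOp s i (f * h) = rowOp s i f * h + f * rowOp s i h := by
  rw [rowOp_apply, rowOp_apply, rowOp_apply, Finset.sum_mul, Finset.mul_sum,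
    ← Finset.sum_add_distrib]
  refine Finset.sum_congr rfl fun j _ => ?_
  rw [Derivation.leibniz, smul_eq_mul, smul_eq_mul]
  ring

lemma rowOp_C [Fintype σ] (s i : Fin n) (c : ℂ) :
    rowOp s i (C c : MvPolynomial (Fin n × σ) ℂ) = 0 := by
  rw [rowOp_apply]
  exact Finset.sum_eq_zero fun j _ => by rw [pderiv_C, mul_zero]

lemma rowOp_var [Fintype σ] (s i : Fin n) (p : Fin n × σ) :
    rowOp s i (X p : MvPolynomial (Fin n × σ) ℂ) = if p.1 = i then X (s, p.2) else 0 := by
  classical
  rw [rowOp_apply]
  simp only [pderiv_X, Pi.single_apply]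
  by_cases h : p.1 = i
  · rw [if_pos h, Finset.sum_eq_single p.2]
    · rw [if_pos (show p = (i, p.2) from Prod.ext h rfl), mul_one]
    · intro j _ hj
      rw [if_neg (fun h' => hj (congrArg Prod.snd h').symm), mul_zero]
    · intro h'
      exact absurd (Finset.mem_univ _) h'
  · rw [if_neg h]
    refine Finset.sum_eq_zero fun j _ => ?_
    rw [if_neg (fun h' => h (congrArg Prod.fst h')), mul_zero]

lemma derivative_shiftP [Fintype σ] {s i : Fin n} (hsi : s ≠ i)
    (f : MvPolynomial (Fin n × σ) ℂ) :
    Polynomial.derivative (shiftP s i f) = shiftP s i (rowOp s i f) := by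
  induction f using MvPolynomial.induction_on with
  | C c =>
    rw [rowOp_C, map_zero]
    have : shiftP (σ := σ) s i (C c) = Polynomial.C (C c) := by
      rw [shiftP, aeval_C]
      rfl
    rw [this, Polynomial.derivative_C]
  | add f h hf hh => rw [map_add, map_add, map_add, map_add, hf, hh]
  | mul_X f p hf =>
    have hX : Polynomial.derivative (shiftP s i (X p)) = shiftP s i (rowOp s i (X p)) := by
      rw [rowOp_var, shiftP_X, Polynomial.derivative_add, Polynomial.derivative_C, zero_add]
      by_cases h : p.1 = i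
      · rw [if_pos h, if_pos h, shiftP_X, if_neg (show ¬ (s, p.2).1 = i from hsi), add_zero,
          Polynomial.derivative_mul, Polynomial.derivative_X, Polynomial.derivative_C, one_mul,
          mul_zero, add_zero]
      · rw [if_neg h, if_neg h, map_zero, map_zero]
    rw [map_mul, Polynomial.derivative_mul, hf, hX, rowOp_leibniz, map_add, map_mul, map_mul]

lemma eval_shiftP (s i : Fin n) (t : ℂ) (f : MvPolynomial (Fin n × σ) ℂ) :
    Polynomial.eval (C t) (shiftP s i f) = polyAct n σ (Matrix.transvection s i t) f := by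
  classical
  have e : ((Polynomial.aeval (R := MvPolynomial (Fin n × σ) ℂ)
        (C t : MvPolynomial (Fin n × σ) ℂ)).restrictScalars ℂ).comp (shiftP s i) =
      aeval (fun p : Fin n × σ => ∑ k, (Matrix.transvection s i t) k p.1 •
        (X (k, p.2) : MvPolynomial (Fin n × σ) ℂ)) := by
    apply MvPolynomial.algHom_ext
    intro p
    rw [AlgHom.comp_apply, shiftP_X, aeval_X, AlgHom.restrictScalars_apply,
      Polynomial.coe_aeval_eq_eval, Polynomial.eval_add, Polynomial.eval_C]
    have h1 : ∀ k, (Matrix.transvection s i t) k p.1 =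
        (if k = p.1 then 1 else 0) + if s = k ∧ i = p.1 then t else 0 := by
      intro k
      rw [Matrix.transvection, Matrix.add_apply, Matrix.one_apply, Matrix.single_apply]
    simp only [h1, add_smul, Finset.sum_add_distrib, ite_smul, one_smul, zero_smul,
      Finset.sum_ite_eq', Finset.mem_univ, if_true]
    congr 1
    by_cases h : p.1 = i
    · rw [if_pos h]
      simp only [h, and_true, Finset.sum_ite_eq, Finset.mem_univ, if_true]
      rw [Polynomial.eval_mul, Polynomial.eval_X, Polynomial.eval_C, ← C_mul']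
    · rw [if_neg h, Polynomial.eval_zero]
      refine (Finset.sum_eq_zero fun k _ => ?_).symm
      rw [if_neg (fun h' => h h'.2.symm)]
  have h2 := DFunLike.congr_fun e f
  rw [AlgHom.comp_apply, AlgHom.restrictScalars_apply, Polynomial.coe_aeval_eq_eval] at h2
  exact h2

lemma polyAct_one_matrix (f : MvPolynomial (Fin n × σ) ℂ) : polyAct n σ 1 f = f := by
  classical
  rw [polyAct_apply]
  have : (fun p : Fin n × σ => ∑ k, (1 : Matrix (Fin n) (Fin n) ℂ) k p.1 •
      (X (k, p.2) : MvPolynomial (Fin n × σ) ℂ)) = X := by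
    funext p
    simp only [Matrix.one_apply, ite_smul, one_smul, zero_smul, Finset.sum_ite_eq',
      Finset.mem_univ, if_true]
  rw [this, aeval_X_left, AlgHom.id_apply]

/-- A polynomial killed by a row operator is fixed by the transvections. -/
lemma polyAct_transvection [Fintype σ] {s i : Fin n} (hsi : s ≠ i)
    {f : MvPolynomial (Fin n × σ) ℂ} (hf : rowOp s i f = 0) (t : ℂ) :
    polyAct n σ (Matrix.transvection s i t) f = f := by
  have h1 : Polynomial.derivative (shiftP s i f) = 0 := by
    rw [derivative_shiftP hsi, hf, map_zero]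
  have h2 := Polynomial.derivative_eq_zero.1 h1
  rw [Polynomial.natDegree_eq_zero] at h2
  obtain ⟨c, hc⟩ := h2
  have h3 : ∀ t : ℂ, polyAct n σ (Matrix.transvection s i t) f = c := by
    intro t
    rw [← eval_shiftP, ← hc, Polynomial.eval_C]
  rw [h3 t, ← h3 0, Matrix.transvection_zero, polyAct_one_matrix]

/-- A polynomial fixed by the transvections is killed by the row operator. -/
lemma rowOp_of_polyAct [Fintype σ] {s i : Fin n} (hsi : s ≠ i)
    {f : MvPolynomial (Fin n × σ) ℂ}
    (hf : ∀ t : ℂ, polyAct n σ (Matrix.transvection s i t) f = f) : rowOp s i f = 0 := by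
  have h1 : shiftP s i f = Polynomial.C f := by
    apply Polynomial.eq_of_infinite_eval_eq
    refine Set.Infinite.mono (s := Set.range (fun t : ℂ => (C t : MvPolynomial (Fin n × σ) ℂ))) ?_
      (Set.infinite_range_of_injective (C_injective _ _))
    rintro _ ⟨t, rfl⟩
    change Polynomial.eval (C t) (shiftP s i f) = Polynomial.eval (C t) (Polynomial.C f)
    rw [eval_shiftP, hf, Polynomial.eval_C]
  have h2 : shiftP s i (rowOp s i f) = 0 := by
    rw [← derivative_shiftP hsi, h1, Polynomial.derivative_C]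
  have h3 := eval_shiftP s i 0 (rowOp s i f)
  rwa [h2, Polynomial.eval_zero, Matrix.transvection_zero, polyAct_one_matrix, eq_comm] at h3

lemma polyAct_diagonal [Fintype σ] {lam : Fin n → ℕ} {f : MvPolynomial (Fin n × σ) ℂ}
    (hf : ∀ v : Fin n × σ →₀ ℕ, coeff v f ≠ 0 → ∀ i, ∑ j, v (i, j) = lam i) (d : Fin n → ℂ) :
    polyAct n σ (Matrix.diagonal d) f = (∏ i, d i ^ lam i) • f := by
  classical
  rw [polyAct_apply]
  have h0 : (fun p : Fin n × σ => ∑ k, (Matrix.diagonal d) k p.1 •
      (X (k, p.2) : MvPolynomial (Fin n × σ) ℂ)) = fun p => C (d p.1) * X p := by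
    funext p
    simp only [Matrix.diagonal_apply, ite_smul, zero_smul, Finset.sum_ite_eq', Finset.mem_univ,
      if_true]
    rw [C_mul']
  rw [h0]
  conv_lhs => rw [f.as_sum]
  conv_rhs => rw [f.as_sum]
  rw [map_sum, Finset.smul_sum]
  refine Finset.sum_congr rfl fun v hv => ?_
  rw [aeval_monomial, Finsupp.prod_fintype _ _ (fun _ => pow_zero _)]
  simp only [mul_pow, Finset.prod_mul_distrib]
  have h1 : ∏ p : Fin n × σ, (C (d p.1) : MvPolynomial (Fin n × σ) ℂ) ^ v p =
      C (∏ i, d i ^ lam i) := by
    rw [Fintype.prod_prod_type, map_prod]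
    refine Finset.prod_congr rfl fun i _ => ?_
    change ∏ j, (C (d i) : MvPolynomial (Fin n × σ) ℂ) ^ v (i, j) = _
    rw [Finset.prod_pow_eq_pow_sum, hf v (mem_support_iff.1 hv) i, map_pow]
  rw [h1, monomial_eq, Finsupp.prod_fintype _ _ (fun _ => pow_zero _), ← C_mul', algebraMap_eq]
  ring

lemma polyAct_diag_coeff [Fintype σ] (f : MvPolynomial (Fin n × σ) ℂ) (d : Fin n → ℂ)
    (v : Fin n × σ →₀ ℕ) :
    coeff v (polyAct n σ (Matrix.diagonal d) f) = (∏ i, d i ^ (∑ j, v (i, j))) * coeff v f := by
  classical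
  rw [polyAct_apply]
  have h0 : (fun p : Fin n × σ => ∑ k, (Matrix.diagonal d) k p.1 •
      (X (k, p.2) : MvPolynomial (Fin n × σ) ℂ)) = fun p => C (d p.1) * X p := by
    funext p
    simp only [Matrix.diagonal_apply, ite_smul, zero_smul, Finset.sum_ite_eq', Finset.mem_univ,
      if_true]
    rw [C_mul']
  rw [h0]
  induction f using MvPolynomial.induction_on' with
  | monomial u c =>
    have h1 : aeval (fun p : Fin n × σ => (C (d p.1) * X p : MvPolynomial (Fin n × σ) ℂ))
        (monomial u c) = C (∏ i, d i ^ (∑ j, u (i, j))) * monomial u c := by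
      rw [aeval_monomial, Finsupp.prod_fintype _ _ (fun _ => pow_zero _)]
      simp only [mul_pow, Finset.prod_mul_distrib]
      have h1 : ∏ p : Fin n × σ, (C (d p.1) : MvPolynomial (Fin n × σ) ℂ) ^ u p =
          C (∏ i, d i ^ (∑ j, u (i, j))) := by
        rw [Fintype.prod_prod_type, map_prod]
        refine Finset.prod_congr rfl fun i _ => ?_
        change ∏ j, (C (d i) : MvPolynomial (Fin n × σ) ℂ) ^ u (i, j) = _
        rw [Finset.prod_pow_eq_pow_sum, map_pow]
      rw [h1, monomial_eq, Finsupp.prod_fintype _ _ (fun _ => pow_zero _), algebraMap_eq]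
      ring
    rw [h1, coeff_C_mul, coeff_monomial]
    by_cases h : u = v
    · rw [if_pos h, h]
    · rw [if_neg h, mul_zero, mul_zero]
  | add f g hf hg => rw [map_add, coeff_add, hf, hg, coeff_add, mul_add]

lemma US_zero {m : ℕ} {u : Matrix (Fin m) (Fin m) ℂ} (hu : u ∈ US m 0) : u = 1 := by
  ext p q
  rcases lt_trichotomy p q with h | h | h
  · rw [Matrix.one_apply_ne h.ne]
    exact hu.2.2 p q h (Nat.zero_le _)
  · subst h
    rw [Matrix.one_apply_eq]
    exact hu.1 p
  · rw [Matrix.one_apply_ne h.ne']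
    exact hu.2.1 p q h

lemma polyAct_US [Fintype σ] {f : MvPolynomial (Fin n × σ) ℂ}
    (hf : ∀ s i : Fin n, s < i → rowOp s i f = 0) (r : ℕ) :
    ∀ u ∈ US n r, polyAct n σ u f = f := by
  classical
  induction r with
  | zero =>
    intro u hu
    rw [US_zero hu, polyAct_one_matrix]
  | succ r ih =>
    intro u hu
    by_cases h : ∃ i j : Fin n, i < j ∧ (i : ℕ) * n + (n - 1 - (j : ℕ)) = r
    · obtain ⟨i, j, hij, rfl⟩ := h
      have h1 := ih _ (US_factor hij hu)
      rw [polyAct_act_mul] at h1
      have h2 : polyAct n σ (Matrix.transvection i j (u i j))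
          (polyAct n σ (Matrix.transvection i j (-(u i j))) (polyAct n σ u f)) = f := by
        rw [h1]
        exact polyAct_transvection hij.ne (hf i j hij) _
      rw [← polyAct_act_mul, Matrix.transvection_mul_transvection_same _ _ hij.ne,
        add_neg_cancel, Matrix.transvection_zero, polyAct_one_matrix] at h2
      exact h2
    · apply ih
      refine ⟨hu.1, hu.2.1, fun i j hij hr => ?_⟩
      rcases hr.lt_or_eq with h4 | h4
      · exact hu.2.2 i j hij h4
      · exact absurd ⟨i, j, hij, h4.symm⟩ h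

/-- Highest weight polynomials are highest weight vectors of the action of matrices. -/
theorem HW_le_hwSpace [Fintype σ] {lam : Fin n → ℕ} {f : MvPolynomial (Fin n × σ) ℂ}
    (hf : f ∈ HW n σ lam) {g : Matrix (Fin n) (Fin n) ℂ} (hg : IsBorel g) :
    polyAct n σ g f = (∏ i, g i i ^ lam i) • f := by
  classical
  set u : Matrix (Fin n) (Fin n) ℂ := Matrix.of fun p q => (g p p)⁻¹ * g p q with hu_def
  have hu : u ∈ US n (n * n) := by
    refine ⟨fun i => ?_, fun i j hij => ?_, fun i j hij hr => ?_⟩
    · rw [hu_def, Matrix.of_apply, inv_mul_cancel₀ (hg.2 i)]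
    · rw [hu_def, Matrix.of_apply, hg.1 i j hij, mul_zero]
    · exfalso
      have h4 : ((i : ℕ) + 1) * n ≤ n * n := Nat.mul_le_mul_right _ i.2
      rw [add_mul, one_mul] at h4
      have := j.2
      omega
  have e : g = (Matrix.diagonal fun i => g i i) * u := by
    ext p q
    rw [Matrix.diagonal_mul, hu_def, Matrix.of_apply, mul_inv_cancel_left₀ (hg.2 p)]
  conv_lhs => rw [e]
  rw [polyAct_act_mul, polyAct_US hf.2 (n * n) u hu, polyAct_diagonal hf.1]

end act

/-- Evaluation intertwines the actions. -/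
lemma evalP_polyAct {B m : ℕ} (g : Matrix (Fin m) (Fin m) ℂ) (f : MvPolynomial (Fin m × Fin B) ℂ)
    (p : Fin B → Fin m → ℂ) :
    evalP B m (polyAct m (Fin B) g f) p = evalP B m f (fun j => Matrix.vecMul (p j) g) := by
  rw [evalP_apply, evalP_apply, polyAct_apply, aeval_def, eval_eval₂, eval, coe_eval₂Hom]
  congr 1
  · ext x
    simp
  · funext q
    simp [Matrix.vecMul, dotProduct, smul_eval, mul_comm]

/-- **(A3)** The function of a highest weight polynomial is a highest weight function. -/
theorem HWF_evalP {B m : ℕ} {lam : Fin m → ℕ} {f : MvPolynomial (Fin m × Fin B) ℂ}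
    (hf : f ∈ HW m (Fin B) lam) : HWF B m lam (evalP B m f) := by
  intro g hg p
  rw [← evalP_polyAct, HW_le_hwSpace hf hg, map_smul, Pi.smul_apply, smul_eq_mul]

/-- The polynomial of a highest weight function is a highest weight vector. -/
lemma polyAct_of_HWF {B m : ℕ} {lam : Fin m → ℕ} {f : MvPolynomial (Fin m × Fin B) ℂ}
    (hf : HWF B m lam (evalP B m f)) {g : Matrix (Fin m) (Fin m) ℂ} (hg : IsBorel g) :
    polyAct m (Fin B) g f = (∏ i, g i i ^ lam i) • f := by
  apply evalP_inj
  funext p
  rw [evalP_polyAct, hf g hg p, map_smul, Pi.smul_apply, smul_eq_mul]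

lemma transvection_isBorel {m : ℕ} {s i : Fin m} (h : s < i) (t : ℂ) :
    IsBorel (Matrix.transvection s i t) := by
  constructor
  · intro p q hpq
    rw [Matrix.transvection, Matrix.add_apply, Matrix.one_apply_ne hpq.ne', zero_add,
      Matrix.single_apply, if_neg]
    rintro ⟨h1, h2⟩
    subst h1 h2
    exact lt_asymm h hpq
  · intro p
    rw [Matrix.transvection, Matrix.add_apply, Matrix.one_apply_eq, Matrix.single_apply, if_neg]
    · simp
    · rintro ⟨h1, h2⟩
      exact h.ne (h1.trans h2.symm)

lemma transvection_diag {m : ℕ} {s i : Fin m} (h : s < i) (t : ℂ) (p : Fin m) :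
    (Matrix.transvection s i t) p p = 1 := by
  rw [Matrix.transvection, Matrix.add_apply, Matrix.one_apply_eq, Matrix.single_apply, if_neg,
    add_zero]
  rintro ⟨h1, h2⟩
  exact h.ne (h1.trans h2.symm)

/-- **(A3)** Highest weight polynomials are exactly the polynomials of highest weight functions. -/
theorem mem_HW_iff_HWF {B m : ℕ} {lam : Fin m → ℕ} {f : MvPolynomial (Fin m × Fin B) ℂ} :
    f ∈ HW m (Fin B) lam ↔ HWF B m lam (evalP B m f) := by
  classical
  refine ⟨HWF_evalP, fun hf => ?_⟩
  refine ⟨fun v hv i => ?_, fun s i hsi => ?_⟩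
  · have hB : IsBorel (Matrix.diagonal (Function.update (fun _ : Fin m => (1 : ℂ)) i 2)) := by
      constructor
      · intro p q hpq
        exact Matrix.diagonal_apply_ne _ hpq.ne'
      · intro p
        rw [Matrix.diagonal_apply_eq]
        by_cases h : p = i
        · subst h
          rw [Function.update_self]
          exact two_ne_zero
        · rw [Function.update_of_ne h]
          exact one_ne_zero
    have h1 := polyAct_of_HWF hf hB
    have h2 : (∏ k, (Matrix.diagonal (Function.update (fun _ : Fin m => (1 : ℂ)) i 2)) k k ^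
        lam k) = 2 ^ lam i := by
      rw [Finset.prod_eq_single i]
      · rw [Matrix.diagonal_apply_eq, Function.update_self]
      · intro k _ hk
        rw [Matrix.diagonal_apply_eq, Function.update_of_ne hk, one_pow]
      · intro h
        exact absurd (Finset.mem_univ _) h
    rw [h2] at h1
    have h3 := congrArg (coeff v) h1
    rw [coeff_smul, polyAct_diag_coeff, smul_eq_mul] at h3
    have h4 : (2 : ℂ) ^ (∑ j, v (i, j)) = 2 ^ lam i := by
      have h5 : (∏ k, (Function.update (fun _ : Fin m => (1 : ℂ)) i 2) k ^ (∑ j, v (k, j))) =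
          2 ^ (∑ j, v (i, j)) := by
        rw [Finset.prod_eq_single i]
        · rw [Function.update_self]
        · intro k _ hk
          rw [Function.update_of_ne hk, one_pow]
        · intro h
          exact absurd (Finset.mem_univ _) h
      rw [h5] at h3
      exact mul_right_cancel₀ hv h3
    have h6 : ((2 ^ (∑ j, v (i, j)) : ℕ) : ℂ) = ((2 ^ lam i : ℕ) : ℂ) := by
      push_cast
      exact h4
    exact Nat.pow_right_injective le_rfl (Nat.cast_injective h6)
  · apply rowOp_of_polyAct hsi.ne
    intro t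
    rw [polyAct_of_HWF hf (transvection_isBorel hsi t)]
    simp only [transvection_diag hsi, one_pow, Finset.prod_const_one, one_smul]

/-- The highest weight polynomials which have degree `a` in each column. -/
noncomputable def HWcol (m B a : ℕ) (lam : Fin m → ℕ) :
    Submodule ℂ (MvPolynomial (Fin m × Fin B) ℂ) :=
  HW m (Fin B) lam ⊓ ColS m B a

/-- The highest weight functions are the functions of highest weight polynomials. -/
theorem HWS_eq_map (B m a : ℕ) (lam : Fin m → ℕ) :
    HWS B m a lam = (HWcol m B a lam).map (evalP B m) := by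
  apply le_antisymm
  · rintro G ⟨hG, hw⟩
    obtain ⟨f, hf, rfl⟩ := exists_evalP hG
    exact ⟨f, ⟨mem_HW_iff_HWF.2 hw, mem_ColS.2 hf⟩, rfl⟩
  · rintro _ ⟨f, hf, rfl⟩
    exact ⟨evalP_mem (mem_ColS.1 hf.2), HWF_evalP hf.1⟩

lemma evalP_injective (B m : ℕ) : Function.Injective (evalP B m) := fun _ _ h => evalP_inj h

theorem finrank_HWS (B m a : ℕ) (lam : Fin m → ℕ) :
    Module.finrank ℂ (HWS B m a lam) = Module.finrank ℂ (HWcol m B a lam) := by
  rw [HWS_eq_map]
  exact (LinearEquiv.finrank_eq
    (Submodule.equivMapOfInjective (evalP B m) (evalP_injective B m) (HWcol m B a lam))).symm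

/-- **(A1)**, polynomial form. -/
theorem plethMult_le_finrank_HW {a b m : ℕ} {lam : Fin m → ℕ} :
    plethMult a b m lam ≤ Module.finrank ℂ (HW m (Fin a) lam) := by
  refine plethMult_le_finrank_HWS.trans ((finrank_HWS a m b lam).le.trans ?_)
  exact Submodule.finrank_mono inf_le_left

/-- Symmetrization over the columns. -/
noncomputable def symP (B m : ℕ) : MvPolynomial (Fin m × Fin B) ℂ →ₗ[ℂ]
    MvPolynomial (Fin m × Fin B) ℂ :=
  ∑ s : Equiv.Perm (Fin B), (rename (fun ij : Fin m × Fin B => (ij.1, s ij.2))).toLinearMap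

lemma symP_apply {B m : ℕ} (f : MvPolynomial (Fin m × Fin B) ℂ) :
    symP B m f = ∑ s : Equiv.Perm (Fin B), rename (fun ij => (ij.1, s ij.2)) f := by
  rw [symP, LinearMap.sum_apply]
  rfl

lemma evalP_symP {B m : ℕ} (f : MvPolynomial (Fin m × Fin B) ℂ) :
    evalP B m (symP B m f) = symF B m (evalP B m f) := by
  funext p
  rw [symP_apply, map_sum, Finset.sum_apply, symF_apply]
  refine Finset.sum_congr rfl fun s _ => ?_
  rw [evalP_apply, evalP_apply, eval_rename]
  rfl

/-- **(A2)**, polynomial form. -/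
theorem plethMult_ge_poly {b a m : ℕ} {lam : Fin m → ℕ} {ι : Type*} [Fintype ι]
    (f : ι → MvPolynomial (Fin m × Fin b) ℂ) (hf : ∀ i, f i ∈ HW m (Fin b) lam)
    (hc : ∀ i, ColHom a (f i)) (hli : LinearIndependent ℂ (fun i => symP b m (f i))) :
    Fintype.card ι ≤ plethMult b a m lam := by
  refine plethMult_ge (fun i => evalP b m (f i)) (fun i => evalP_mem (hc i))
    (fun i => HWF_evalP (hf i)) ?_
  have h := hli.map' (evalP b m) (LinearMap.ker_eq_bot.2 (evalP_injective b m))
  have h2 : (evalP b m ∘ fun i => symP b m (f i)) = fun i => fun p : Fin b → Fin m → ℂ =>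
      ∑ s : Equiv.Perm (Fin b), evalP b m (f i) (fun j => p (s j)) := by
    funext i p
    exact congrFun (evalP_symP (f i)) p
  rwa [h2] at h

end Vale.Agent.P181.T4
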