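import Vale.Agent.P181.H503.NatAll
import Vale.Agent.P181.H310.T54

/-!
P181: only the number of the short rows has to be bounded. From the clause for shapes with a
bounded number of rows, and the product criterion, to shapes with a bounded number of rows of
length at most `a ^ (1 + ε)` and any number of longer rows.
-/

set_option autoImplicit false

open Filter

namespace Vale.Agent.P181.H411.Sh

open Vale.Agent.P181 Vale.Agent.P181.T4 Vale.Agent.P181.T7 Vale.Agent.P181.H280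

/-- The clause for shapes with a bounded number of rows. -/
def Few : Prop := ∀ (n : ℕ) (ε : ℝ), 0 < ε → ∃ C : ℝ, ∀ (a b m : ℕ) (lam : Fin m → ℕ),
  C * (a : ℝ) ^ (1 + ε) ≤ b → (Finset.univ.filter (fun i => lam i ≠ 0)).card ≤ n →
    plethMult a b m lam ≤ plethMult b a m lam

/-- The clause with constants, for all large `a`. -/
theorem ev_few (hZ : Few) (n : ℕ) (ε : ℝ) (hε : 0 < ε) : ∀ᶠ a : ℕ in atTop, ∀ b : ℕ,
    (a : ℝ) ^ (1 + ε) ≤ b → ∀ (m : ℕ) (lam : Fin m → ℕ),
    (Finset.univ.filter (fun i => lam i ≠ 0)).card ≤ n →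
    plethMult a b m lam ≤ plethMult b a m lam := by
  obtain ⟨C, hC⟩ := hZ n (ε / 2) (by linarith)
  have h1 : Tendsto (fun a : ℕ => (a : ℝ) ^ (ε / 2)) atTop atTop :=
    (tendsto_rpow_atTop (by linarith : 0 < ε / 2)).comp tendsto_natCast_atTop_atTop
  filter_upwards [h1.eventually_ge_atTop C, eventually_ge_atTop 1] with a ha ha1 b hb m lam hl
  apply hC a b m lam _ hl
  have ha0 : (0 : ℝ) < a := by exact_mod_cast ha1
  calc C * (a : ℝ) ^ (1 + ε / 2) ≤ (a : ℝ) ^ (ε / 2) * (a : ℝ) ^ (1 + ε / 2) :=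
        mul_le_mul_of_nonneg_right ha (by positivity)
    _ = (a : ℝ) ^ (1 + ε) := by
        rw [← Real.rpow_add ha0]
        congr 1
        ring
    _ ≤ b := hb

/-- **Few short rows**, for all large `a`. -/
theorem ev_short (hZ : Few) (n : ℕ) (ε : ℝ) (hε : 0 < ε) : ∀ᶠ a : ℕ in atTop, ∀ b : ℕ,
    (a : ℝ) ^ (1 + ε) ≤ b → ∀ lam : Fin a → ℕ, Antitone lam → ∑ i, lam i = a * b →
    (∀ s : Finset ℕ, (∀ i ∈ s, 0 < ex lam i ∧ (ex lam i : ℝ) ≤ (a : ℝ) ^ (1 + ε)) → s.card ≤ n) →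
    plethMult a b a lam ≤ plethMult b a a lam := by
  classical
  rcases le_or_gt 1 ε with hε1 | hε1
  · filter_upwards [eventually_ge_atTop 1] with a ha b hb lam _ _ _
    apply H463.big_stmt
    have ha0 : (1 : ℝ) ≤ a := by exact_mod_cast ha
    have h1 : (a : ℝ) ^ (2 : ℝ) ≤ (a : ℝ) ^ (1 + ε) :=
      Real.rpow_le_rpow_of_exponent_le ha0 (by linarith)
    have h2 : (a : ℝ) ^ 2 ≤ b := by
      rw [← Real.rpow_natCast]
      exact_mod_cast h1.trans hb
    have h3 : a ^ 2 ≤ b := by exact_mod_cast h2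
    exact (Nat.pow_le_pow_left (Nat.sub_le a 1) 2).trans h3
  set M : ℕ := ⌈2 / ε⌉₊ + 1 with hM
  have hMε : 1 ≤ (M : ℝ) * (ε / 2) := by
    have h1 : 2 / ε ≤ (⌈2 / ε⌉₊ : ℝ) := Nat.le_ceil _
    have h2 : (M : ℝ) = (⌈2 / ε⌉₊ : ℝ) + 1 := by rw [hM]; push_cast; ring
    have h3 : 2 / ε ≤ (M : ℝ) := by linarith
    calc (1 : ℝ) = 2 / ε * (ε / 2) := by field_simp
      _ ≤ (M : ℝ) * (ε / 2) := mul_le_mul_of_nonneg_right h3 (by linarith)
  filter_upwards [ev_few hZ (M + n) ε hε,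
    H412.nat10 H503.typeStmt (T8.caseI_zero H59.Des6All.lb9) (ε / 2) (by linarith),
    eventually_ge_atTop 1] with a h1 h2 ha b hb lam hlam hsum hs
  have ha0 : (1 : ℝ) ≤ a := by exact_mod_cast ha
  by_cases hM1 : (a : ℝ) ^ (1 + ε) < ex lam M
  · apply h2 b ((Real.rpow_le_rpow_of_exponent_le ha0 (by linarith)).trans hb) lam hlam hsum
    refine ⟨M, ?_⟩
    have h3 : ∏ _i ∈ Finset.Ico 1 (M + 1), (a : ℝ) ^ (1 + ε) ≤
        ∏ i ∈ Finset.Ico 1 (M + 1), min (ex lam i : ℝ) ((a : ℝ) ^ 2) := by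
      apply Finset.prod_le_prod (fun _ _ => by positivity)
      intro i hi
      have hi' := Finset.mem_Ico.1 hi
      apply le_min
      · refine hM1.le.trans ?_
        exact_mod_cast ex_anti hlam (by omega : i ≤ M)
      · have h4 : (a : ℝ) ^ (1 + ε) ≤ (a : ℝ) ^ (2 : ℝ) :=
          Real.rpow_le_rpow_of_exponent_le ha0 (by linarith)
        refine h4.trans (le_of_eq ?_)
        rw [← Real.rpow_natCast]
        norm_num
    refine le_trans ?_ h3
    rw [Finset.prod_const, Nat.card_Ico, Nat.add_sub_cancel, ← Real.rpow_natCast,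
      ← Real.rpow_mul (by linarith)]
    apply Real.rpow_le_rpow_of_exponent_le ha0
    nlinarith
  · push Not at hM1
    apply h1 b hb a lam
    -- the long rows have indices below `M`
    have h3 : ((Finset.univ.filter (fun i : Fin a => lam i ≠ 0)).image Fin.val) ⊆
        Finset.range M ∪ (Finset.range a).filter (fun i => M ≤ i ∧ 0 < ex lam i) := by
      intro i hi
      obtain ⟨j, hj, rfl⟩ := Finset.mem_image.1 hi
      rw [Finset.mem_filter] at hj
      rw [Finset.mem_union, Finset.mem_range, Finset.mem_filter, Finset.mem_range]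
      rcases Nat.lt_or_ge (j : ℕ) M with h4 | h4
      · exact Or.inl h4
      · refine Or.inr ⟨j.2, h4, ?_⟩
        rw [ex, dif_pos j.2]
        exact Nat.pos_of_ne_zero hj.2
    have h4 := Finset.card_le_card h3
    rw [Finset.card_image_of_injective _ Fin.val_injective] at h4
    have h5 := Finset.card_union_le (Finset.range M)
      ((Finset.range a).filter (fun i => M ≤ i ∧ 0 < ex lam i))
    rw [Finset.card_range] at h5
    have h6 := hs ((Finset.range a).filter (fun i => M ≤ i ∧ 0 < ex lam i)) (by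
      intro i hi
      rw [Finset.mem_filter] at hi
      refine ⟨hi.2.2, le_trans ?_ hM1⟩
      exact_mod_cast ex_anti hlam hi.2.1)
    omega

/-- **Few short rows**: if at most `n` rows have length in `(0, a ^ (1 + ε)]` (and any number of
rows is longer) and `b ≥ C a ^ (1 + ε)`, then Foulkes' inequality holds. -/
theorem short_of_few (hZ : Few) (n : ℕ) (ε : ℝ) (hε : 0 < ε) : ∃ C : ℝ, 1 ≤ C ∧
    ∀ (a b m : ℕ) (lam : Fin m → ℕ), C * (a : ℝ) ^ (1 + ε) ≤ b →
    (Finset.univ.filter (fun i => 0 < lam i ∧ (lam i : ℝ) ≤ (a : ℝ) ^ (1 + ε))).card ≤ n →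
    plethMult a b m lam ≤ plethMult b a m lam := by
  classical
  obtain ⟨C, hC1, hC⟩ := H412.const_of_eventually' (x := 1 + ε) (by linarith)
    (fun a _ f => ∀ s : Finset ℕ, (∀ i ∈ s, 0 < f i - f (i + 1) ∧
      ((f i - f (i + 1) : ℕ) : ℝ) ≤ (a : ℝ) ^ (1 + ε)) → s.card ≤ n)
    (fun _ _ _ _ h => h) (by
      filter_upwards [ev_short hZ n ε hε] with a ha b hb lam hlam hsum hs
      apply ha b hb lam hlam hsum
      intro s hs'
      apply hs s
      intro i hi
      have h1 := hs' i hi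
      rw [H412.ex_below] at h1
      exact h1)
  refine ⟨C, hC1, fun a b m lam hb hl => hC a b m lam hb ?_⟩
  intro s hs
  refine le_trans ?_ hl
  have h1 : s ⊆ (Finset.univ.filter (fun i : Fin m => 0 < lam i ∧
      (lam i : ℝ) ≤ (a : ℝ) ^ (1 + ε))).image Fin.val := by
    intro i hi
    have h2 := hs i hi
    rw [← H412.ex_cells] at h2
    have hi' : i < m := by
      by_contra hcon
      rw [ex, dif_neg hcon] at h2
      exact absurd h2.1 (lt_irrefl 0)
    rw [ex, dif_pos hi'] at h2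
    exact Finset.mem_image.2 ⟨⟨i, hi'⟩, Finset.mem_filter.2 ⟨Finset.mem_univ _, h2⟩, rfl⟩
  exact (Finset.card_le_card h1).trans Finset.card_image_le

/-- The same with the quantifiers in the order of the hand-in. -/
theorem short_rows (H : ∀ (n : ℕ) (ε : ℝ), 0 < ε → ∃ C : ℝ, ∀ a b : ℕ,
    C * (a : ℝ) ^ (1 + ε) ≤ b → ∀ (m : ℕ) (lam : Fin m → ℕ),
    (Finset.univ.filter fun i => lam i ≠ 0).card ≤ n →
    plethMult a b m lam ≤ plethMult b a m lam) (n : ℕ) (ε : ℝ) (hε : 0 < ε) :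
    ∃ C : ℝ, 1 ≤ C ∧ ∀ a b : ℕ, C * (a : ℝ) ^ (1 + ε) ≤ b → ∀ (m : ℕ) (lam : Fin m → ℕ),
    (Finset.univ.filter fun i => 0 < lam i ∧ (lam i : ℝ) ≤ (a : ℝ) ^ (1 + ε)).card ≤ n →
    plethMult a b m lam ≤ plethMult b a m lam := by
  obtain ⟨C, hC1, hC⟩ := short_of_few (fun n ε hε => by
    obtain ⟨C, hC⟩ := H n ε hε
    exact ⟨C, fun a b m lam hb hl => hC a b hb m lam hl⟩) n ε hε
  exact ⟨C, hC1, fun a b hb m lam hl => hC a b m lam hb hl⟩

end Vale.Agent.P181.H411.Sh
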