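import Vale.Agent.P181.H502.Surplus

/-!
# P181 (T6): frames, chains and guards

`Q` = points (special and normal), every point `q` lies in the superblock `sb q` and there in the
half-block `hb q`. Pure letters of class `r` are numbered by `g < w r`; the frame `g` consists of the
letters `(r, g)`. Patterns: the guard `(g, u, v, e)` has the half-blocks `u, v` of the superblock `g`
in its bottom and the frame `g + e` on top; the chain `(g, β, e)` has in row `r` the letter
`g + (bit β of r xor e)`.
-/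

set_option autoImplicit false

open scoped Classical

namespace Vale.Agent.P181.H411

open Finset

/-- The data of the guards, frames and chains. -/
structure Tops (R : ℕ) (Q C : Type) where
  /-- number of bits of a class index -/
  B : ℕ
  hB : R ≤ 2 ^ B
  /-- number of superblocks -/
  G : ℕ
  /-- number of half-blocks of a superblock -/
  x : ℕ
  /-- number of pure letters -/
  w : Fin R → ℕ
  w_anti : Antitone w
  hw : ∀ r, G + 1 ≤ w r
  /-- a bound for the number of frames -/
  W : ℕ
  hW : ∀ r, w r ≤ W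
  sb : Q → ℕ
  sb_lt : ∀ q, sb q < G
  hb : Q → Fin x
  /-- the columns of the patterns -/
  kap : (Fin G × Fin x × Fin x × Bool) ⊕ (Fin W × Fin (B + 1) × Bool) → C
  kap_inj : Function.Injective kap

namespace Tops

variable {R : ℕ} {Q C : Type} (D : Tops R Q C)

/-- the guard patterns -/
abbrev Gd : Type := Fin D.G × Fin D.x × Fin D.x × Bool

/-- the chain patterns -/
abbrev Ch : Type := Fin D.W × Fin (D.B + 1) × Bool

/-- the letters: pure letters and points -/
abbrev Pos : Type := (Σ r : Fin R, Fin (D.w r)) ⊕ Q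

/-- the number of the letter of class `r` used by a pattern -/
def idx (r : Fin R) : D.Gd ⊕ D.Ch → ℕ
  | Sum.inl p => p.1 + p.2.2.2.toNat
  | Sum.inr p => p.1 + (xor (Nat.testBit r p.2.1) p.2.2).toNat

/-- the columns in which the row `r` is served by the letter `(r, g)` -/
noncomputable def pre (r : Fin R) (g : ℕ) : Finset C :=
  (univ.filter fun p : D.Gd ⊕ D.Ch => D.idx r p = g).image D.kap

theorem mem_pre {r : Fin R} {g : ℕ} {c : C} :
    c ∈ D.pre r g ↔ ∃ p, D.idx r p = g ∧ D.kap p = c := by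
  simp [pre]

theorem pre_disj (r : Fin R) {g g' : ℕ} (h : g ≠ g') : Disjoint (D.pre r g) (D.pre r g') := by
  rw [disjoint_left]
  intro c hc hc'
  obtain ⟨p, h1, h2⟩ := D.mem_pre.1 hc
  obtain ⟨p', h1', h2'⟩ := D.mem_pre.1 hc'
  have h3 := D.kap_inj (h2.trans h2'.symm)
  subst h3
  exact h (h1.symm.trans h1')

theorem card_pre_le (r : Fin R) (g : ℕ) :
    (D.pre r g).card ≤ 2 * D.x ^ 2 + 2 * (D.B + 1) := by
  refine le_trans card_image_le ?_
  let f : D.Gd ⊕ D.Ch → (Fin D.x × Fin D.x × Bool) ⊕ (Fin (D.B + 1) × Bool) :=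
    Sum.map (fun p => p.2) (fun p => p.2)
  have h1 : ((univ.filter fun p : D.Gd ⊕ D.Ch => D.idx r p = g).image f).card ≤
      2 * D.x ^ 2 + 2 * (D.B + 1) := by
    refine le_trans (card_le_univ _) (le_of_eq ?_)
    simp only [Fintype.card_sum, Fintype.card_prod, Fintype.card_fin, Fintype.card_bool]
    ring
  rw [card_image_of_injOn] at h1
  · exact h1
  · intro p hp q hq hpq
    rw [coe_filter, Set.mem_ofPred_eq] at hp hq
    have hp2 := hp.2
    have hq2 := hq.2
    rcases p with ⟨p1, p2⟩ | ⟨p1, p2⟩ <;> rcases q with ⟨q1, q2⟩ | ⟨q1, q2⟩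
    · simp only [f, Sum.map_inl, Sum.inl.injEq] at hpq
      subst hpq
      simp only [idx] at hp2 hq2
      have : p1 = q1 := Fin.ext (by omega)
      rw [this]
    · simp [f] at hpq
    · simp [f] at hpq
    · simp only [f, Sum.map_inr, Sum.inr.injEq] at hpq
      subst hpq
      simp only [idx] at hp2 hq2
      have : p1 = q1 := Fin.ext (by omega)
      rw [this]

/-- the prescribed points of a guard -/
noncomputable def gset [Fintype Q] (p : D.Gd) : Finset Q :=
  univ.filter fun q => D.sb q = p.1 ∧ (D.hb q = p.2.1 ∨ D.hb q = p.2.2.1)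

theorem mem_gset [Fintype Q] {p : D.Gd} {q : Q} :
    q ∈ D.gset p ↔ D.sb q = p.1 ∧ (D.hb q = p.2.1 ∨ D.hb q = p.2.2.1) := by
  simp [gset]

theorem card_gset_le [Fintype Q] {h : ℕ}
    (hh : ∀ (g : ℕ) (u : Fin D.x), (univ.filter fun q => D.sb q = g ∧ D.hb q = u).card ≤ h)
    (p : D.Gd) : (D.gset p).card ≤ 2 * h := by
  have h1 : D.gset p ⊆ (univ.filter fun q => D.sb q = p.1 ∧ D.hb q = p.2.1) ∪
      (univ.filter fun q => D.sb q = p.1 ∧ D.hb q = p.2.2.1) := by
    intro q hq
    obtain ⟨h1, h2⟩ := D.mem_gset.1 hq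
    rw [mem_union, mem_filter, mem_filter]
    rcases h2 with h2 | h2
    · exact Or.inl ⟨mem_univ _, h1, h2⟩
    · exact Or.inr ⟨mem_univ _, h1, h2⟩
  have h2 := le_trans (card_le_card h1) (card_union_le _ _)
  have h3 := hh p.1 p.2.1
  have h4 := hh p.1 p.2.2.1
  omega

/-- every point lies in at most `4 x` guards. -/
theorem deg_gset_le [Fintype Q] (q : Q) :
    (univ.filter fun p : D.Gd => q ∈ D.gset p).card ≤ 4 * D.x := by
  let f1 : Fin D.x × Bool → D.Gd := fun y => (⟨D.sb q, D.sb_lt q⟩, D.hb q, y.1, y.2)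
  let f2 : Fin D.x × Bool → D.Gd := fun y => (⟨D.sb q, D.sb_lt q⟩, y.1, D.hb q, y.2)
  have h1 : (univ.filter fun p : D.Gd => q ∈ D.gset p) ⊆ univ.image f1 ∪ univ.image f2 := by
    rintro ⟨g, u, v, e⟩ hp
    rw [mem_filter, mem_gset] at hp
    obtain ⟨-, hg, huv⟩ := hp
    simp only at hg huv
    have hg' : (⟨D.sb q, D.sb_lt q⟩ : Fin D.G) = g := Fin.ext hg
    rw [mem_union, mem_image, mem_image]
    rcases huv with hu | hv
    · left
      exact ⟨(v, e), mem_univ _, by simp only [f1]; rw [hg', hu]⟩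
    · right
      exact ⟨(u, e), mem_univ _, by simp only [f2]; rw [hg', hv]⟩
  have h2 := le_trans (card_le_card h1) (card_union_le _ _)
  have h3 : (univ.image f1).card ≤ 2 * D.x := by
    refine le_trans card_image_le (le_of_eq ?_)
    rw [card_univ, Fintype.card_prod, Fintype.card_fin, Fintype.card_bool]
    ring
  have h4 : (univ.image f2).card ≤ 2 * D.x := by
    refine le_trans card_image_le (le_of_eq ?_)
    rw [card_univ, Fintype.card_prod, Fintype.card_fin, Fintype.card_bool]
    ring
  omega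

/-! ### The conflicts -/

variable (known : C → D.Pos → Prop)

/-- **Types**: the classes are forced. -/
theorem types [Fintype Q]
    (h1 : ∀ (r : Fin R) (g : Fin (D.w r)), ∀ c ∈ D.pre r g, known c (Sum.inl ⟨r, g⟩))
    (h2 : ∀ (p : D.Gd), ∀ q ∈ D.gset p, known (D.kap (Sum.inl p)) (Sum.inr q))
    (X : Fin R → Finset D.Pos)
    (hdis : ∀ r r', r ≠ r' → Disjoint (X r) (X r'))
    (hind : ∀ r, ∀ p ∈ X r, ∀ q ∈ X r, p ≠ q → ∀ c, ¬ (known c p ∧ known c q))
    (hcard : ∀ r, (X r).card = D.w r) :
    ∃ π : Equiv.Perm (Fin R), ∀ r, D.w (π r) = D.w r ∧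
      ∀ p, p ∈ X r ↔ ∃ t : Σ r : Fin R, Fin (D.w r), p = Sum.inl t ∧ t.1 = π r := by
  have hw0 : ∀ r, 0 < D.w r := fun r => by have := D.hw r; omega
  let conf : D.Pos → D.Pos → Prop := fun p q => ∃ c, known c p ∧ known c q
  let pl : Fin R → ℕ → D.Pos := fun r g =>
    if h : g < D.w r then Sum.inl ⟨r, ⟨g, h⟩⟩ else Sum.inl ⟨r, ⟨0, hw0 r⟩⟩
  have hpl : ∀ r g (h : g < D.w r), pl r g = Sum.inl ⟨r, ⟨g, h⟩⟩ := fun r g h => dif_pos h
  let N : D.Pos → Finset ℕ := fun o => match o with
    | Sum.inl _ => ∅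
    | Sum.inr q => {D.sb q, D.sb q + 1}
  -- letters used by a pattern
  have hpat : ∀ (p : D.Gd ⊕ D.Ch) (r : Fin R) (g : ℕ) (h : g < D.w r), D.idx r p = g →
      known (D.kap p) (pl r g) := by
    intro p r g h hp
    rw [hpl r g h]
    exact h1 r ⟨g, h⟩ _ (D.mem_pre.2 ⟨p, hp, rfl⟩)
  have hframe : ∀ r r' g, r ≠ r' → g < D.w r → g < D.w r' → conf (pl r g) (pl r' g) := by
    intro r r' g _ hg hg'
    have hgW : g < D.W := lt_of_lt_of_le hg (D.hW r)
    have hbit : ∀ s : Fin R, Nat.testBit s D.B = false := by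
      intro s
      exact Nat.testBit_lt_two_pow (lt_of_lt_of_le s.2 D.hB)
    refine ⟨D.kap (Sum.inr (⟨g, hgW⟩, ⟨D.B, Nat.lt_succ_self _⟩, false)), ?_, ?_⟩
    · apply hpat _ _ _ hg
      simp only [idx]
      rw [hbit]
      rfl
    · apply hpat _ _ _ hg'
      simp only [idx]
      rw [hbit]
      rfl
  have hchain : ∀ r r' g, r ≠ r' → g < D.w r → g + 1 < D.w r' →
      conf (pl r g) (pl r' (g + 1)) := by
    intro r r' g hne hg hg'
    have hgW : g < D.W := lt_of_lt_of_le hg (D.hW r)
    obtain ⟨β, hβ⟩ : ∃ β, Nat.testBit r β ≠ Nat.testBit r' β := by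
      by_contra hcon
      push Not at hcon
      exact hne (Fin.ext (Nat.eq_of_testBit_eq hcon))
    have hβB : β < D.B + 1 := by
      by_contra hcon
      apply hβ
      have hpow : ∀ s : Fin R, (s : ℕ) < 2 ^ β := by
        intro s
        have h3 : (2 : ℕ) ^ D.B ≤ 2 ^ β := Nat.pow_le_pow_right (by norm_num) (by omega)
        have := s.2
        have := D.hB
        omega
      rw [Nat.testBit_lt_two_pow (hpow r), Nat.testBit_lt_two_pow (hpow r')]
    refine ⟨D.kap (Sum.inr (⟨g, hgW⟩, ⟨β, hβB⟩, Nat.testBit r β)), ?_, ?_⟩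
    · apply hpat _ _ _ hg
      simp [idx]
    · apply hpat _ _ _ hg'
      simp only [idx]
      have : xor (Nat.testBit r' β) (Nat.testBit r β) = true := by
        cases h3 : Nat.testBit r β <;> cases h4 : Nat.testBit r' β <;> simp_all
      rw [this]
      rfl
  have hpts : ∀ o : D.Pos, (∀ r g, g < D.w r → o ≠ pl r g) → ∃ q, o = Sum.inr q := by
    intro o ho
    rcases o with ⟨r, g⟩ | q
    · exact absurd (hpl r g g.2).symm (ho r g g.2)
    · exact ⟨q, rfl⟩
  have hguard : ∀ (q : Q) (v : Fin D.x) (e : Bool),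
      known (D.kap (Sum.inl (⟨D.sb q, D.sb_lt q⟩, D.hb q, v, e))) (Sum.inr q) := by
    intro q v e
    exact h2 _ q (D.mem_gset.2 ⟨rfl, Or.inl rfl⟩)
  obtain ⟨π, hπ⟩ := H502.surplus conf D.w (D.G + 1) D.w_anti D.hw (Nat.succ_pos _) pl
    (by
      intro r g r' g' hg hg' h
      rw [hpl r g hg, hpl r' g' hg', Sum.inl.injEq, Sigma.mk.injEq] at h
      obtain ⟨rfl, h⟩ := h
      rw [heq_eq_eq] at h
      exact ⟨rfl, congrArg Fin.val h⟩)
    hframe hchain N
    (by
      intro o g hg
      rcases o with t | q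
      · simp [N] at hg
      · simp only [N, mem_insert, mem_singleton] at hg
        have := D.sb_lt q
        omega)
    (by
      intro o ho g hg r
      obtain ⟨q, rfl⟩ := hpts o ho
      simp only [N, mem_insert, mem_singleton] at hg
      have hgw : g < D.w r := by
        have := D.sb_lt q
        have := D.hw r
        omega
      rcases hg with hg | hg
      · refine ⟨_, hguard q (D.hb q) false, ?_⟩
        apply hpat _ _ _ hgw
        simp only [idx]
        rw [hg]
        rfl
      · refine ⟨_, hguard q (D.hb q) true, ?_⟩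
        apply hpat _ _ _ hgw
        simp only [idx]
        rw [hg]
        rfl)
    (by
      intro Y hY hne hconf
      have hY' : ∀ o ∈ Y, ∃ q, o = Sum.inr q := fun o ho => hpts o (hY o ho)
      let s : D.Pos → ℕ := fun o => match o with
        | Sum.inl _ => 0
        | Sum.inr q => D.sb q
      have hsinj : Set.InjOn s (Y : Set D.Pos) := by
        intro o ho o' ho' hss
        by_contra hne'
        obtain ⟨q, rfl⟩ := hY' o ho
        obtain ⟨q', rfl⟩ := hY' o' ho'
        simp only [s] at hss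
        apply hconf _ ho _ ho' hne'
        refine ⟨_, hguard q (D.hb q') false, ?_⟩
        exact h2 _ q' (D.mem_gset.2 ⟨hss.symm, Or.inr rfl⟩)
      have himg : (Y.image s).card = Y.card := card_image_of_injOn hsinj
      have hne2 : (Y.image s).Nonempty := hne.image s
      set M := (Y.image s).max' hne2 with hM
      have hMmem : M ∈ Y.image s := max'_mem _ _
      have hM1 : M + 1 ∉ Y.image s := by
        intro h
        have := le_max' _ _ h
        omega
      have hsub : insert (M + 1) (Y.image s) ⊆ Y.biUnion N := by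
        intro g hg
        rw [mem_insert, mem_image] at hg
        rw [mem_biUnion]
        rcases hg with hg | ⟨o, ho, hog⟩
        · rw [mem_image] at hMmem
          obtain ⟨o, ho, hoM⟩ := hMmem
          refine ⟨o, ho, ?_⟩
          obtain ⟨q, rfl⟩ := hY' o ho
          simp only [s] at hoM
          simp only [N, mem_insert, mem_singleton]
          right
          rw [hg, hoM]
        · refine ⟨o, ho, ?_⟩
          obtain ⟨q, rfl⟩ := hY' o ho
          simp only [s] at hog
          simp only [N, mem_insert, mem_singleton]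
          left
          exact hog.symm
      have h3 := card_le_card hsub
      rw [card_insert_of_notMem hM1, himg] at h3
      exact h3)
    X hdis
    (by
      intro r p hp q hq hpq hc
      obtain ⟨c, hc1, hc2⟩ := hc
      exact hind r p hp q hq hpq c ⟨hc1, hc2⟩)
    hcard
  refine ⟨π, fun r => ⟨(hπ r).1, fun p => ?_⟩⟩
  rw [(hπ r).2 p]
  constructor
  · rintro ⟨g, hg, rfl⟩
    have hg' : g < D.w (π r) := by rw [(hπ r).1]; exact hg
    exact ⟨⟨π r, ⟨g, hg'⟩⟩, hpl _ _ hg', rfl⟩
  · rintro ⟨⟨r', g⟩, rfl, hr'⟩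
    simp only at hr'
    subst hr'
    refine ⟨g, ?_, (hpl _ _ g.2).symm⟩
    rw [← (hπ r).1]
    exact g.2

end Tops

end Vale.Agent.P181.H411
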