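import Vale.Agent.P181.T9.Sub
import Vale.Agent.P181.H310.Typ

set_option autoImplicit false

/-!
# P181, T9 [C-TYP] and [C-CARD]: families of type multisets, digit ranges depending on the row

Adaptation of `H310/Typ.lean` (one class, `N / 2` pairs, the digit of the row `i` is at most
`h i`).
-/

namespace Vale.Agent.P181.H411.TypB

open Finset Vale.Agent.P181.T9 Vale.Agent.P181.H310

section

variable {N R : ℕ} {h : ℕ → ℕ}

/-- the pairs -/
def io (N : ℕ) (z : Fin (N / 2) × Bool) : Fin N :=
  ⟨2 * z.1 + (if z.2 then 1 else 0), by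
    have := z.1.isLt
    split_ifs <;> omega⟩

lemma io_inj (N : ℕ) : Function.Injective (io N) := by
  rintro ⟨p, b⟩ ⟨p', b'⟩ H
  have H1 := congrArg Fin.val H
  simp only [io] at H1
  cases b <;> cases b' <;> simp at H1
  · have : p = p' := Fin.ext (by omega)
    rw [this]
  · omega
  · omega
  · have : p = p' := Fin.ext (by omega)
    rw [this]

lemma io_left {q q' : Fin N} (h1 : ∀ z, io N z ≠ q) (h2 : ∀ z, io N z ≠ q') : q = q' := by
  have key : ∀ x : Fin N, (∀ z, io N z ≠ x) → (x : ℕ) = 2 * (N / 2) := by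
    intro x hx
    by_contra hne
    have hlt : (x : ℕ) / 2 < N / 2 := by
      have := x.isLt
      omega
    refine hx (⟨(x : ℕ) / 2, hlt⟩, decide ((x : ℕ) % 2 = 1)) (Fin.ext ?_)
    simp only [io, decide_eq_true_eq]
    split_ifs <;> omega
  exact Fin.ext ((key q h1).trans (key q' h2).symm)

/-- an enumeration of the chosen vectors -/
noncomputable def tenum (u : TypU R h (N / 2)) : Fin (N / 2) ≃ u.1 :=
  (u.1.equivFinOfCardEq u.2).symm

/-- signed digit -/
noncomputable def tsg (u : TypU R h (N / 2)) (z : Fin (N / 2) × Bool) (j : Fin (R - 1)) : ℤ :=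
  (if z.2 then 1 else -1) * (((tenum u z.1).1.1 j : ℕ) : ℤ)

/-- perturbation of a letter -/
noncomputable def txi (u : TypU R h (N / 2)) (q : Fin N) (j : Fin (R - 1)) : ℤ :=
  ∑ z, if io N z = q then tsg u z j else 0

lemma txi_apply (u : TypU R h (N / 2)) (z : Fin (N / 2) × Bool) (j : Fin (R - 1)) :
    txi u (io N z) j = tsg u z j := by
  unfold txi
  rw [Finset.sum_eq_single z]
  · simp
  · intro z' _ hz'
    rw [if_neg]
    exact fun h => hz' (io_inj N h)
  · simp

lemma txi_none (u : TypU R h (N / 2)) {q : Fin N} (hq : ∀ z, io N z ≠ q) (j : Fin (R - 1)) :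
    txi u q j = 0 := by
  unfold txi
  exact Finset.sum_eq_zero fun z _ => if_neg (hq z)

lemma sum_txi (u : TypU R h (N / 2)) (j : Fin (R - 1)) : ∑ q, txi u q j = 0 := by
  unfold txi
  rw [Finset.sum_comm]
  have : ∀ z : Fin (N / 2) × Bool, (∑ q, if io N z = q then tsg u z j else 0) = tsg u z j := by
    intro z
    simp
  rw [Finset.sum_congr rfl fun z _ => this z, Fintype.sum_prod_type]
  refine Finset.sum_eq_zero fun p _ => ?_
  simp [tsg]

lemma abs_txi (u : TypU R h (N / 2)) (q : Fin N) (j : Fin (R - 1)) : |txi u q j| ≤ h (j + 1) := by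
  by_cases hq : ∃ z, io N z = q
  · obtain ⟨z, rfl⟩ := hq
    rw [txi_apply]
    unfold tsg
    have h1 : (((tenum u z.1).1.1 j : ℕ) : ℤ) ≤ h (j + 1) := by
      have := ((tenum u z.1).1.1 j).isLt
      omega
    rw [abs_mul]
    have : |(if z.2 = true then (1:ℤ) else -1)| = 1 := by split_ifs <;> simp
    rw [this, one_mul, abs_of_nonneg (by positivity)]
    exact h1
  · push Not at hq
    rw [txi_none u hq]
    simp

/-- the perturbation in all rows -/
noncomputable def ty (u : TypU R h (N / 2)) (q : Fin N) (i : ℕ) : ℤ :=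
  if i = 0 then -∑ j : Fin (R - 1), txi u q j else
    if hi : i - 1 < R - 1 then txi u q ⟨i - 1, hi⟩ else 0

lemma ty_zero (u : TypU R h (N / 2)) (q : Fin N) :
    ty u q 0 = -∑ j : Fin (R - 1), txi u q j := by simp [ty]

lemma ty_succ (u : TypU R h (N / 2)) (q : Fin N) (j : Fin (R - 1)) :
    ty u q (j + 1) = txi u q j := by
  simp [ty]

lemma sum_ty (u : TypU R h (N / 2)) (i : ℕ) : ∑ q, ty u q i = 0 := by
  unfold ty
  by_cases h0 : i = 0
  · subst h0
    simp only [if_true]
    rw [Finset.sum_neg_distrib, Finset.sum_comm]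
    simp [sum_txi]
  · simp only [if_neg h0]
    by_cases hi : i - 1 < R - 1
    · simp only [dif_pos hi]
      exact sum_txi u _
    · simp [dif_neg hi]

lemma sum_ty_row (u : TypU R h (N / 2)) (q : Fin N) (hR : 0 < R) :
    ∑ i ∈ range R, ty u q i = 0 := by
  obtain ⟨e, rfl⟩ : ∃ e, R = e + 1 := ⟨R - 1, by omega⟩
  rw [Finset.sum_range_succ']
  rw [ty_zero]
  have h1 : ∑ j : Fin (e + 1 - 1), txi u q j = ∑ x ∈ range e, ty u q (x + 1) := by
    rw [← Fin.sum_univ_eq_sum_range (fun x => ty u q (x + 1)) e]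
    exact Finset.sum_congr rfl fun j _ => (ty_succ u q j).symm
  rw [h1]
  ring

lemma abs_ty (u : TypU R h (N / 2)) (q : Fin N) {i : ℕ} (hi : 1 ≤ i) : |ty u q i| ≤ h i := by
  unfold ty
  rw [if_neg (by omega)]
  split_ifs with h1
  · have := abs_txi u q ⟨i - 1, h1⟩
    have e : ((⟨i - 1, h1⟩ : Fin (R - 1)) : ℕ) + 1 = i := by
      show i - 1 + 1 = i
      omega
    rw [e] at this
    exact this
  · simp

lemma abs_ty_zero (u : TypU R h (N / 2)) (q : Fin N) :
    |ty u q 0| ≤ ((∑ i ∈ Ico 1 R, h i : ℕ) : ℤ) := by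
  rw [ty_zero, abs_neg]
  calc |∑ j : Fin (R - 1), txi u q j| ≤ ∑ j : Fin (R - 1), |txi u q j| :=
        Finset.abs_sum_le_sum_abs _ _
    _ ≤ ∑ j : Fin (R - 1), (h (j + 1) : ℤ) := Finset.sum_le_sum fun j _ => abs_txi u q j
    _ = ∑ x ∈ range (R - 1), (h (x + 1) : ℤ) :=
        Fin.sum_univ_eq_sum_range (fun x => (h (x + 1) : ℤ)) (R - 1)
    _ = ((∑ i ∈ Ico 1 R, h i : ℕ) : ℤ) := by
        rw [Finset.sum_Ico_eq_sum_range]
        push_cast
        refine Finset.sum_congr rfl fun x _ => ?_
        rw [add_comm]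

/-- the types, in `ℤ` -/
noncomputable def ttyp (R : ℕ) (s : Fin N → ℕ) (t : ℕ → ℕ) (u : TypU R h (N / 2)) (q : Fin N)
    (i : ℕ) : ℤ :=
  tbase R s t q i + 2 * ty u q i

end

/-- **[C-TYP]** -/
theorem typB : TypB := by
  classical
  intro N R s t h hR2 hst h1 h0
  have hR : 0 < R := by omega
  rcases Nat.eq_zero_or_pos N with hN0 | hN
  · -- no letters: no pairs, one index
    subst hN0
    refine ⟨fun _ q _ => q.elim0, ?_, fun _ q => q.elim0, fun _ q => q.elim0,
      fun _ q => q.elim0, fun _ q => q.elim0, ?_⟩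
    · intro u i hi
      have h3 : ∑ i ∈ range R, t i = 0 := by rw [hst]; simp
      rw [Finset.sum_eq_zero_iff] at h3
      have := h3 i (Finset.mem_range.2 hi)
      simp [this]
    · intro u u' _ _
      apply Subtype.ext
      exact (Finset.card_eq_zero.1 (u.2.trans (Nat.zero_div 2))).trans
        (Finset.card_eq_zero.1 (u'.2.trans (Nat.zero_div 2))).symm
  -- bounds
  have hpos : ∀ u : TypU R h (N / 2), ∀ q, ∀ i < R, (0 : ℤ) ≤ ttyp R s t u q i := by
    intro u q i hi
    unfold ttyp
    rcases Nat.eq_zero_or_pos i with hi0 | hi0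
    · subst hi0
      have h3 := abs_ty_zero u q
      have h4 := h0 q
      have h5 : (∑ j ∈ Ico 1 R, (((t j / N : ℕ) : ℤ) + if (q : ℕ) < t j % N then 1 else 0)) ≤
          ∑ j ∈ Ico 1 R, (((t j / N : ℕ) : ℤ) + 1) := by
        refine Finset.sum_le_sum fun j _ => ?_
        split_ifs <;> omega
      have h6 : ((1 + 2 * ∑ i ∈ Ico 1 R, h i + ∑ i ∈ Ico 1 R, (t i / N + 1) : ℕ) : ℤ) ≤ s q := by
        exact_mod_cast h4
      push_cast at h6
      push_cast at h5
      push_cast at h3
      have h7 : tbase R s t q 0 = (s q : ℤ) -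
        ∑ j ∈ Ico 1 R, ((t j / N : ℕ) + if (q : ℕ) < t j % N then 1 else 0) := by
        simp [tbase]
      rw [h7]
      push_cast
      have h8 := (abs_le.1 h3).1
      linarith
    · rw [tbase_pos s t q hi0]
      have h3 := (abs_le.1 (abs_ty u q hi0)).1
      have h4 := h1 i hi0 hi
      have h5 : (0:ℤ) ≤ if (q : ℕ) < t i % N then 1 else 0 := by split_ifs <;> simp
      have h6 : ((2 * h i : ℕ) : ℤ) ≤ (t i / N : ℕ) := by exact_mod_cast h4
      push_cast at h6 ⊢
      linarith
  have hpos0 : ∀ u : TypU R h (N / 2), ∀ q, (1 : ℤ) ≤ ttyp R s t u q 0 := by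
    intro u q
    unfold ttyp
    have h3 := abs_ty_zero u q
    have h4 := h0 q
    have h5 : (∑ j ∈ Ico 1 R, (((t j / N : ℕ) : ℤ) + if (q : ℕ) < t j % N then 1 else 0)) ≤
        ∑ j ∈ Ico 1 R, (((t j / N : ℕ) : ℤ) + 1) := by
      refine Finset.sum_le_sum fun j _ => ?_
      split_ifs <;> omega
    have h6 : ((1 + 2 * ∑ i ∈ Ico 1 R, h i + ∑ i ∈ Ico 1 R, (t i / N + 1) : ℕ) : ℤ) ≤ s q := by
      exact_mod_cast h4
    push_cast at h6
    push_cast at h5
    push_cast at h3
    have h7 : tbase R s t q 0 = (s q : ℤ) -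
      ∑ j ∈ Ico 1 R, ((t j / N : ℕ) + if (q : ℕ) < t j % N then 1 else 0) := by
      simp [tbase]
    rw [h7]
    push_cast
    have h8 := (abs_le.1 h3).1
    linarith
  have hnn : ∀ u : TypU R h (N / 2), ∀ q, ∀ i < R,
      (((ttyp R s t u q i).toNat : ℕ) : ℤ) = ttyp R s t u q i := by
    intro u q i hi
    exact Int.toNat_of_nonneg (hpos u q i hi)
  -- recovering the signed digits
  have hrec : ∀ u u' : TypU R h (N / 2), ∀ q q',
      (∀ i < R, (ttyp R s t u q i).toNat = (ttyp R s t u' q' i).toNat) →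
      (∀ j, txi u q j = txi u' q' j) := by
    intro u u' q q' H j
    have H' : ∀ i < R, ttyp R s t u q i = ttyp R s t u' q' i := by
      intro i hi
      rw [← hnn u q i hi, ← hnn u' q' i hi, H i hi]
    have h3 := H' (j + 1) (by have := j.isLt; omega)
    unfold ttyp at h3
    rw [ty_succ, ty_succ, tbase_pos s t q (by omega), tbase_pos s t q' (by omega)] at h3
    split_ifs at h3 <;> omega
  -- a positive digit vector of a letter
  have hdig : ∀ (u : TypU R h (N / 2)) (z : Fin (N / 2) × Bool), ∃ j : Fin (R - 1),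
      tsg u z j ≠ 0 ∧ (z.2 = true → 0 < tsg u z j) ∧ (z.2 = false → tsg u z j < 0) := by
    intro u z
    have hx := (tenum u z.1).1.2
    obtain ⟨j, hj⟩ := Function.ne_iff.1 hx
    have hj' : 0 < (((tenum u z.1).1.1 j : ℕ) : ℤ) := by
      have : ((tenum u z.1).1.1 j : ℕ) ≠ 0 := by
        intro h0
        exact hj (Fin.ext h0)
      omega
    refine ⟨j, ?_, ?_, ?_⟩
    · unfold tsg
      split_ifs <;> simp <;> omega
    · intro hb
      unfold tsg
      rw [if_pos hb]
      omega
    · intro hb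
      unfold tsg
      rw [if_neg (by simp [hb])]
      omega
  -- equal signed digits of two paired letters
  have hsame : ∀ (u u' : TypU R h (N / 2)) (z z' : Fin (N / 2) × Bool),
      (∀ j, tsg u z j = tsg u' z' j) →
      z.2 = z'.2 ∧ (tenum u z.1).1 = (tenum u' z'.1).1 := by
    intro u u' z z' H
    have hb : z.2 = z'.2 := by
      obtain ⟨j, _, hjt, hjf⟩ := hdig u z
      obtain ⟨j', _, hjt', hjf'⟩ := hdig u' z'
      have e1 := H j
      have e2 := H j'
      rcases Bool.eq_false_or_eq_true z.2 with hz | hz <;>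
        rcases Bool.eq_false_or_eq_true z'.2 with hz' | hz'
      · rw [hz, hz']
      · exfalso
        have a1 := hjt hz
        have a2 : tsg u' z' j ≤ 0 := by
          unfold tsg
          rw [if_neg (by simp [hz'])]
          have : (0:ℤ) ≤ (((tenum u' z'.1).1.1 j : ℕ) : ℤ) := by positivity
          omega
        omega
      · exfalso
        have a1 := hjf hz
        have a2 : 0 ≤ tsg u' z' j := by
          unfold tsg
          rw [if_pos hz']
          have : (0:ℤ) ≤ (((tenum u' z'.1).1.1 j : ℕ) : ℤ) := by positivity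
          omega
        omega
      · rw [hz, hz']
    refine ⟨hb, ?_⟩
    apply Subtype.ext
    funext j
    have h3 := H j
    unfold tsg at h3
    rw [hb] at h3
    apply Fin.ext
    split_ifs at h3 <;> omega
  refine ⟨fun u q i => (ttyp R s t u q i).toNat, ?_, ?_, ?_, ?_, ?_, ?_⟩
  · intro u i hi
    have h3 : ((∑ q, (ttyp R s t u q i).toNat : ℕ) : ℤ) = t i := by
      rw [Nat.cast_sum, Finset.sum_congr rfl fun q _ => hnn u q i hi]
      unfold ttyp
      rw [Finset.sum_add_distrib, ← Finset.mul_sum, sum_ty, mul_zero, add_zero]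
      rcases Nat.eq_zero_or_pos i with hi0 | hi0
      · subst hi0
        exact sum_tbase_zero hN hR s t hst
      · exact sum_tbase_pos hN s t hi0
    exact_mod_cast h3
  · intro u q
    have h3 : ((∑ i ∈ range R, (ttyp R s t u q i).toNat : ℕ) : ℤ) = s q := by
      rw [Nat.cast_sum, Finset.sum_congr rfl fun i hi => hnn u q i (Finset.mem_range.1 hi)]
      unfold ttyp
      rw [Finset.sum_add_distrib, ← Finset.mul_sum, sum_ty_row u q hR, tbase_row hR]
      ring
    exact_mod_cast h3
  · intro u q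
    have h3 := hpos0 u q
    rw [← hnn u q 0 hR] at h3
    exact_mod_cast h3
  · intro u q i hi1 hi
    have h3 : ((t i / N : ℕ) : ℤ) ≤ (((ttyp R s t u q i).toNat + 2 * h i : ℕ) : ℤ) := by
      rw [Nat.cast_add, hnn u q i hi]
      unfold ttyp
      rw [tbase_pos s t q hi1]
      have h4 := (abs_le.1 (abs_ty u q hi1)).1
      have h5 : (0:ℤ) ≤ if (q : ℕ) < t i % N then 1 else 0 := by split_ifs <;> simp
      rw [Nat.cast_mul]
      norm_num only [Nat.cast_ofNat]
      linarith
    exact_mod_cast h3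
  · intro u q q' H
    have hd := hrec u u q q' H
    by_cases hq : ∃ z, io N z = q
    · obtain ⟨z, rfl⟩ := hq
      by_cases hq' : ∃ z', io N z' = q'
      · obtain ⟨z', rfl⟩ := hq'
        simp only [txi_apply] at hd
        obtain ⟨hb, he⟩ := hsame u u z z' hd
        obtain ⟨p, b⟩ := z
        obtain ⟨p', b'⟩ := z'
        simp only at hb he
        subst hb
        have hp : p = p' := (tenum u).injective (Subtype.ext he)
        subst hp
        rfl
      · exfalso
        push Not at hq'
        obtain ⟨j, hj, _⟩ := hdig u z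
        have := hd j
        rw [txi_apply, txi_none u hq'] at this
        exact hj this
    · push Not at hq
      by_cases hq' : ∃ z', io N z' = q'
      · exfalso
        obtain ⟨z', rfl⟩ := hq'
        obtain ⟨j, hj, _⟩ := hdig u z'
        have := hd j
        rw [txi_apply, txi_none u hq] at this
        exact hj this.symm
      · push Not at hq'
        exact io_left hq hq'
  · intro u u' ρ H
    apply Subtype.ext
    have hsub : u.1 ⊆ u'.1 := by
      intro x hx
      obtain ⟨p, hp⟩ := (tenum u).surjective ⟨x, hx⟩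
      obtain ⟨q', hq'⟩ := ρ.surjective (io N (p, true))
      have H1 := H q'
      rw [hq'] at H1
      have hd := hrec u' u q' (io N (p, true)) H1
      by_cases hz : ∃ z', io N z' = q'
      · obtain ⟨⟨p', b'⟩, rfl⟩ := hz
        simp only [txi_apply] at hd
        obtain ⟨hb, he⟩ := hsame u' u (p', b') (p, true) hd
        simp only at hb he
        rw [hp] at he
        simp only at he
        rw [← he]
        exact (tenum u' p').2
      · exfalso
        push Not at hz
        obtain ⟨j, hj, _⟩ := hdig u (p, true)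
        have := hd j
        rw [txi_apply, txi_none u' hz] at this
        exact hj this.symm
    exact Finset.eq_of_subset_of_card_le hsub (by rw [u.2, u'.2])

lemma card_digB (R : ℕ) (h : ℕ → ℕ) :
    Fintype.card (DigB R h) = (∏ i ∈ Ico 1 R, (h i + 1)) - 1 := by
  classical
  have h2 := Fintype.card_subtype_compl
    (fun x : (j : Fin (R - 1)) → Fin (h (j + 1) + 1) => x = 0)
  rw [Fintype.card_subtype_eq, Fintype.card_pi] at h2
  have h3 : ∏ j : Fin (R - 1), Fintype.card (Fin (h (j + 1) + 1)) = ∏ i ∈ Ico 1 R, (h i + 1) := by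
    simp only [Fintype.card_fin]
    rw [Fin.prod_univ_eq_prod_range (fun x => h (x + 1) + 1) (R - 1),
      Finset.prod_Ico_eq_prod_range]
    exact Finset.prod_congr rfl fun x _ => by rw [add_comm 1 x]
  rw [h3] at h2
  exact h2

/-- **[C-CARD]** -/
theorem cardB : CardB := by
  classical
  intro N R h hN hR hV
  have hc : Fintype.card (TypU R h (N / 2)) =
      ((∏ i ∈ Ico 1 R, (h i + 1)) - 1).choose (N / 2) := by
    rw [Fintype.card_finset_len, card_digB]
  set V := (∏ i ∈ Ico 1 R, (h i + 1)) - 1 with hVdef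
  have hV' : 729 * N ≤ V := by omega
  set P := N / 2 with hP
  have hP1 : 1 ≤ P := by omega
  have hPN : P ≤ N := by omega
  have hP3 : N ≤ 3 * P := by omega
  rw [hc]
  have h1 := div_pow_le_choose (v := V) (P := P) (by omega)
  have h2 : (729 : ℝ) ≤ (V : ℝ) / P := by
    have hP0 : (0 : ℝ) < P := by exact_mod_cast hP1
    rw [le_div_iff₀ hP0]
    have : 729 * P ≤ V := by omega
    exact_mod_cast this
  have h3 : Real.exp (2 * N) ≤ (729 : ℝ) ^ P := by
    have e1 : Real.exp (2 * N) = (Real.exp 1) ^ (2 * N) := by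
      rw [← Real.exp_nat_mul]
      push_cast
      ring_nf
    have e2 : Real.exp 1 ≤ 3 := by
      have := Real.exp_one_lt_d9
      linarith
    calc Real.exp (2 * N) = (Real.exp 1) ^ (2 * N) := e1
      _ ≤ 3 ^ (2 * N) := pow_le_pow_left₀ (Real.exp_pos 1).le e2 _
      _ ≤ 3 ^ (6 * P) := pow_le_pow_right₀ (by norm_num) (by omega)
      _ = (729 : ℝ) ^ P := by rw [pow_mul]; norm_num
  exact h3.trans ((pow_le_pow_left₀ (by norm_num) h2 P).trans h1)

end Vale.Agent.P181.H411.TypB
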