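import Vale.Agent.P181.H411.LemG
import Vale.Agent.P181.H921.WTStep

/-!
P181, the upper bound for the kernel: definitions. Letters are functions `Fin (n + 1) → ℕ` (the
rows from the second one on), the letters `v` with `v i.succ ≠ 0` for some `i` have a cell in the
rows from the third one on.
-/

set_option autoImplicit false

open MvPolynomial

namespace Vale.Agent.P181.H411.UB

open Vale.Agent.P181 Vale.Agent.P181.H536 Vale.Agent.P181.H280 Vale.Agent.P181.TN
  Vale.Agent.P181.TW

/-- Affine polynomials. -/
abbrev Af (n : ℕ) := MvPolynomial (Fin (n + 1)) ℂ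

variable {n : ℕ}

/-- Dehomogenisation. -/
noncomputable def dh (n : ℕ) : Sn n →ₐ[ℂ] Af n := aeval (Fin.cons 1 X)

/-- Homogenisation in degree `b`, zero on the monomials of degree larger than `b`. -/
noncomputable def hom (n b : ℕ) : Af n →ₗ[ℂ] Sn n :=
  (basisMonomials (Fin (n + 1)) ℂ).constr ℂ (fun μ => if μ.degree ≤ b then
    X 0 ^ (b - μ.degree) * rename Fin.succ (monomial μ (1 : ℂ)) else 0)

/-- The entries. -/
noncomputable def el : Option (Fin (n + 1)) → Af n
  | none => 1
  | some i => X i

/-- The coefficient of the configuration `v` of `N` letters. -/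
noncomputable def cf (b : ℕ) {a N : ℕ} (v : Fin N → Fin (n + 1) → ℕ) (F : Fm n a) : ℂ :=
  ∑ T ∈ (Finset.univ : Finset (Fin a → Fin N → Option (Fin (n + 1)))).filter
    (fun T => ∀ j, co (fun s => T s j) = v j), F (fun s => hom n b (∏ j, el (T s j)))

end Vale.Agent.P181.H411.UB
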