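import Vale.Agent.P181.H411.USep
import Vale.Agent.P181.H921.UC5
import Vale.Agent.P181.Z.H201.CfPD
import Vale.Agent.P181.Z.H663.ProdU
import Vale.Agent.P181.Z.H663.Cnt
import Vale.Agent.P181.Z.H188.C2

/-!
P181, the upper bound for the kernel of the Foulkes-Howe map on highest weight vectors.
-/

set_option autoImplicit false

open scoped TensorProduct

namespace Vale.Agent.P181.H411.UB

open MvPolynomial Vale.Agent.P181 Vale.Agent.P181.H536 Vale.Agent.P181.H280
  Vale.Agent.P181.H780 Vale.Agent.P181.TN Vale.Agent.P181.TW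

variable {n : ℕ}

lemma exists_sec {M N : Type} [AddCommGroup M] [Module ℂ M] [AddCommMonoid N] [Module ℂ N]
    (f : M →ₗ[ℂ] N) (hf : Function.Surjective f) : ∃ g : N →ₗ[ℂ] M, ∀ x, f (g x) = x := by
  letI := Module.addCommMonoidToAddCommGroup ℂ (M := N)
  obtain ⟨g, hg⟩ := f.exists_rightInverse_of_surjective (LinearMap.range_eq_top.2 hf)
  exact ⟨g, fun x => LinearMap.congr_fun hg x⟩

/-- A linear choice of arrays. -/
lemma exists_lin (a b N : ℕ) : ∃ g : (Sym[ℂ]^a (Sym[ℂ]^b (Fin N → ℂ))) →ₗ[ℂ]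
    ((Fin a → Fin b → (Fin N → ℂ)) →₀ ℂ), ∀ x, elOf (g x) = x := by
  apply exists_sec (M := (Fin a → Fin b → (Fin N → ℂ)) →₀ ℂ)
    (N := Sym[ℂ]^a (Sym[ℂ]^b (Fin N → ℂ)))
    (Finsupp.linearCombination ℂ (fun v : Fin a → Fin b → (Fin N → ℂ) =>
      SymmetricPower.tprod ℂ (fun i => SymmetricPower.tprod ℂ (v i))))
  intro x
  obtain ⟨l, hl⟩ := exists_elOf x
  exact ⟨l, hl⟩

/-- The form as a linear map. -/
noncomputable def formL (a b N : ℕ) : ((Fin a → Fin b → (Fin N → ℂ)) →₀ ℂ) →ₗ[ℂ]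
    MultilinearMap ℂ (fun _ : Fin a => MvPolynomial (Fin N) ℂ) ℂ :=
  Finsupp.linearCombination ℂ (fun v : Fin a → Fin b → (Fin N → ℂ) =>
    (rowForm v).compLinearMap (fun _ => evL N))

lemma formL_apply {a b N : ℕ} (l : (Fin a → Fin b → (Fin N → ℂ)) →₀ ℂ) :
    formL a b N l = formOf l := rfl

/-- The coefficient of a configuration as a linear map. -/
noncomputable def cfL (b : ℕ) {a N : ℕ} (v : Fin N → Fin (n + 1) → ℕ) : Fm n a →ₗ[ℂ] ℂ where
  toFun F := cf b v F
  map_add' F G := by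
    rw [cf, cf, cf, ← Finset.sum_add_distrib]
    rfl
  map_smul' c F := by
    rw [cf, cf, Finset.smul_sum]
    rfl

/-- **The upper bound for the kernel.** -/
theorem kernel_le_of_gen (hgen : Gen n) {a b t : ℕ} (lam : Fin (n + 2) → ℕ)
    (ht : 2 * a + t ≤ b + 3) (htb : t ≤ b) :
    Module.finrank ℂ ↥(LinearMap.ker (foulkesHowe a b (Fin (n + 2) → ℂ)) ⊓
      hwSpace lam (plethAct a b (n + 2)) : Submodule ℂ (Pleth a b (n + 2))) ≤
    Set.ncard {M : Multiset (Fin (n + 1) → ℕ) |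
      (∀ v ∈ M, v ≠ 0 ∧ ∑ i, v i ≤ a) ∧ M.sum = (fun i => lam i.succ) ∧
        t ≤ (M.filter fun v => ∃ i : Fin n, v i.succ ≠ 0).card} := by
  classical
  obtain ⟨g, hg⟩ := exists_lin a b (n + 2)
  obtain ⟨N, hN⟩ := Z.H663.exists_prod_unif (Fin (n + 1)) b
  set K : Submodule ℂ (Pleth a b (n + 2)) := LinearMap.ker (foulkesHowe a b (Fin (n + 2) → ℂ)) ⊓
    hwSpace lam (plethAct a b (n + 2)) with hK
  letI := Module.addCommMonoidToAddCommGroup ℂ (M := K)
  let fm : K →ₗ[ℂ] Fm n a := formL a b (n + 2) ∘ₗ g ∘ₗ K.subtype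
  have hfm : ∀ x : K, fm x = formOf (g x.1) := fun x => rfl
  refine Z.H663.finrank_le_ncard (N := t + N) (K := K) (fun i => lam i.succ)
    (fun v => cfL b v ∘ₗ fm) ?_ ?_ ?_ ?_
  · intro σ v
    apply LinearMap.ext
    intro x
    exact cf_perm b v (fm x) σ
  · intro v hv
    obtain ⟨x, hx⟩ : ∃ x, (cfL b v ∘ₗ fm) x ≠ 0 := by
      by_contra hcon
      push Not at hcon
      exact hv (LinearMap.ext hcon)
    exact cf_deg hx
  · intro v hv
    obtain ⟨x, hx⟩ : ∃ x, (cfL b v ∘ₗ fm) x ≠ 0 := by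
      by_contra hcon
      push Not at hcon
      exact hv (LinearMap.ext hcon)
    have h1 : elOf (g x.1) ∈ hwSpace lam (plethAct a b (n + 2)) :=
      (congrArg (fun y : Pleth a b (n + 2) => y ∈ hwSpace lam (plethAct a b (n + 2)))
        (hg x.1)).mpr x.2.2
    exact cf_weight lam (g x.1) h1 hx
  · intro x hx
    have h1 : elOf (g x.1) ∈ hwSpace lam (plethAct a b (n + 2)) :=
      (congrArg (fun y : Pleth a b (n + 2) => y ∈ hwSpace lam (plethAct a b (n + 2)))
        (hg x.1)).mpr x.2.2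
    have h2 : foulkesHowe a b (Fin (n + 2) → ℂ) (elOf (g x.1)) = 0 :=
      (congrArg (foulkesHowe a b (Fin (n + 2) → ℂ)) (hg x.1)).trans x.2.1
    have h3 : Van b (formOf (g x.1)) := by
      apply sep hgen (t := t) (N := N) (w := fun i => lam i.succ.succ) (formOf (g x.1))
        (formOf_symm _) ?_ (H72.formOf_scw lam _ h1) (isK_formOf _ h2) ht htb hN
      · intro v hv
        exact hx v hv
      · intro z hz P hP
        exact formOf_shear (n := n) lam (g x.1) h1 (sh n z) (isShear_sh hz) P hP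
    have h4 : elOf (g x.1) = 0 := elOf_eq_zero (g x.1) h3
    exact Subtype.ext ((hg x.1).symm.trans h4)

/-- **The upper bound for the kernel.** The multiplicity of `lam` in the kernel of the
Foulkes-Howe map is at most the number of multisets of nonzero letters of total weight
`lam 1, lam 2, ..` with at least `t` letters with a cell in the rows from the third one on. -/
theorem kernel_le {a b t : ℕ} (lam : Fin (n + 2) → ℕ) (ht : 2 * a + t ≤ b + 3) (htb : t ≤ b) :
    Module.finrank ℂ ↥(LinearMap.ker (foulkesHowe a b (Fin (n + 2) → ℂ)) ⊓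
      hwSpace lam (plethAct a b (n + 2)) : Submodule ℂ (Pleth a b (n + 2))) ≤
    Set.ncard {M : Multiset (Fin (n + 1) → ℕ) |
      (∀ v ∈ M, v ≠ 0 ∧ ∑ i, v i ≤ a) ∧ M.sum = (fun i => lam i.succ) ∧
        t ≤ (M.filter fun v => ∃ i : Fin n, v i.succ ≠ 0).card} :=
  kernel_le_of_gen (fun b _ _ F y => gen b F y) lam ht htb

end Vale.Agent.P181.H411.UB
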