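import Vale.Agent.P181.H411.UFinal
import Vale.Agent.P181.Z.H463.Ideal
import Vale.Agent.P181.Z.H582.NT
import Vale.Agent.P181.H921.ZNp

/-!
P181, the upper bound for the kernel in terms of the multisets of letters of the counting half.
-/

set_option autoImplicit false

namespace Vale.Agent.P181.H411.UB

open Vale.Agent.P181 Vale.Agent.P181.Z.H582 Vale.Agent.P181.H921.Z

/-- The multisets of `kernel_le` are the multisets of letters in `Lt`. -/
theorem set_eq_NTs {n a t : ℕ} (w : Fin (n + 1) → ℕ) :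
    {M : Multiset (Fin (n + 1) → ℕ) |
      (∀ v ∈ M, v ≠ 0 ∧ ∑ i, v i ≤ a) ∧ M.sum = w ∧
        t ≤ (M.filter fun v => ∃ i : Fin n, v i.succ ≠ 0).card} =
    NTs (Lt a (n + 1)) (fun v => ∃ i : Fin n, v i.succ ≠ 0) w t := by
  have h1 : ∀ v : Fin (n + 1) → ℕ, (v ≠ 0 ∧ ∑ i, v i ≤ a) ↔ v ∈ Lt a (n + 1) := by
    intro v
    rw [mem_Lt]
    constructor
    · rintro ⟨h0, h2⟩
      refine ⟨?_, h2⟩
      by_contra hcon
      apply h0
      funext i
      have h3 : ∑ i, v i = 0 := by omega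
      exact (Finset.sum_eq_zero_iff.1 h3) i (Finset.mem_univ i)
    · rintro ⟨h0, h2⟩
      refine ⟨?_, h2⟩
      rintro rfl
      simp at h0
  ext M
  simp only [Set.mem_setOf_eq, NTs, h1]

/-- **The upper bound for the kernel**, in the form of the counting half. -/
theorem KH_le_NTs {n a b t : ℕ} (lam : Fin (n + 2) → ℕ) (ht : 2 * a + t ≤ b + 3) (htb : t ≤ b) :
    Module.finrank ℂ (Z463.KH a b (n + 2) lam) ≤
      (NTs (Lt a (n + 1)) (fun v => ∃ i : Fin n, v i.succ ≠ 0) (fun i => lam i.succ) t).ncard := by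
  rw [← set_eq_NTs]
  exact kernel_le lam ht htb

/-- The same for any description of the letters with a cell in the rows from the third one on. -/
theorem KH_le_NTs' {n a b t : ℕ} (lam : Fin (n + 2) → ℕ) (ht : 2 * a + t ≤ b + 3) (htb : t ≤ b)
    (J : (Fin (n + 1) → ℕ) → Prop) [DecidablePred J]
    (hJ : ∀ v, J v ↔ ∃ i : Fin n, v i.succ ≠ 0) :
    Module.finrank ℂ (Z463.KH a b (n + 2) lam) ≤
      (NTs (Lt a (n + 1)) J (fun i => lam i.succ) t).ncard := by
  have h1 : NTs (Lt a (n + 1)) J (fun i => lam i.succ) t =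
      NTs (Lt a (n + 1)) (fun v => ∃ i : Fin n, v i.succ ≠ 0) (fun i => lam i.succ) t := by
    ext M
    have h2 : M.filter J = M.filter (fun v => ∃ i : Fin n, v i.succ ≠ 0) :=
      Multiset.filter_congr (fun v _ => hJ v)
    simp only [NTs, Set.mem_setOf_eq, h2]
  rw [h1]
  exact KH_le_NTs lam ht htb

end Vale.Agent.P181.H411.UB
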