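import Vale.Agent.P181.H411.UIter

/-!
P181, the upper bound for the kernel: homogenisation, and the product of lines.
-/

set_option autoImplicit false

open MvPolynomial

namespace Vale.Agent.P181.H411.UB

open Vale.Agent.P181 Vale.Agent.P181.H536 Vale.Agent.P181.H280 Vale.Agent.P181.TN
  Vale.Agent.P181.TW

variable {n : ℕ}

lemma hom_monomial (b : ℕ) (μ : Fin (n + 1) →₀ ℕ) (c : ℂ) : hom n b (monomial μ c) =
    c • (if μ.degree ≤ b then X 0 ^ (b - μ.degree) * rename Fin.succ (monomial μ (1 : ℂ))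
      else 0) := by
  have h1 : (monomial μ c : Af n) = c • basisMonomials (Fin (n + 1)) ℂ μ := by
    rw [coe_basisMonomials, smul_monomial, smul_eq_mul, mul_one]
  rw [h1, map_smul, hom, Module.Basis.constr_basis]

lemma hom_zero_of (b : ℕ) (P : Af n) (h : ∀ μ : Fin (n + 1) →₀ ℕ, μ.degree ≤ b → coeff μ P = 0) :
    hom n b P = 0 := by
  rw [← support_sum_monomial_coeff P, map_sum]
  apply Finset.sum_eq_zero
  intro μ hμ
  rw [hom_monomial]
  by_cases hd : μ.degree ≤ b
  · exact absurd (h μ hd) (mem_support_iff.1 hμ)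
  · rw [if_neg hd, smul_zero]

lemma hom_congr (b : ℕ) (P Q : Af n)
    (h : ∀ μ : Fin (n + 1) →₀ ℕ, μ.degree ≤ b → coeff μ P = coeff μ Q) :
    hom n b P = hom n b Q := by
  rw [← sub_eq_zero, ← map_sub]
  apply hom_zero_of
  intro μ hμ
  rw [coeff_sub, h μ hμ, sub_self]

lemma mul_congr_deg (b : ℕ) (R P Q : Af n)
    (h : ∀ μ : Fin (n + 1) →₀ ℕ, μ.degree ≤ b → coeff μ P = coeff μ Q)
    (μ : Fin (n + 1) →₀ ℕ) (hμ : μ.degree ≤ b) : coeff μ (R * P) = coeff μ (R * Q) := by
  classical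
  rw [coeff_mul, coeff_mul]
  apply Finset.sum_congr rfl
  intro x hx
  rw [h]
  have h1 := Finset.HasAntidiagonal.mem_antidiagonal.1 hx
  rw [← h1, map_add] at hμ
  omega

lemma dh_X0 : dh n (X 0) = 1 := by
  rw [dh, aeval_X, Fin.cons_zero]

lemma dh_succ (i : Fin (n + 1)) : dh n (X i.succ) = X i := by
  rw [dh, aeval_X, Fin.cons_succ]

lemma dh_prod {b : ℕ} (c : Fin b → Fin (n + 2)) : ∃ μ : Fin (n + 1) →₀ ℕ, μ.degree ≤ b ∧
    dh n (∏ j, X (c j)) = monomial μ 1 ∧
    (∏ j, X (c j) : Sn n) = X 0 ^ (b - μ.degree) * rename Fin.succ (monomial μ (1 : ℂ)) := by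
  induction b with
  | zero =>
    refine ⟨0, by simp, ?_, ?_⟩
    · simp
    · simp
  | succ b ih =>
    obtain ⟨μ, h1, h2, h3⟩ := ih (fun j => c j.succ)
    rw [Fin.prod_univ_succ, map_mul, h2]
    rcases Fin.eq_zero_or_eq_succ (c 0) with h0 | ⟨i, h0⟩
    · refine ⟨μ, by omega, ?_, ?_⟩
      · rw [h0, dh_X0, one_mul]
      · rw [h0, h3, ← mul_assoc, ← pow_succ']
        congr 2
        omega
    · have h4 : (Finsupp.single i 1 + μ).degree = 1 + μ.degree := by
        rw [map_add, Finsupp.degree_single]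
      refine ⟨Finsupp.single i 1 + μ, by omega, ?_, ?_⟩
      · rw [h0, dh_succ, X, monomial_mul, one_mul]
      · have h5 : (monomial (Finsupp.single i 1 + μ) (1 : ℂ) : Af n) = X i * monomial μ 1 := by
          rw [X, monomial_mul, one_mul]
        rw [h0, h3, h5, map_mul, rename_X, h4]
        have h6 : b + 1 - (1 + μ.degree) = b - μ.degree := by omega
        rw [h6]
        ring

/-- Homogenisation undoes dehomogenisation. -/
theorem hom_dh {b : ℕ} {p : Sn n} (hp : p ∈ linS (n + 2) ^ b) : hom n b (dh n p) = p := by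
  have h1 := span_pow_eq _ _ hp
  clear hp
  induction h1 using Submodule.span_induction with
  | mem x hx =>
    obtain ⟨c, rfl⟩ := hx
    obtain ⟨μ, h1, h2, h3⟩ := dh_prod c
    change hom n b (dh n (∏ j, X (c j))) = ∏ j, X (c j)
    rw [h2, hom_monomial, if_pos h1, one_smul, h3]
  | zero => rw [map_zero, map_zero]
  | add x y _ _ hx hy => rw [map_add, map_add, hx, hy]
  | smul c x _ hx => rw [map_smul, map_smul, hx]

/-- The slopes of a list. -/
def xs : List ((Fin n → ℕ) × ℂ) → ℕ → ℂ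
  | [], _ => 0
  | p :: _, 0 => p.2
  | _ :: l, i + 1 => xs l i

/-- The coordinates of the lines. -/
noncomputable def y1 (l : List ((Fin n → ℕ) × ℂ)) (c : ℕ → Fin n → ℂ) (i : ℕ) :
    Fin (n + 1) → ℂ := Fin.cons (xs l i) (c i)

lemma dh_line (x : ℂ) (c : Fin n → ℂ) : dh n (ln n x + ∑ i, c i • X i.succ.succ) =
    1 + ∑ i, (Fin.cons x c : Fin (n + 1) → ℂ) i • (X i : Af n) := by
  rw [Fin.sum_univ_succ, Fin.cons_zero, map_add, map_sum, ln, map_add, map_smul, dh_X0]
  have h1 : dh n (X 1) = X 0 := dh_succ 0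
  rw [h1, add_assoc]
  congr 2
  apply Finset.sum_congr rfl
  intro i _
  rw [map_smul, dh_succ, Fin.cons_succ]

lemma dh_lp (l : List ((Fin n → ℕ) × ℂ)) : ∀ c : ℕ → Fin n → ℂ, dh n (lp l c) =
    ∏ i ∈ Finset.range l.length, (1 + ∑ k, y1 l c i k • (X k : Af n)) := by
  induction l with
  | nil =>
    intro c
    rw [lp, map_one, List.length_nil, Finset.range_zero, Finset.prod_empty]
  | cons p l ih =>
    intro c
    rw [lp, map_mul, dh_line, ih, List.length_cons, Finset.prod_range_succ', mul_comm]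
    rfl

lemma lp_mem (l : List ((Fin n → ℕ) × ℂ)) : ∀ c : ℕ → Fin n → ℂ,
    lp l c ∈ linS (n + 2) ^ l.length := by
  induction l with
  | nil =>
    intro c
    rw [lp, List.length_nil, pow_zero]
    exact Submodule.one_le.1 le_rfl
  | cons p l ih =>
    intro c
    rw [lp, List.length_cons, pow_succ']
    exact Submodule.mul_mem_mul (line_mem (zs_mem (c 0)) p.2) (ih _)

end Vale.Agent.P181.H411.UB
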