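import Vale.Agent.P181.H411.UDefs
import Vale.Agent.P181.H921.WQ

/-!
P181, the upper bound for the kernel: iteration of Lemma G and extraction of a coefficient.
-/

set_option autoImplicit false

open MvPolynomial

namespace Vale.Agent.P181.H411.UB

open Vale.Agent.P181 Vale.Agent.P181.H536 Vale.Agent.P181.H280 Vale.Agent.P181.TN
  Vale.Agent.P181.TW Vale.Agent.P181.R2.H866 Vale.Agent.P181.H72 Vale.Agent.P181.H411.LemG

variable {n : ℕ}

/-- Iterated coefficients. -/
noncomputable def DWs {a : ℕ} : List ((Fin n → ℕ) × ℂ) → Fm n a → Fm n a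
  | [], F => F
  | p :: l, F => DWs l (DWm p.1 p.2 F)

/-- Products of lines. -/
noncomputable def lp : List ((Fin n → ℕ) × ℂ) → (ℕ → Fin n → ℂ) → Sn n
  | [], _ => 1
  | p :: l, c => (ln n p.2 + ∑ i, c 0 i • X i.succ.succ) * lp l (fun j => c (j + 1))

/-- A list of nonzero exponents which does not occur gives zero. -/
theorem dws_zero {ι : Type*} {a : ℕ} (l : List ((Fin n → ℕ) × ℂ)) : ∀ (E : Finset ι)
    (ε : ι → ℕ → Fin n → ℕ) (α : ι → ℂ) (F : Fm n a) (g : Fin a → Sn n), (∀ p ∈ l, p.1 ≠ 0) →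
    (∀ t ∈ E, (∀ i < l.length, ε t i ≠ 0) → α t = 0) →
    (∀ c : ℕ → Fin n → ℂ, F (fun s => lp l c * g s) =
      ∑ t ∈ E, α t * ∏ i ∈ Finset.range l.length, ∏ j, c i j ^ ε t i j) → DWs l F g = 0 := by
  classical
  induction l with
  | nil =>
    intro E ε α F g _ h1 h2
    have h3 := h2 (fun _ _ => 0)
    simp only [lp, one_mul, List.length_nil, Finset.range_zero, Finset.prod_empty, mul_one] at h3
    rw [DWs, h3]
    apply Finset.sum_eq_zero
    intro t ht
    exact h1 t ht (fun i hi => absurd hi (by simp))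
  | cons p l ih =>
    intro E ε α F g hp h1 h2
    rw [DWs]
    apply ih (E.filter (fun t => ε t 0 = p.1)) (fun t i => ε t (i + 1)) α (DWm p.1 p.2 F) g
      (fun q hq => hp q (List.mem_cons_of_mem _ hq))
    · intro t ht h3
      rw [Finset.mem_filter] at ht
      apply h1 t ht.1
      intro i hi
      cases i with
      | zero =>
        rw [ht.2]
        exact hp p List.mem_cons_self
      | succ i =>
        apply h3 i
        rw [List.length_cons] at hi
        omega
    · intro c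
      rw [DWm_apply]
      have h4 : PW p.2 F (fun s => lp l c * g s) = ∑ t ∈ E, monomial
          (Finsupp.equivFunOnFinite.symm (ε t 0))
          (α t * ∏ i ∈ Finset.range l.length, ∏ j, c i j ^ ε t (i + 1) j) := by
        apply MvPolynomial.funext
        intro c0
        rw [eval_PW, map_sum]
        have h5 := h2 (fun i => Nat.casesOn i c0 c)
        have h6 : (fun s => lp (p :: l) (fun i => Nat.casesOn i c0 c) * g s) =
            fun s => (ln n p.2 + ∑ i, c0 i • X i.succ.succ) * (lp l c * g s) := by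
          funext s
          rw [lp, mul_assoc]
          rfl
        rw [h6] at h5
        rw [h5]
        apply Finset.sum_congr rfl
        intro t _
        rw [List.length_cons, Finset.prod_range_succ', eval_monomial,
          Finsupp.prod_fintype _ _ (fun _ => pow_zero _), ← mul_assoc]
        rfl
      have h5 := coeff_PW p.2 F (fun s => lp l c * g s) (Finsupp.equivFunOnFinite.symm p.1)
      rw [h4, coeff_sum] at h5
      change _ = DW p.1 p.2 F _ at h5
      rw [← h5, Finset.sum_filter]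
      apply Finset.sum_congr rfl
      intro t _
      rw [coeff_monomial]
      by_cases h : ε t 0 = p.1
      · rw [if_pos h, if_pos (by rw [h])]
      · rw [if_neg h, if_neg]
        intro h6
        exact h (Finsupp.equivFunOnFinite.symm.injective h6)

/-- One step of the iteration. -/
theorem stepJ {a b : ℕ} {w : Fin n → ℕ} {F : Fm n a} (hab : 2 * a ≤ b + 3) (hsy : IsSymm F)
    (hI : Inv (b + 1) F) (hH : HomW (b + 1) w F) (hK : IsK (linS (n + 2)) (b + 1) F)
    (hV : ¬ Van (b + 1) F) : ∃ (e : Fin n → ℕ) (x : ℂ), e ≠ 0 ∧ IsSymm (DWm e x F) ∧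
      Inv b (DWm e x F) ∧ HomW b (w - e) (DWm e x F) ∧ IsK (linS (n + 2)) b (DWm e x F) ∧
      ¬ Van b (DWm e x F) := by
  classical
  have hw : 1 ≤ ∑ i, w i := by
    by_contra hcon
    apply hV
    refine treeW (N := max 1 (a - 1)) (le_max_left _ _) ?_ ?_ F hsy hI hH hK
    · have : max 1 (a - 1) ≤ b + 1 := max_le (by omega) (by omega)
      omega
    · have := le_max_right 1 (a - 1)
      omega
  obtain ⟨e₀, hi₀, x₀, g₀, hg₀, h₀⟩ : ∃ e : Fin n → ℕ, (∃ i, 1 ≤ e i) ∧ ∃ (x : ℂ)
      (g : Fin a → Sn n), Dg b g ∧ DW e x F g ≠ 0 := by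
    by_contra hcon
    push Not at hcon
    apply hV
    apply lemG a b w F hab hw hsy hI hH
    apply q2_of
    intro x c g hg
    apply q2_of_DW Finset.univ F _ x c g hg
    rintro e ⟨i, _, hi⟩ x g hg
    exact hcon e ⟨i, hi⟩ x g hg
  let P : ℕ → Prop := fun s => ∃ e : Fin n → ℕ, ∑ i, e i = s ∧ ∃ (x : ℂ) (g : Fin a → Sn n),
    Dg b g ∧ DW e x F g ≠ 0
  have hP0 : P (∑ i, e₀ i) := ⟨e₀, rfl, x₀, g₀, hg₀, h₀⟩
  have hPa : ∀ s, P s → s ≤ a := by
    rintro s ⟨e, rfl, x, g, _, h⟩
    by_contra hcon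
    exact h (DW_of_lt (by omega) x F g)
  have hs1 := Nat.findGreatest_spec (P := P) (hPa _ hP0) hP0
  have hs2 := Nat.le_findGreatest (P := P) (hPa _ hP0) hP0
  obtain ⟨e, he, x, g, hg, hne⟩ := hs1
  have hmax : ∀ s, Nat.findGreatest P a < s → ¬ P s := by
    intro s hs hPs
    have := Nat.le_findGreatest (P := P) (hPa _ hPs) hPs
    omega
  have hpos : 1 ≤ ∑ i, e i := by
    obtain ⟨i, hi⟩ := hi₀
    have h1 : e₀ i ≤ ∑ i, e₀ i := Finset.single_le_sum (fun _ _ => Nat.zero_le _)
      (Finset.mem_univ i)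
    omega
  have hew : e ≤ w := by
    by_contra hcon
    have h1 : ∃ i, w i < e i := by
      by_contra hcon'
      push Not at hcon'
      exact hcon hcon'
    obtain ⟨i₀, hi₀⟩ := h1
    exact hne (DW_zero_of_weight hH e i₀ hi₀ x hg)
  refine ⟨e, x, ?_, DWm_symm e x hsy, ?_, DWm_homW hH e hew x, DWm_isK e x hK, ?_⟩
  · rintro rfl
    simp at hpos
  · apply inv_of_one
    intro i ζ P hP
    rw [DWm_apply, DWm_apply]
    apply DW_shear1 hI e x _ i ζ hP
    intro d hd hne' g' hg'
    by_contra hcon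
    refine hmax (∑ i, d i) ?_ ⟨d, rfl, x, g', hg', hcon⟩
    rw [← he]
    apply Finset.sum_lt_sum (fun i _ => hd i)
    by_contra hcon
    push Not at hcon
    apply hne'
    funext i
    exact le_antisymm (hcon i (Finset.mem_univ i)) (hd i)
  · intro hv
    have h1 := hv g hg
    rw [DWm_apply] at h1
    exact hne h1

/-- **Iteration of Lemma G.** -/
theorem iterJ {a : ℕ} (k : ℕ) : ∀ (B : ℕ) (w : Fin n → ℕ) (F : Fm n a), 2 * a + k ≤ B + 3 →
    k ≤ B → IsSymm F → Inv B F → HomW B w F → IsK (linS (n + 2)) B F → ¬ Van B F →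
    ∃ l : List ((Fin n → ℕ) × ℂ), l.length = k ∧ (∀ p ∈ l, p.1 ≠ 0) ∧ IsSymm (DWs l F) ∧
      ¬ Van (B - k) (DWs l F) := by
  induction k with
  | zero =>
    intro B w F _ _ hsy _ _ _ hV
    exact ⟨[], rfl, fun p hp => absurd hp (by simp), hsy, hV⟩
  | succ k ih =>
    intro B w F h1 h2 hsy hI hH hK hV
    obtain ⟨b, rfl⟩ : ∃ b, B = b + 1 := ⟨B - 1, by omega⟩
    obtain ⟨e, x, he, h3, h4, h5, h6, h7⟩ := stepJ (by omega) hsy hI hH hK hV
    obtain ⟨l, hl1, hl2, hl3, hl4⟩ := ih b (w - e) (DWm e x F) (by omega) (by omega) h3 h4 h5 h6 h7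
    refine ⟨(e, x) :: l, by rw [List.length_cons, hl1], ?_, hl3, ?_⟩
    · intro p hp
      rcases List.mem_cons.1 hp with rfl | hp
      · exact he
      · exact hl2 p hp
    · have h8 : b + 1 - (k + 1) = b - k := by omega
      rw [h8]
      exact hl4

end Vale.Agent.P181.H411.UB
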