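import Vale.Agent.P181.H411.UHom
import Vale.Agent.P181.PM.Alg

/-!
P181, the upper bound for the kernel: the coefficients of the configurations with many letters
with a cell in the rows from the third one on separate the kernel.
-/

set_option autoImplicit false

open MvPolynomial

namespace Vale.Agent.P181.H411.UB

open Vale.Agent.P181 Vale.Agent.P181.H536 Vale.Agent.P181.H280 Vale.Agent.P181.TN
  Vale.Agent.P181.TW

variable {n : ℕ}

/-- The generating function of the coefficients of the configurations. -/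
def Gen (n : ℕ) : Prop := ∀ (b a N : ℕ) (F : Fm n a) (y : Fin N → Fin (n + 1) → ℂ),
  F (fun _ => hom n b (∏ j, (1 + ∑ i, y j i • (X i : Af n)))) =
    ∑ v ∈ Fintype.piFinset (fun _ : Fin N => bx (n + 1) a),
      (∏ j, ∏ i, y j i ^ v j i) * cf b v F

lemma exists_coord {m : Af n} (hm : m.IsHomogeneous 1) :
    ∃ y : Fin (n + 1) → ℂ, m = ∑ i, y i • (X i : Af n) := by
  have h1 : m ∈ homogeneousSubmodule (Fin (n + 1)) ℂ 1 := hm
  rw [homogeneousSubmodule_one_eq_span_X] at h1
  obtain ⟨y, hy⟩ := (Submodule.mem_span_range_iff_exists_fun ℂ).1 h1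
  exact ⟨y, hy.symm⟩

/-- a form which does not vanish on the diagonal does not vanish at a polynomial with constant
term one -/
lemma exists_const_one {a d : ℕ} (G : Fm n a) (hG : IsSymm G) (hV : ¬ Van d G) :
    ∃ h ∈ linS (n + 2) ^ d, constantCoeff (dh n h) = 1 ∧ G (fun _ => h) ≠ 0 := by
  classical
  obtain ⟨h, hh, hne⟩ : ∃ h ∈ linS (n + 2) ^ d, G (fun _ => h) ≠ 0 := by
    by_contra hcon
    push Not at hcon
    apply hV
    intro P hP
    exact PM.polar G hG (linS (n + 2) ^ d) hcon P hP
  obtain ⟨q, hq⟩ := poly_exists G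
    (fun _ => Polynomial.C h + Polynomial.X * Polynomial.C ((X 0 : Sn n) ^ d))
  have hq' : ∀ s : ℂ, q.eval s = G (fun _ => h + s • (X 0 : Sn n) ^ d) := by
    intro s
    rw [hq]
    congr 1
    funext _
    rw [Polynomial.eval_add, Polynomial.eval_mul, Polynomial.eval_C, Polynomial.eval_X,
      Polynomial.eval_C, Algebra.smul_def]
  have hq0 : q ≠ 0 := by
    rintro rfl
    have h1 := hq' 0
    rw [Polynomial.eval_zero, zero_smul, add_zero] at h1
    exact hne h1.symm
  have hr0 : q * (Polynomial.X + Polynomial.C (constantCoeff (dh n h))) ≠ 0 :=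
    mul_ne_zero hq0 (Polynomial.X_add_C_ne_zero _)
  obtain ⟨s, hs⟩ : ∃ s : ℂ, (q * (Polynomial.X + Polynomial.C (constantCoeff (dh n h)))).eval s
      ≠ 0 := by
    by_contra hcon
    push Not at hcon
    apply hr0
    apply Polynomial.funext
    intro s
    rw [hcon s, Polynomial.eval_zero]
  rw [Polynomial.eval_mul, Polynomial.eval_add, Polynomial.eval_X, Polynomial.eval_C] at hs
  have hs1 := left_ne_zero_of_mul hs
  have hs2 := right_ne_zero_of_mul hs
  rw [hq'] at hs1
  have hc : constantCoeff (dh n (h + s • (X 0 : Sn n) ^ d)) =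
      s + constantCoeff (dh n h) := by
    rw [map_add, map_smul, map_pow, dh_X0, one_pow, map_add, add_comm]
    congr 1
    rw [smul_eq_C_mul, mul_one, constantCoeff_C]
  refine ⟨(s + constantCoeff (dh n h))⁻¹ • (h + s • (X 0 : Sn n) ^ d), ?_, ?_, ?_⟩
  · exact Submodule.smul_mem _ _ (Submodule.add_mem _ hh (Submodule.smul_mem _ _
      (Submodule.pow_mem_pow _ (X_mem_linS 0) _)))
  · rw [map_smul, smul_eq_C_mul, map_mul, constantCoeff_C, hc, inv_mul_cancel₀ hs2]
  · have h1 : G (fun _ => (s + constantCoeff (dh n h))⁻¹ • (h + s • (X 0 : Sn n) ^ d)) =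
        (∏ _i : Fin a, (s + constantCoeff (dh n h))⁻¹) • G (fun _ => h + s • (X 0 : Sn n) ^ d) :=
      MultilinearMap.map_smul_univ G (fun _ => (s + constantCoeff (dh n h))⁻¹)
        (fun _ => h + s • (X 0 : Sn n) ^ d)
    rw [h1, smul_eq_mul]
    exact mul_ne_zero (Finset.prod_ne_zero_iff.2 fun _ _ => inv_ne_zero hs2) hs1

/-- **Separation.** -/
theorem sep (hgen : Gen n) {a b t N : ℕ} {w : Fin n → ℕ} (F : Fm n a) (hsy : IsSymm F)
    (hI : Inv b F) (hH : HomW b w F) (hK : IsK (linS (n + 2)) b F) (ht : 2 * a + t ≤ b + 3)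
    (htb : t ≤ b)
    (hN : ∀ P : Af n, constantCoeff P = 1 → ∃ m : Fin N → Af n, (∀ j, (m j).IsHomogeneous 1) ∧
      ∀ x : Fin (n + 1) →₀ ℕ, x.degree ≤ b → coeff x (∏ j, (1 + m j)) = coeff x P)
    (h0 : ∀ v : Fin (t + N) → Fin (n + 1) → ℕ,
      t ≤ (Finset.univ.filter (fun j => ∃ i : Fin n, v j i.succ ≠ 0)).card → cf b v F = 0) :
    Van b F := by
  classical
  by_contra hV
  obtain ⟨l, hl, hl0, hls, hlV⟩ := iterJ t b w F ht htb hsy hI hH hK hV
  obtain ⟨h, hh, hc, hne⟩ := exists_const_one _ hls hlV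
  obtain ⟨m, hm1, hm2⟩ := hN (dh n h) hc
  choose y' hy' using fun j => exists_coord (hm1 j)
  apply hne
  subst hl
  let y : (ℕ → Fin n → ℂ) → Fin (l.length + N) → Fin (n + 1) → ℂ :=
    fun c => Fin.append (fun i : Fin l.length => y1 l c i) y'
  apply dws_zero l (Fintype.piFinset (fun _ : Fin (l.length + N) => bx (n + 1) a))
    (fun v i => if hi : i < l.length then fun j => v (Fin.castAdd N ⟨i, hi⟩) j.succ else 0)
    (fun v => (∏ i : Fin l.length, xs l i ^ v (Fin.castAdd N i) 0) *
      (∏ j : Fin N, ∏ i, y' j i ^ v (Fin.natAdd l.length j) i) * cf b v F) F (fun _ => h) hl0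
  · intro v _ hv
    rw [h0 v, mul_zero]
    have h1 : (Finset.univ : Finset (Fin l.length)).map (Fin.castAddEmb N) ⊆
        Finset.univ.filter (fun j => ∃ i : Fin n, v j i.succ ≠ 0) := by
      intro j hj
      obtain ⟨i, _, rfl⟩ := Finset.mem_map.1 hj
      rw [Finset.mem_filter]
      refine ⟨Finset.mem_univ _, ?_⟩
      have h2 := hv i i.2
      rw [dif_pos i.2] at h2
      by_contra hcon
      push Not at hcon
      apply h2
      funext k
      exact hcon k
    have h3 := Finset.card_le_card h1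
    rw [Finset.card_map, Finset.card_univ, Fintype.card_fin] at h3
    exact h3
  · intro c
    have e1 : (fun _ : Fin a => lp l c * h) =
        fun _ => hom n b (∏ j, (1 + ∑ i, y c j i • (X i : Af n))) := by
      funext _
      have e2 : lp l c * h ∈ linS (n + 2) ^ b := by
        have e3 : linS (n + 2) ^ b = linS (n + 2) ^ l.length * linS (n + 2) ^ (b - l.length) := by
          rw [← pow_add]
          congr 1
          omega
        rw [e3]
        exact Submodule.mul_mem_mul (lp_mem l c) hh
      rw [← hom_dh e2, map_mul]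
      rw [hom_congr b _ _ (mul_congr_deg b (dh n (lp l c)) (dh n h) (∏ j, (1 + m j))
        (fun μ hμ => (hm2 μ hμ).symm))]
      congr 1
      rw [Fin.prod_univ_add, dh_lp, Finset.prod_range]
      congr 1
      · apply Finset.prod_congr rfl
        intro i _
        simp only [y, Fin.append_left]
      · apply Finset.prod_congr rfl
        intro j _
        simp only [y, Fin.append_right]
        rw [← hy']
    rw [e1, hgen]
    apply Finset.sum_congr rfl
    intro v _
    rw [Fin.prod_univ_add]
    have e4 : ∏ i : Fin l.length, ∏ k, y c (Fin.castAdd N i) k ^ v (Fin.castAdd N i) k =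
        (∏ i : Fin l.length, xs l i ^ v (Fin.castAdd N i) 0) *
          ∏ i ∈ Finset.range l.length, ∏ j, c i j ^
            (if hi : i < l.length then fun j : Fin n => v (Fin.castAdd N ⟨i, hi⟩) j.succ else 0) j := by
      rw [Finset.prod_range, ← Finset.prod_mul_distrib]
      apply Finset.prod_congr rfl
      intro i _
      rw [Fin.prod_univ_succ, dif_pos i.2]
      simp only [y, Fin.append_left, y1, Fin.cons_zero, Fin.cons_succ]
    have e5 : ∏ j : Fin N, ∏ k, y c (Fin.natAdd l.length j) k ^ v (Fin.natAdd l.length j) k =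
        ∏ j : Fin N, ∏ i, y' j i ^ v (Fin.natAdd l.length j) i := by
      simp only [y, Fin.append_right]
    rw [e4, e5]
    ring

end Vale.Agent.P181.H411.UB
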